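import Mathlib.MeasureTheory.Constructions.Pi

/-!
Marginals and currying for finite product measures.
-/

open MeasureTheory
open scoped BigOperators

namespace Vale.Agent.P157

variable {α β : Type*} [Fintype α] [Fintype β] {E : Type*} [MeasurableSpace E]

/-- The marginal of an i.i.d. product along an injection. -/
lemma map_comp_injective (m : Measure E) [IsProbabilityMeasure m] {q : α → β}
    (hq : Function.Injective q) :
    (Measure.pi fun _ : β => m).map (fun z a => z (q a)) = Measure.pi fun _ : α => m := by
  classical
  refine (Measure.pi_eq fun s hs => ?_).symm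
  rw [Measure.map_apply (by fun_prop) (MeasurableSet.univ_pi hs)]
  have hpre : (fun (z : β → E) a => z (q a)) ⁻¹' (Set.univ.pi s)
      = Set.univ.pi (Function.extend q s fun _ => Set.univ) := by
    ext z
    simp only [Set.mem_preimage, Set.mem_univ_pi]
    constructor
    · intro h b
      by_cases hb : ∃ a, q a = b
      · obtain ⟨a, rfl⟩ := hb
        rw [hq.extend_apply]; exact h a
      · rw [Function.extend_apply' _ _ _ hb]; exact Set.mem_univ _
    · intro h a
      simpa [hq.extend_apply] using h (q a)
  rw [hpre, Measure.pi_pi]
  refine (Fintype.prod_of_injective q hq _ _ (fun b hb => ?_) (fun a => ?_)).symm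
  · rw [Function.extend_apply' _ _ _ (by simpa [Set.mem_range] using hb), measure_univ]
  · rw [hq.extend_apply]

/-- An i.i.d. product over a product index type, curried. -/
lemma map_curry (m : Measure E) [IsProbabilityMeasure m] :
    (Measure.pi fun _ : α × β => m).map (fun z a b => z (a, b))
      = Measure.pi fun _ : α => Measure.pi fun _ : β => m := by
  have h : (Measure.pi fun _ : α => Measure.pi fun _ : β => m).map
      (fun z (p : α × β) => z p.1 p.2) = Measure.pi fun _ : α × β => m := by
    refine (Measure.pi_eq fun s hs => ?_).symm
    rw [Measure.map_apply (by fun_prop) (MeasurableSet.univ_pi hs)]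
    have hpre : (fun (z : α → β → E) (p : α × β) => z p.1 p.2) ⁻¹' (Set.univ.pi s)
        = Set.univ.pi fun a => Set.univ.pi fun b => s (a, b) := by
      ext z; simp [Set.mem_univ_pi]
    rw [hpre, Measure.pi_pi]
    simp_rw [Measure.pi_pi]
    rw [Fintype.prod_prod_type]
  rw [← h, Measure.map_map (by fun_prop) (by fun_prop)]
  exact Measure.map_id

end Vale.Agent.P157
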