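import Vale.Agent.P157.Kernel
import Vale.Agent.P157.Marginal
import Mathlib.Analysis.Complex.Exponential
import Mathlib.MeasureTheory.Measure.CharacteristicFunction.Basic

/-!
Scalar facts and facts about Gaussian linear forms.
-/

open MeasureTheory ProbabilityTheory
open scoped BigOperators NNReal

namespace Vale.Agent.P157

lemma exp_ge_cubic (y : ℝ) : 1 + y + y ^ 2 / 2 - |y| ^ 3 ≤ Real.exp y := by
  rcases le_total 0 y with h | h
  · have := Real.quadratic_le_exp_of_nonneg h
    linarith [pow_nonneg (abs_nonneg y) 3]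
  · rcases le_total (-1) y with h1 | h1
    · have := (abs_le.1 (Real.exp_bound (x := y) (by rw [abs_le]; constructor <;> linarith)
        (n := 3) (by norm_num))).1
      simp [Finset.sum_range_succ, Nat.factorial] at this
      have h3 := pow_nonneg (abs_nonneg y) 3
      linarith
    · rw [abs_of_nonpos h]
      nlinarith [Real.exp_pos y, mul_nonneg (by linarith : 0 ≤ -1 - y) (sq_nonneg y)]

/-- Lower bound for `log` above `1`. -/
lemma le_log_of_le {X a : ℝ} (hX : 1 ≤ X) (ha : a ≤ X - 1) : a - a ^ 2 / 2 ≤ Real.log X := by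
  rcases le_or_gt a 0 with h | h
  · nlinarith [Real.log_nonneg hX, sq_nonneg a]
  · refine le_trans ?_ ((Real.le_log_one_add_of_nonneg h.le).trans
      (Real.log_le_log (by linarith) (by linarith)))
    rw [le_div_iff₀ (by linarith)]
    nlinarith [pow_pos h 3]

section Means

variable {X : Type*} [MeasurableSpace X] {G : Measure X} [IsProbabilityMeasure G] {F : X → ℝ}

lemma mean_sq_le (hF : Integrable F G) (hF2 : Integrable (fun x => F x ^ 2) G) :
    (∫ x, F x ∂G) ^ 2 ≤ ∫ x, F x ^ 2 ∂G := by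
  set a := ∫ x, F x ∂G
  have hi : Integrable (fun x => 2 * a * F x - a ^ 2) G :=
    (hF.const_mul _).sub (integrable_const _)
  have := integral_mono hi hF2 fun x => by
    dsimp only; nlinarith [sq_nonneg (F x - a)]
  rw [integral_sub (hF.const_mul _) (integrable_const _), integral_const_mul, integral_const,
    probReal_univ, one_smul] at this
  linarith [show 2 * a * a - a ^ 2 = a ^ 2 by ring]

lemma mean_cube_le (h0 : ∀ x, 0 ≤ F x) (hF : Integrable F G)
    (hF3 : Integrable (fun x => F x ^ 3) G) : (∫ x, F x ∂G) ^ 3 ≤ ∫ x, F x ^ 3 ∂G := by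
  set a := ∫ x, F x ∂G
  have ha : 0 ≤ a := integral_nonneg h0
  have hi : Integrable (fun x => 3 * a ^ 2 * F x - 2 * a ^ 3) G :=
    (hF.const_mul _).sub (integrable_const _)
  have := integral_mono hi hF3 fun x => by
    dsimp only; nlinarith [mul_nonneg (sq_nonneg (F x - a)) (by linarith [h0 x] : 0 ≤ F x + 2 * a)]
  rw [integral_sub (hF.const_mul _) (integrable_const _), integral_const_mul, integral_const,
    probReal_univ, one_smul] at this
  linarith [show 3 * a ^ 2 * a - 2 * a ^ 3 = a ^ 3 by ring]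

end Means

lemma integrable_pow_gauss (n : ℕ) : Integrable (fun z : ℝ => z ^ n) (gaussianReal 0 1) := by
  rcases Nat.eq_zero_or_pos n with rfl | hn
  · simp
  have h := (memLp_id_gaussianReal (μ := 0) (v := 1) n).integrable_norm_pow hn.ne'
  exact h.mono' (by fun_prop) (ae_of_all _ fun z => by simp [norm_pow])

lemma integrable_abs_pow_gauss (n : ℕ) : Integrable (fun z : ℝ => |z| ^ n) (gaussianReal 0 1) :=
  (integrable_pow_gauss n).abs.congr (ae_of_all _ fun z => abs_pow z n)

lemma gauss_sq : ∫ z, z ^ 2 ∂gaussianReal 0 1 = 1 := by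
  have h := variance_id_gaussianReal (μ := 0) (v := 1)
  rw [variance_of_integral_eq_zero (by fun_prop) (by simp)] at h
  simpa using h

/-- Rotation invariance in one variable. -/
lemma gauss_rotate {s t : ℝ} (hs : 0 ≤ s) (ht : 0 ≤ t) :
    ((gaussianReal 0 1).prod (gaussianReal 0 1)).map
        (fun z => Real.sqrt s * z.1 + Real.sqrt t * z.2)
      = (gaussianReal 0 1).map (fun z => Real.sqrt (s + t) * z) := by
  have hadd : Measurable fun z : ℝ × ℝ => z.1 + z.2 := by fun_prop
  have hm : Measurable (Prod.map (fun z => Real.sqrt s * z) fun z => Real.sqrt t * z) := by fun_prop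
  rw [show (fun z : ℝ × ℝ => Real.sqrt s * z.1 + Real.sqrt t * z.2)
      = (fun z : ℝ × ℝ => z.1 + z.2) ∘ (Prod.map (fun z => Real.sqrt s * z) fun z => Real.sqrt t * z)
      from rfl, ← Measure.map_map hadd hm, ← Measure.map_prod_map _ _ (by fun_prop) (by fun_prop),
    gaussianReal_map_const_mul, gaussianReal_map_const_mul, gaussianReal_map_const_mul]
  have hc : ∀ (m₁ m₂ : ℝ) (v₁ v₂ : ℝ≥0),
      ((gaussianReal m₁ v₁).prod (gaussianReal m₂ v₂)).map (fun z => z.1 + z.2)
        = gaussianReal (m₁ + m₂) (v₁ + v₂) := fun m₁ m₂ v₁ v₂ =>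
    gaussianReal_conv_gaussianReal
  rw [hc]
  congr 1
  · simp
  · apply NNReal.eq
    push_cast
    rw [Real.sq_sqrt hs, Real.sq_sqrt ht, Real.sq_sqrt (by linarith)]
    ring

lemma gauss_four : ∫ z, z ^ 4 ∂gaussianReal 0 1 = 3 := by
  have hr := gauss_rotate (s := 1) (t := 1) zero_le_one zero_le_one
  set P := gaussianReal 0 1
  have h1 := congrArg (fun m : Measure ℝ => ∫ x, x ^ 4 ∂m) hr
  rw [integral_map (by fun_prop) (by fun_prop), integral_map (by fun_prop) (by fun_prop)] at h1
  have i : ∀ a b : ℕ, Integrable (fun z : ℝ × ℝ => z.1 ^ a * z.2 ^ b) (P.prod P) :=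
    fun a b => (integrable_pow_gauss a).mul_prod (integrable_pow_gauss b)
  have e : ∀ z : ℝ × ℝ, (Real.sqrt 1 * z.1 + Real.sqrt 1 * z.2) ^ 4
      = z.1 ^ 4 * z.2 ^ 0 + (4 * (z.1 ^ 3 * z.2 ^ 1) + (6 * (z.1 ^ 2 * z.2 ^ 2)
        + (4 * (z.1 ^ 1 * z.2 ^ 3) + z.1 ^ 0 * z.2 ^ 4))) := fun z => by
    rw [Real.sqrt_one]; ring
  simp_rw [e] at h1
  have j4 := ((i 1 3).const_mul 4).add (i 0 4)
  have j3 := ((i 2 2).const_mul 6).add j4
  have j2 := ((i 3 1).const_mul 4).add j3
  simp only [Pi.add_def] at j2 j3 j4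
  rw [integral_add (i 4 0) j2, integral_add ((i 3 1).const_mul 4) j3,
    integral_add ((i 2 2).const_mul 6) j4, integral_add ((i 1 3).const_mul 4) (i 0 4)] at h1
  have hp : ∀ a b : ℕ, ∫ z, z.1 ^ a * z.2 ^ b ∂P.prod P = (∫ z, z ^ a ∂P) * ∫ z, z ^ b ∂P :=
    fun a b => integral_prod_mul (fun x : ℝ => x ^ a) (fun x : ℝ => x ^ b)
  simp only [integral_const_mul, hp, mul_pow] at h1
  have h0 : ∫ z, z ∂P = 0 := integral_id_gaussianReal
  have h2 : ∫ z, z ^ 2 ∂P = 1 := gauss_sq
  have hs : Real.sqrt (1 + 1) ^ 4 = 4 := by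
    rw [show Real.sqrt (1 + 1) ^ 4 = (Real.sqrt (1 + 1) ^ 2) ^ 2 by ring,
      Real.sq_sqrt (by norm_num)]
    norm_num
  simp [h0, h2, hs] at h1
  linarith

section Vector

variable {ι : Type*} [Fintype ι]

lemma measurable_linear (w : ι → ℝ) : Measurable fun g : ι → ℝ => ∑ j, g j * w j := by fun_prop

/-- Law of a linear form of a Gaussian vector. -/
lemma map_linear (w : ι → ℝ) :
    (gaussVec ι).map (fun g => ∑ j, g j * w j)
      = (gaussianReal 0 1).map (fun z => Real.sqrt (∑ j, w j ^ 2) * z) := by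
  have : IsProbabilityMeasure ((gaussVec ι).map fun g => ∑ j, g j * w j) :=
    Measure.isProbabilityMeasure_map (measurable_linear w).aemeasurable
  rw [gaussianReal_map_const_mul]
  refine Measure.ext_of_charFun (funext fun t => ?_)
  rw [charFun_apply_real, integral_map (measurable_linear w).aemeasurable (by fun_prop), charFun_gaussianReal]
  have h := gauss_cexp fun j => t * w j
  have e : ∀ g : ι → ℝ, (t : ℂ) * ((∑ j, g j * w j : ℝ) : ℂ) * Complex.I
      = ((∑ j, g j * (t * w j) : ℝ) : ℂ) * Complex.I := fun g => by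
    congr 1
    rw [← Complex.ofReal_mul, Finset.mul_sum]
    congr 1
    exact Finset.sum_congr rfl fun j _ => by ring
  simp_rw [e]
  rw [h, Complex.ofReal_exp]
  congr 1
  push_cast
  have hs : 0 ≤ ∑ j, w j ^ 2 := Finset.sum_nonneg fun j _ => sq_nonneg _
  rw [← Complex.ofReal_pow (Real.sqrt _), Real.sq_sqrt hs]
  push_cast
  simp only [mul_pow, ← Finset.mul_sum]
  ring

lemma integral_linear (w : ι → ℝ) {F : ℝ → ℝ} (hF : Measurable F) :
    ∫ g, F (∑ j, g j * w j) ∂gaussVec ι
      = ∫ z, F (Real.sqrt (∑ j, w j ^ 2) * z) ∂gaussianReal 0 1 := by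
  rw [← integral_map (φ := fun g : ι → ℝ => ∑ j, g j * w j) (f := F) (measurable_linear w).aemeasurable
    hF.aestronglyMeasurable, map_linear, integral_map (by fun_prop) hF.aestronglyMeasurable]

lemma integrable_linear (w : ι → ℝ) {F : ℝ → ℝ} (hF : Measurable F)
    (h : Integrable (fun z => F (Real.sqrt (∑ j, w j ^ 2) * z)) (gaussianReal 0 1)) :
    Integrable (fun g => F (∑ j, g j * w j)) (gaussVec ι) := by
  have h' : Integrable F ((gaussVec ι).map fun g => ∑ j, g j * w j) := by
    rw [map_linear]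
    exact (integrable_map_measure hF.aestronglyMeasurable (by fun_prop)).2 h
  exact (integrable_map_measure hF.aestronglyMeasurable (measurable_linear w).aemeasurable).1 h'

lemma integral_linear_sq (w : ι → ℝ) :
    ∫ g, (∑ j, g j * w j) ^ 2 ∂gaussVec ι = ∑ j, w j ^ 2 := by
  rw [integral_linear w (F := fun y => y ^ 2) (by fun_prop)]
  simp only [mul_pow]
  rw [integral_const_mul, gauss_sq, mul_one, Real.sq_sqrt (Finset.sum_nonneg fun j _ => sq_nonneg _)]

lemma integral_linear_id (w : ι → ℝ) : ∫ g, ∑ j, g j * w j ∂gaussVec ι = 0 := by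
  rw [integral_linear w (F := fun y => y) (by fun_prop), integral_const_mul]
  simp

/-- Rotation invariance of the Gaussian vector. -/
lemma gaussVec_rotate {s t : ℝ} (hs : 0 ≤ s) (ht : 0 ≤ t) :
    ((gaussVec ι).prod (gaussVec ι)).map
        (fun z j => Real.sqrt s * z.1 j + Real.sqrt t * z.2 j)
      = (gaussVec ι).map (fun z j => Real.sqrt (s + t) * z j) := by
  have hp := (measurePreserving_arrowProdEquivProdArrow ℝ ℝ ι
    (fun _ => gaussianReal 0 1) (fun _ => gaussianReal 0 1)).map_eq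
  have hrhs : (gaussVec ι).map (fun z j => Real.sqrt (s + t) * z j)
      = Measure.pi fun _ : ι => (gaussianReal 0 1).map (fun z => Real.sqrt (s + t) * z) :=
    Measure.pi_map_pi (μ := fun _ : ι => gaussianReal 0 1)
      (f := fun _ (z : ℝ) => Real.sqrt (s + t) * z) (fun _ => by fun_prop)
  simp only [gaussVec] at hrhs ⊢
  rw [← hp, Measure.map_map (by fun_prop) (by fun_prop), hrhs, ← gauss_rotate hs ht]
  exact Measure.pi_map_pi (μ := fun _ : ι => (gaussianReal 0 1).prod (gaussianReal 0 1))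
    (f := fun _ (z : ℝ × ℝ) => Real.sqrt s * z.1 + Real.sqrt t * z.2) (fun _ => by fun_prop)

end Vector

end Vale.Agent.P157
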