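import Vale.Agent.P157.Hybrid
import Vale.Agent.P157.Marginal
import Mathlib.Algebra.BigOperators.Field

/-!
Splitting a system of size `k * n + r` into `k` blocks of size `n`.
-/

open MeasureTheory ProbabilityTheory
open scoped BigOperators

namespace Vale.Agent.P157

/-- Uniform weights `1 / √card`. -/
noncomputable def unit (ι : Type*) [Fintype ι] : ι → ℝ := fun _ => 1 / Real.sqrt (Fintype.card ι)

/-- Unnormalised expected pressure of a configuration measure with `M` patterns. -/
noncomputable def press {ι : Type*} [Fintype ι] (μ : Measure (ι → ℝ)) (f : ℝ → ℝ) (M : ℕ) : ℝ :=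
  pressureW μ f (fun _ : Fin M => unit ι) (fun _ => 0)

section Basic

variable {ι : Type*} [Fintype ι] {μ : Measure (ι → ℝ)} [IsProbabilityMeasure μ] {f : ℝ → ℝ} {B : ℝ}

lemma abs_press_le (hf : Measurable f) (hfb : ∀ t, |f t| ≤ B) (M : ℕ) :
    |press μ f M| ≤ M * B := by
  refine (norm_integral_le_of_norm_le_const (μ := patterns ι M) (C := M * B)
    (f := fun g => logMean μ (fun x => 0 + energy f (fun _ : Fin M => unit ι) g x))
    (ae_of_all _ fun g => ?_)).trans (by simp)
  rw [Real.norm_eq_abs]
  simpa using abs_logMean_le (μ := μ) (measurable_base_add_energy hf measurable_const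
    (fun _ : Fin M => unit ι) g)
    (fun x => abs_base_add_energy_le (h := fun _ => (0:ℝ)) (H := 0) hfb (by simp) _ g x)

lemma abs_press_succ_sub (hf : Measurable f) (hfb : ∀ t, |f t| ≤ B) (M : ℕ) :
    |press μ f (M + 1) - press μ f M| ≤ B := by
  have hB : 0 ≤ B := (abs_nonneg _).trans (hfb 0)
  have ec : (fun _ : Fin (M + 1) => unit ι) = Fin.cons (unit ι) (fun _ : Fin M => unit ι) := by
    funext a; refine Fin.cases ?_ (fun i => ?_) a <;> simp
  have h0 : Measurable fun _ : ι → ℝ => (0 : ℝ) := measurable_const
  have h0b : ∀ x : ι → ℝ, |(fun _ : ι → ℝ => (0:ℝ)) x| ≤ 0 := by simp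
  simp only [press]
  rw [ec, (pressureW_cons hf hfb h0 h0b _ _).2, pressureW]
  have hi := integrable_logMean_energy (μ := μ) hf hfb h0 h0b (fun _ : Fin M => unit ι)
  have hi2 : Integrable (fun g : Fin M → ι → ℝ => ∫ g0, logMean μ (fun x =>
      (0 + energy f (fun _ => unit ι) g x) + f (field (unit ι) g0 x)) ∂gaussVec ι) (patterns ι M) := by
    refine Integrable.of_bound ?_ (0 + M * B + B) (ae_of_all _ fun g => ?_)
    · exact (StronglyMeasurable.integral_prod_right
        (f := fun g g0 => logMean μ (fun x =>
          (0 + energy f (fun _ : Fin M => unit ι) g x) + f (field (unit ι) g0 x)))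
        (by exact (measurable_logMean_param
          (by unfold energy field; fun_prop)).stronglyMeasurable)).aestronglyMeasurable
    · refine (norm_integral_le_of_norm_le_const (C := 0 + M * B + B)
        (ae_of_all _ fun g0 => ?_)).trans (by simp)
      rw [Real.norm_eq_abs]
      exact abs_logMean_le (by unfold energy field; fun_prop) fun x =>
        (abs_add_le _ _).trans (add_le_add
          (abs_base_add_energy_le (h := fun _ => (0:ℝ)) hfb h0b _ g x) (hfb _))
  rw [← integral_sub hi2 hi, ← Real.norm_eq_abs]
  refine (norm_integral_le_of_norm_le_const (C := B) (ae_of_all _ fun g => ?_)).trans (by simp)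
  rw [Real.norm_eq_abs]
  have hm1 := measurable_base_add_energy hf h0 (fun _ : Fin M => unit ι) g
  have hb1 := abs_base_add_energy_le (h := fun _ : ι → ℝ => (0:ℝ)) hfb h0b (fun _ : Fin M => unit ι) g
  have hb2 : ∀ g0 x, |0 + energy f (fun _ : Fin M => unit ι) g x + f (field (unit ι) g0 x)|
      ≤ 0 + M * B + B := fun g0 x => (abs_add_le _ _).trans (add_le_add (hb1 x) (hfb _))
  have key : ∀ g0, |logMean μ (fun x => 0 + energy f (fun _ : Fin M => unit ι) g x
      + f (field (unit ι) g0 x)) - logMean μ (fun x => 0 + energy f (fun _ : Fin M => unit ι) g x)|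
      ≤ B := by
    intro g0
    have hm2 : Measurable fun x => 0 + energy f (fun _ : Fin M => unit ι) g x
        + f (field (unit ι) g0 x) := by unfold energy field; fun_prop
    have u1 := logMean_mono_add (μ := μ) hm2 (hb2 g0) hm1 hb1 (d := B)
      fun x => by linarith [(abs_le.1 (hfb (field (unit ι) g0 x))).2]
    have u2 := logMean_mono_add (μ := μ) hm1 hb1 hm2 (hb2 g0) (d := B)
      fun x => by linarith [(abs_le.1 (hfb (field (unit ι) g0 x))).1]
    rw [abs_le]; constructor <;> linarith
  rw [show ∀ a : ℝ, (∫ g0, logMean μ (fun x => 0 + energy f (fun _ : Fin M => unit ι) g x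
      + f (field (unit ι) g0 x)) ∂gaussVec ι) - a = ∫ g0, (logMean μ (fun x => 0 +
      energy f (fun _ : Fin M => unit ι) g x + f (field (unit ι) g0 x)) - a) ∂gaussVec ι from ?_]
  · exact (norm_integral_le_of_norm_le_const (C := B) (μ := gaussVec ι)
      (ae_of_all _ fun g0 => (Real.norm_eq_abs _).trans_le (key g0))).trans (by simp)
  · intro a
    rw [integral_sub ?_ (integrable_const _), integral_const, probReal_univ, one_smul]
    refine Integrable.of_bound (measurable_logMean_param
      (by unfold energy field; fun_prop)).aestronglyMeasurable (0 + M * B + B)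
      (ae_of_all _ fun g0 => ?_)
    rw [Real.norm_eq_abs]
    exact abs_logMean_le (by unfold energy field; fun_prop) (hb2 g0)

lemma press_count (hf : Measurable f) (hfb : ∀ t, |f t| ≤ B) (K m : ℕ) :
    press μ f m - |(K : ℝ) - m| * B ≤ press μ f K := by
  have hB : 0 ≤ B := (abs_nonneg _).trans (hfb 0)
  have key : ∀ a d : ℕ, |press μ f (a + d) - press μ f a| ≤ d * B := by
    intro a d
    induction d with
    | zero => simp
    | succ d ih =>
      have := abs_press_succ_sub (μ := μ) hf hfb (a + d)
      have := abs_add_le (press μ f (a + d + 1) - press μ f (a + d))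
        (press μ f (a + d) - press μ f a)
      rw [sub_add_sub_cancel] at this
      rw [← add_assoc]; push_cast; linarith
  rcases le_total m K with h | h
  · obtain ⟨d, rfl⟩ := Nat.exists_eq_add_of_le h
    have := abs_le.1 (key m d)
    push_cast
    rw [add_sub_cancel_left, Nat.abs_cast]
    linarith
  · obtain ⟨d, rfl⟩ := Nat.exists_eq_add_of_le h
    have := abs_le.1 (key K d)
    push_cast
    rw [abs_sub_comm, add_sub_cancel_left, Nat.abs_cast]
    linarith

end Basic

/-- Jensen: `log ∫ exp F ≥ ∫ F`. -/
lemma integral_le_logMean {X : Type*} [MeasurableSpace X] {μ : Measure X} [IsProbabilityMeasure μ]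
    {F : X → ℝ} {H : ℝ} (hm : Measurable F) (hb : ∀ x, |F x| ≤ H) :
    ∫ x, F x ∂μ ≤ logMean μ F := by
  set m := ∫ x, F x ∂μ
  have hi : Integrable F μ := Integrable.of_bound hm.aestronglyMeasurable H
    (ae_of_all _ fun x => (Real.norm_eq_abs _).trans_le (hb x))
  have h1 : ∀ x, Real.exp m * (1 + (F x - m)) ≤ Real.exp (F x) := fun x => by
    have := Real.add_one_le_exp (F x - m)
    have e : Real.exp (F x) = Real.exp m * Real.exp (F x - m) := by
      rw [← Real.exp_add]; congr 1; ring
    rw [e]; exact mul_le_mul_of_nonneg_left (by linarith) (Real.exp_pos m).le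
  have hsub : Integrable (fun x => F x - m) μ := hi.sub (integrable_const _)
  have h2 : Real.exp m ≤ ∫ x, Real.exp (F x) ∂μ := by
    calc Real.exp m = ∫ x, Real.exp m * (1 + (F x - m)) ∂μ := by
          rw [integral_const_mul, integral_add (integrable_const _) hsub,
            integral_sub hi (integrable_const _)]
          simp [m]
      _ ≤ _ := integral_mono (((integrable_const _).add hsub).const_mul _)
            (integrable_exp_bdd hm hb) h1
  calc m = Real.log (Real.exp m) := (Real.log_exp m).symm
    _ ≤ _ := Real.log_le_log (Real.exp_pos _) h2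

section Counting

variable {β : Type*} [Fintype β] [DecidableEq β]

/-- Number of patterns assigned to `b`. -/
def count {M : ℕ} (τ : Fin M → β) (b : β) : ℕ := (Finset.univ.filter fun a => τ a = b).card

lemma count_cons {M : ℕ} (b0 : β) (τ : Fin M → β) (b : β) :
    (count (Fin.cons b0 τ : Fin (M + 1) → β) b : ℝ) = (if b0 = b then 1 else 0) + count τ b := by
  unfold count
  rw [Fin.card_filter_univ_succ']
  push_cast
  split_ifs <;> simp_all [Function.comp_def]

variable (w : β → ℝ) (hw1 : ∑ b, w b = 1)

include hw1 in
lemma assign_moments (b : β) : ∀ M : ℕ,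
    (∑ τ : Fin M → β, ∏ a, w (τ a)) = 1 ∧
    (∑ τ : Fin M → β, (∏ a, w (τ a)) * count τ b) = M * w b ∧
    (∑ τ : Fin M → β, (∏ a, w (τ a)) * ((count τ b : ℝ) - M * w b) ^ 2)
      = M * (w b * (1 - w b)) := by
  intro M
  induction M with
  | zero => simp [count]
  | succ M ih =>
    obtain ⟨i0, i1, i2⟩ := ih
    have split : ∀ φ : (Fin (M + 1) → β) → ℝ,
        (∑ τ : Fin (M + 1) → β, (∏ a, w (τ a)) * φ τ)
          = ∑ b0, ∑ τ : Fin M → β, (w b0 * ∏ a, w (τ a)) * φ (Fin.cons b0 τ) := fun φ => by
      rw [← (Fin.consEquiv fun _ : Fin (M + 1) => β).sum_comp, Fintype.sum_prod_type]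
      simp [Fin.consEquiv, Fin.prod_univ_succ]
    refine ⟨?_, ?_, ?_⟩
    · simpa [i0, ← Finset.mul_sum, hw1] using split fun _ => 1
    · rw [split]
      have e : ∀ b0, (∑ τ : Fin M → β, (w b0 * ∏ a, w (τ a))
          * (count (Fin.cons b0 τ : Fin (M + 1) → β) b : ℝ))
          = w b0 * ((if b0 = b then (1:ℝ) else 0) + M * w b) := fun b0 => by
        have : ∀ τ : Fin M → β, (w b0 * ∏ a, w (τ a))
            * (count (Fin.cons b0 τ : Fin (M + 1) → β) b : ℝ)
            = w b0 * ((∏ a, w (τ a)) * (if b0 = b then (1:ℝ) else 0)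
              + (∏ a, w (τ a)) * count τ b) := fun τ => by rw [count_cons]; ring
        simp_rw [this, ← Finset.mul_sum, Finset.sum_add_distrib, ← Finset.sum_mul, i0, i1, one_mul]
      rw [Finset.sum_congr rfl fun b0 _ => e b0]
      simp only [mul_add, Finset.sum_add_distrib, ← Finset.sum_mul, hw1, one_mul, mul_ite, mul_one,
        mul_zero, Finset.sum_ite_eq', Finset.mem_univ, if_true]
      push_cast; ring
    · rw [split]
      have e : ∀ b0, (∑ τ : Fin M → β, (w b0 * ∏ a, w (τ a))
          * ((count (Fin.cons b0 τ : Fin (M + 1) → β) b : ℝ) - ((M + 1 : ℕ) : ℝ) * w b) ^ 2)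
          = w b0 * (((if b0 = b then 1 else 0) - w b) ^ 2 + M * (w b * (1 - w b))) := by
        intro b0
        set e0 : ℝ := (if b0 = b then 1 else 0) - w b
        have : ∀ τ : Fin M → β, (w b0 * ∏ a, w (τ a))
            * ((count (Fin.cons b0 τ : Fin (M + 1) → β) b : ℝ) - ((M + 1 : ℕ) : ℝ) * w b) ^ 2
            = w b0 * (e0 ^ 2 * (∏ a, w (τ a))
              + 2 * e0 * ((∏ a, w (τ a)) * count τ b - (∏ a, w (τ a)) * (M * w b))
              + (∏ a, w (τ a)) * ((count τ b : ℝ) - M * w b) ^ 2) := fun τ => by
          rw [count_cons]; simp only [e0]; push_cast; ring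
        simp_rw [this, ← Finset.mul_sum, Finset.sum_add_distrib, ← Finset.mul_sum,
          Finset.sum_sub_distrib, i1, ← Finset.sum_mul, i0, i2]
        ring
      rw [Finset.sum_congr rfl fun b0 _ => e b0]
      simp only [mul_add, Finset.sum_add_distrib, ← Finset.sum_mul, hw1, one_mul]
      have : ∀ b0, w b0 * ((if b0 = b then (1:ℝ) else 0) - w b) ^ 2
          = (if b0 = b then w b0 * (1 - 2 * w b) else 0) + w b0 * w b ^ 2 := fun b0 => by
        split_ifs <;> ring
      simp only [this, Finset.sum_add_distrib, ← Finset.sum_mul, hw1, Finset.sum_ite_eq',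
        Finset.mem_univ, if_true]
      push_cast; ring

end Counting

lemma abs_le_avg {s : ℝ} (hs : 0 < s) (x : ℝ) : |x| ≤ (x ^ 2 / s + s) / 2 := by
  rw [le_div_iff₀ two_pos, div_add' _ _ _ hs.ne', le_div_iff₀ hs, ← sq_abs x]
  nlinarith [mul_self_nonneg (|x| - s)]

section Split

variable (k n r : ℕ)

/-- Sites of the split system. -/
abbrev Site := (Fin k × Fin n) ⊕ Fin r

/-- Weights seen by a pattern assigned to a block (`none`: the remainder). -/
noncomputable def blockWeight : Option (Fin k) → Site k n r → ℝ
  | some b, Sum.inl p => if p.1 = b then 1 / Real.sqrt n else 0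
  | some _, Sum.inr _ => 0
  | none, Sum.inl _ => 0
  | none, Sum.inr _ => 1 / Real.sqrt r

/-- Probability that a pattern is assigned to a block. -/
noncomputable def blockProb : Option (Fin k) → ℝ
  | some _ => n / ((k * n + r : ℕ) : ℝ)
  | none => r / ((k * n + r : ℕ) : ℝ)

lemma blockProb_nonneg (b : Option (Fin k)) : 0 ≤ blockProb k n r b := by
  cases b <;> simp only [blockProb] <;> positivity

variable {k n r}

lemma sum_blockProb (hN : 0 < k * n + r) : ∑ b, blockProb k n r b = 1 := by
  have : ((k * n + r : ℕ) : ℝ) ≠ 0 := by exact_mod_cast hN.ne'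
  simp only [Fintype.sum_option, blockProb, Finset.sum_const, Finset.card_univ, Fintype.card_fin,
    nsmul_eq_mul]
  field_simp
  push_cast; ring

lemma unit_sq_eq (hn : 0 < n) (j : Site k n r) :
    unit (Site k n r) j ^ 2 = ∑ b, blockProb k n r b * blockWeight k n r b j ^ 2 := by
  have hn' : (n : ℝ) ≠ 0 := by exact_mod_cast hn.ne'
  have hc : (Fintype.card (Site k n r) : ℝ) = ((k * n + r : ℕ) : ℝ) := by simp
  rcases j with p | i
  · have hN : 0 ≤ ((k * n + r : ℕ) : ℝ) := Nat.cast_nonneg _
    simp only [unit, hc, Fintype.sum_option, blockProb, blockWeight, ite_pow, mul_ite, div_pow,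
      Real.sq_sqrt hN, Real.sq_sqrt (Nat.cast_nonneg n), one_pow, ne_eq, OfNat.ofNat_ne_zero,
      not_false_eq_true, zero_pow, mul_zero, zero_add, Finset.sum_ite_eq, Finset.mem_univ, if_true]
    field_simp
  · have hr : (r : ℝ) ≠ 0 := by exact_mod_cast (Fin.pos i).ne'
    simp only [unit, hc, Fintype.sum_option, blockProb, blockWeight, div_pow,
      Real.sq_sqrt (Nat.cast_nonneg _), one_pow, ne_eq, OfNat.ofNat_ne_zero, not_false_eq_true,
      zero_pow, mul_zero, Finset.sum_const_zero, add_zero]
    field_simp

variable {μ : Measure (Site k n r → ℝ)} [IsProbabilityMeasure μ]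
  {μn : Measure (Fin n → ℝ)} [IsProbabilityMeasure μn]
  {Ω : Type*} [MeasurableSpace Ω] {P : Measure Ω} [IsProbabilityMeasure P]
  {σ : Fin k → Ω → ℝ} {c₀ : ℝ} {ν : Measure ℝ} [IsFiniteMeasure ν]

/-- Patterns assigned to blocks factorise, up to the rescaling of the blocks. -/
lemma pressureW_blocks (hν : ν.real Set.univ < 1) (hσ : ∀ b, Measurable (σ b))
    (hmarg : μ.map (fun x b i => x (Sum.inl (b, i)))
      = (P.prod (Measure.pi fun _ : Fin k => μn)).map (fun z b i => σ b z.1 * z.2 b i))
    {M : ℕ} (τ : Fin M → Option (Fin k)) :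
    (∑ b, (press μn (potential c₀ ν) (count τ (some b))
        - 2 * potBound c₀ ν * count τ (some b) * ∫ ω, min |σ b ω ^ 2 - 1| 1 ∂P))
      - count τ none * potBound c₀ ν
      ≤ pressureW μ (potential c₀ ν) (fun a => blockWeight k n r (τ a)) (fun _ => 0) := by
  classical
  set f := potential c₀ ν
  set B := potBound c₀ ν
  have hf : Measurable f := measurable_potential c₀ ν
  have hfb : ∀ t, |f t| ≤ B := abs_potential_le c₀ ν hν
  have hB : 0 ≤ B := potBound_nonneg c₀ hν
  set S : Option (Fin k) → Finset (Fin M) := fun o => Finset.univ.filter fun a => τ a = o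
  -- energy of block `b` at scale `s`
  let Eb : (Fin M → Site k n r → ℝ) → Fin k → ℝ → (Fin n → ℝ) → ℝ := fun g b s y =>
    ∑ a ∈ S (some b), f (∑ i, g a (Sum.inl (b, i)) * (s * unit (Fin n) i * y i))
  have hEb : ∀ g b s y, |Eb g b s y| ≤ M * B := fun g b s y => by
    refine (Finset.abs_sum_le_sum_abs _ _).trans ((Finset.sum_le_sum fun a _ => hfb _).trans ?_)
    rw [Finset.sum_const, nsmul_eq_mul]
    refine mul_le_mul_of_nonneg_right ?_ hB
    exact_mod_cast (Finset.card_filter_le _ _).trans (by simp)
  -- pointwise in the patterns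
  have point : ∀ g : Fin M → Site k n r → ℝ,
      (∫ ω, ∑ b, logMean μn (Eb g b (σ b ω)) ∂P) - count τ none * B
        ≤ logMean μ (fun x => 0 + energy f (fun a => blockWeight k n r (τ a)) g x) := by
    intro g
    let red : (Fin k → Fin n → ℝ) → ℝ := fun y => ∑ b, Eb g b 1 (y b)
    have hred : Measurable red := by simp only [red, Eb]; fun_prop
    have hredb : ∀ y, |red y| ≤ k * (M * B) := fun y => by
      refine (Finset.abs_sum_le_sum_abs _ _).trans ((Finset.sum_le_sum fun b _ => hEb _ _ _ _).trans ?_)
      simp
    have hle : ∀ x, red (fun b i => x (Sum.inl (b, i)))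
        ≤ (0 + energy f (fun a => blockWeight k n r (τ a)) g x) + count τ none * B := by
      intro x
      have hsome : ∀ b a, a ∈ S (some b) → f (field (blockWeight k n r (τ a)) (g a) x)
          = f (∑ i, g a (Sum.inl (b, i)) * (1 * unit (Fin n) i * x (Sum.inl (b, i)))) := by
        intro b a ha
        rw [(Finset.mem_filter.1 ha).2]
        congr 1
        simp [field, blockWeight, unit, Fintype.sum_sum_type, Fintype.sum_prod_type]
        rw [Finset.sum_comm]
        simp
      rw [zero_add]
      simp only [energy, red, Eb]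
      rw [← Finset.sum_fiberwise (Finset.univ : Finset (Fin M)) τ
        (fun a => f (field (blockWeight k n r (τ a)) (g a) x)), Fintype.sum_option,
        Finset.sum_congr rfl fun b _ => Finset.sum_congr rfl fun a ha => (hsome b a ha).symm]
      have h0 : -(count τ none * B) ≤ ∑ a ∈ S none, f (field (blockWeight k n r (τ a)) (g a) x) := by
        have := Finset.sum_le_sum (s := S none) (fun a _ => (abs_le.1 (hfb
          (field (blockWeight k n r (τ a)) (g a) x))).1)
        simpa [count, S] using this
      linarith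
    have hm : Measurable fun x => 0 + energy f (fun a => blockWeight k n r (τ a)) g x :=
      measurable_base_add_energy hf measurable_const _ g
    have hb : ∀ x, |0 + energy f (fun a => blockWeight k n r (τ a)) g x| ≤ 0 + M * B :=
      abs_base_add_energy_le (h := fun _ : Site k n r → ℝ => (0:ℝ)) hfb (by simp) _ g
    have h1 := logMean_mono_add (μ := μ) (h := fun x => red (fun b i => x (Sum.inl (b, i))))
      (hred.comp (by fun_prop)) (fun x => hredb _) hm hb hle
    have hφ : Measurable fun (z : Ω × (Fin k → Fin n → ℝ)) b i => σ b z.1 * z.2 b i :=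
      measurable_pi_lambda _ fun b => measurable_pi_lambda _ fun i =>
        ((hσ b).comp measurable_fst).mul (by fun_prop)
    have h2 : logMean μ (fun x => red (fun b i => x (Sum.inl (b, i))))
        = Real.log (∫ ω, ∏ b, ∫ y, Real.exp (Eb g b (σ b ω) y) ∂μn ∂P) := by
      unfold logMean
      rw [← integral_map (φ := fun (x : Site k n r → ℝ) b i => x (Sum.inl (b, i)))
        (f := fun y => Real.exp (red y))
        (measurable_pi_lambda _ fun b => measurable_pi_lambda _ fun i =>
          measurable_pi_apply _).aemeasurable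
        (Real.measurable_exp.comp hred).aestronglyMeasurable, hmarg,
        integral_map hφ.aemeasurable (f := fun y => Real.exp (red y))
          (Real.measurable_exp.comp hred).aestronglyMeasurable,
        integral_prod _ ?_]
      · congr 1
        refine integral_congr_ae (ae_of_all _ fun ω => ?_)
        dsimp only
        rw [← integral_fintype_prod_eq_prod (f := fun b y => Real.exp (Eb g b (σ b ω) y))]
        refine integral_congr_ae (ae_of_all _ fun Y => ?_)
        simp only [red, Eb, Real.exp_sum]
        refine Finset.prod_congr rfl fun b _ => Finset.prod_congr rfl fun a _ => ?_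
        congr 2
        exact Finset.sum_congr rfl fun i _ => by ring
      · exact integrable_exp_bdd (B := k * (M * B)) (hred.comp hφ) fun z => hredb _
    have hFm : Measurable fun ω => ∑ b, logMean μn (Eb g b (σ b ω)) :=
      Finset.measurable_sum _ fun b _ => measurable_logMean_param
        (by simp only [Eb]; fun_prop)
    have hFb : ∀ ω, |∑ b, logMean μn (Eb g b (σ b ω))| ≤ k * (M * B) := fun ω => by
      refine (Finset.abs_sum_le_sum_abs _ _).trans ((Finset.sum_le_sum fun b _ =>
        abs_logMean_le (by simp only [Eb]; fun_prop) (hEb _ _ _)).trans ?_)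
      simp
    have h3 : logMean P (fun ω => ∑ b, logMean μn (Eb g b (σ b ω)))
        = Real.log (∫ ω, ∏ b, ∫ y, Real.exp (Eb g b (σ b ω) y) ∂μn ∂P) := by
      unfold logMean
      congr 1
      refine integral_congr_ae (ae_of_all _ fun ω => ?_)
      dsimp only
      rw [Real.exp_sum]
      refine Finset.prod_congr rfl fun b _ => Real.exp_log ?_
      exact integral_exp_pos' (by simp only [Eb]; fun_prop) (hEb _ _ _)
    have h4 := integral_le_logMean (μ := P) hFm hFb
    linarith [h1, h2, h3, h4]
  -- average over the patterns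
  have avg : ∀ b s, ∫ g, logMean μn (Eb g b s) ∂patterns (Site k n r) M
      = pressureW μn f (fun (_ : Fin (count τ (some b))) j => s * unit (Fin n) j) (fun _ => 0) := by
    intro b s
    let q : Fin (count τ (some b)) → Fin M :=
      fun e => ((S (some b)).equivFin.symm e : Fin M)
    have hq : Function.Injective q :=
      Subtype.val_injective.comp (S (some b)).equivFin.symm.injective
    have hrow : ((Measure.pi fun _ : Site k n r => gaussianReal 0 1)).map
        (fun z i => z (Sum.inl (b, i))) = gaussVec (Fin n) :=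
      map_comp_injective _ (q := fun i => Sum.inl (b, i))
        fun i j h => by simpa using h
    have hpi : (patterns (Site k n r) M).map (fun g e i => g (q e) (Sum.inl (b, i)))
        = patterns (Fin n) (count τ (some b)) := by
      have e1 : (patterns (Site k n r) M).map (fun g e => g (q e))
          = Measure.pi fun _ : Fin (count τ (some b)) => gaussVec (Site k n r) :=
        map_comp_injective _ hq
      rw [show (fun (g : Fin M → Site k n r → ℝ) e i => g (q e) (Sum.inl (b, i)))
          = (fun (h : Fin (count τ (some b)) → Site k n r → ℝ) e i => h e (Sum.inl (b, i)))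
            ∘ (fun g e => g (q e)) from rfl, ← Measure.map_map (by fun_prop) (by fun_prop), e1]
      have := Measure.pi_map_pi (μ := fun _ : Fin (count τ (some b)) => gaussVec (Site k n r))
        (f := fun _ (z : Site k n r → ℝ) i => z (Sum.inl (b, i))) (fun _ => (measurable_pi_lambda _ fun i => measurable_pi_apply _).aemeasurable)
      simp only [gaussVec] at this hrow ⊢
      rw [this]
      simp [patterns, gaussVec, hrow]
    have hmq : Measurable fun (g : Fin M → Site k n r → ℝ) (e : Fin (count τ (some b))) (i : Fin n) =>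
        g (q e) (Sum.inl (b, i)) := measurable_pi_lambda _ fun e => measurable_pi_lambda _ fun i =>
      (measurable_pi_apply (Sum.inl (b, i) : Site k n r)).comp (measurable_pi_apply (q e))
    rw [pressureW, ← hpi, integral_map hmq.aemeasurable
      ((measurable_logMean_param (by unfold energy field; fun_prop)).aestronglyMeasurable)]
    refine integral_congr_ae (ae_of_all _ fun g => ?_)
    dsimp only
    congr 1
    funext y
    rw [zero_add]
    simp only [Eb, energy, field, q]
    rw [← Finset.sum_coe_sort (S (some b)), ← (S (some b)).equivFin.symm.sum_comp]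
    rfl
  have hint : Integrable (fun z : (Fin M → Site k n r → ℝ) × Ω =>
      ∑ b, logMean μn (Eb z.1 b (σ b z.2))) ((patterns (Site k n r) M).prod P) := by
    refine integrable_finsetSum _ fun b _ => Integrable.of_bound ?_ (M * B)
      (ae_of_all _ fun z => (Real.norm_eq_abs _).trans_le
        (abs_logMean_le (by simp only [Eb]; fun_prop) (hEb _ _ _)))
    exact (measurable_logMean_param (μ := μn)
      (F := fun (z : (Fin M → Site k n r → ℝ) × Ω) y => Eb z.1 b (σ b z.2) y)
      (by simp only [Eb]; fun_prop)).aestronglyMeasurable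
  have hmean : (∫ g, ∫ ω, ∑ b, logMean μn (Eb g b (σ b ω)) ∂P ∂patterns (Site k n r) M)
      = ∫ ω, ∑ b, pressureW μn f (fun (_ : Fin (count τ (some b))) j => σ b ω * unit (Fin n) j)
          (fun _ => 0) ∂P := by
    rw [integral_integral_swap hint]
    refine integral_congr_ae (ae_of_all _ fun ω => ?_)
    dsimp only
    rw [integral_finsetSum _ fun b _ => Integrable.of_bound (measurable_logMean_param
      (by simp only [Eb]; fun_prop)).aestronglyMeasurable (M * B)
      (ae_of_all _ fun g => (Real.norm_eq_abs _).trans_le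
        (abs_logMean_le (by simp only [Eb]; fun_prop) (hEb _ _ _)))]
    simp only [avg]
  have hscale : ∀ ω b, press μn f (count τ (some b))
      - 2 * B * count τ (some b) * min |σ b ω ^ 2 - 1| 1
      ≤ pressureW μn f (fun (_ : Fin (count τ (some b))) j => σ b ω * unit (Fin n) j)
          (fun _ => 0) := by
    intro ω b
    have h := abs_le.1 (pressureW_scale (μ := μn) c₀ ν hν (σ b ω) (count τ (some b))
      (fun _ => unit (Fin n)) (fun _ => 0) 0 measurable_const (by simp))
    have h1 := abs_le.1 (abs_press_le (μ := μn) hf hfb (count τ (some b)))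
    have h2 : -((count τ (some b) : ℝ) * B) ≤ pressureW μn f
        (fun (_ : Fin (count τ (some b))) j => σ b ω * unit (Fin n) j) (fun _ => 0) := by
      refine (abs_le.1 ((norm_integral_le_of_norm_le_const (C := (count τ (some b) : ℝ) * B)
        (ae_of_all _ fun g => (Real.norm_eq_abs _).trans_le ?_)).trans (by simp))).1
      simpa using abs_logMean_le (μ := μn) (measurable_base_add_energy hf measurable_const
        (fun (_ : Fin (count τ (some b))) j => σ b ω * unit (Fin n) j) g)
        (fun x => abs_base_add_energy_le (h := fun _ => (0:ℝ)) (H := 0) hfb (by simp) _ g x)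
    rcases min_cases |σ b ω ^ 2 - 1| 1 with ⟨e, _⟩ | ⟨e, _⟩ <;> rw [e] <;>
      simp only [press, f, B] at * <;> linarith
  have hPint : ∀ b, Integrable (fun ω => min |σ b ω ^ 2 - 1| 1) P := fun b =>
    Integrable.of_bound (by fun_prop) 1 (ae_of_all _ fun ω => by
      rw [Real.norm_eq_abs, abs_of_nonneg (le_min (abs_nonneg _) zero_le_one)]
      exact min_le_right _ _)
  have hGint : Integrable (fun g => logMean μ (fun x => 0 + energy f
      (fun a => blockWeight k n r (τ a)) g x)) (patterns (Site k n r) M) :=
    integrable_logMean_energy (h := fun _ => 0) (H := 0) hf hfb measurable_const (by simp) _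
  calc _ ≤ (∫ ω, ∑ b, pressureW μn f (fun (_ : Fin (count τ (some b))) j =>
          σ b ω * unit (Fin n) j) (fun _ => 0) ∂P) - count τ none * B := by
        refine sub_le_sub_right ?_ _
        have hsum : Integrable (fun ω => ∑ b, (press μn f (count τ (some b))
            - 2 * B * count τ (some b) * min |σ b ω ^ 2 - 1| 1)) P :=
          integrable_finsetSum _ fun b _ => (integrable_const _).sub ((hPint b).const_mul _)
        refine le_trans (le_of_eq ?_) (integral_mono hsum ?_ fun ω => Finset.sum_le_sum
          fun b _ => hscale ω b)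
        · have hsI : ∀ b, Integrable (fun ω => press μn f (count τ (some b))
              - 2 * B * count τ (some b) * min |σ b ω ^ 2 - 1| 1) P :=
            fun b => (integrable_const _).sub ((hPint b).const_mul _)
          rw [integral_finsetSum _ fun b _ => hsI b]
          refine Finset.sum_congr rfl fun b _ => ?_
          rw [integral_sub (integrable_const _) ((hPint b).const_mul _), integral_const_mul]
          simp [f, B]
        · have := hint.integral_prod_right
          refine this.congr (ae_of_all _ fun ω => ?_)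
          dsimp only
          rw [integral_finsetSum _ fun b _ => Integrable.of_bound (measurable_logMean_param
            (by simp only [Eb]; fun_prop)).aestronglyMeasurable (M * B)
            (ae_of_all _ fun g => (Real.norm_eq_abs _).trans_le
              (abs_logMean_le (by simp only [Eb]; fun_prop) (hEb _ _ _)))]
          simp only [avg]
    _ = ∫ g, ((∫ ω, ∑ b, logMean μn (Eb g b (σ b ω)) ∂P) - count τ none * B)
          ∂patterns (Site k n r) M := by
        rw [integral_sub hint.integral_prod_left (integrable_const _), hmean]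
        simp
    _ ≤ _ := integral_mono (hint.integral_prod_left.sub (integrable_const _)) hGint point

/-- The lower bound for the split system. -/
lemma press_split (hν : ν.real Set.univ < 1) (hn : 0 < n) (hσ : ∀ b, Measurable (σ b))
    (hmarg : μ.map (fun x b i => x (Sum.inl (b, i)))
      = (P.prod (Measure.pi fun _ : Fin k => μn)).map (fun z b i => σ b z.1 * z.2 b i))
    {α δ : ℝ} (hα : 0 < α) (hδ : ∀ b, ∫ ω, min |σ b ω ^ 2 - 1| 1 ∂P ≤ δ / Real.sqrt n) :
    k * (press μn (potential c₀ ν) ⌊α * n⌋₊
        - potBound c₀ ν * ((α + 1) / 2 + 1 + 2 * α * δ) * Real.sqrt n)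
      - potBound c₀ ν * (α * r)
      ≤ press μ (potential c₀ ν) ⌊α * ((k * n + r : ℕ) : ℝ)⌋₊ := by
  classical
  rcases Nat.eq_zero_or_pos (k * n + r) with h0 | h0
  · obtain ⟨h1, rfl⟩ := Nat.add_eq_zero_iff.1 h0
    obtain rfl : k = 0 := by rcases Nat.mul_eq_zero.1 h1 with h | h <;> omega
    simp only [Nat.zero_mul, Nat.add_zero, Nat.cast_zero, mul_zero, zero_mul, sub_zero,
      Nat.floor_zero]
    exact le_of_eq (by simp [press, pressureW, logMean, energy])
  set f := potential c₀ ν
  set B := potBound c₀ ν
  set N : ℝ := ((k * n + r : ℕ) : ℝ) with hN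
  set M := ⌊α * N⌋₊
  set m := ⌊α * (n : ℝ)⌋₊
  have hf : Measurable f := measurable_potential c₀ ν
  have hfb : ∀ t, |f t| ≤ B := abs_potential_le c₀ ν hν
  have hB : 0 ≤ B := potBound_nonneg c₀ hν
  have hN0 : 0 < N := by rw [hN]; exact_mod_cast h0
  have hn' : (0 : ℝ) < n := by exact_mod_cast hn
  have hs : 0 < Real.sqrt n := Real.sqrt_pos.2 hn'
  have hs1 : 1 ≤ Real.sqrt n := Real.one_le_sqrt.2 (by exact_mod_cast hn)
  have hw := sum_blockProb (k := k) (n := n) (r := r) h0
  have key := hybrid (μ := μ) c₀ ν hν (unit (Site k n r)) (blockWeight k n r) (blockProb k n r)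
    (blockProb_nonneg k n r) hw (unit_sq_eq hn) M (fun _ => 0) 0 measurable_const (by simp)
  set W : (Fin M → Option (Fin k)) → ℝ := fun τ => ∏ a, blockProb k n r (τ a)
  have hW0 : ∀ τ, 0 ≤ W τ := fun τ => Finset.prod_nonneg fun a _ => blockProb_nonneg k n r _
  have hM1 : (M : ℝ) ≤ α * N := Nat.floor_le (by positivity)
  have hM2 : α * N - 1 ≤ M := by linarith [Nat.lt_floor_add_one (α * N)]
  have hm1 : (m : ℝ) ≤ α * n := Nat.floor_le (by positivity)
  have hm2 : α * n - 1 ≤ m := by linarith [Nat.lt_floor_add_one (α * (n : ℝ))]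
  set p : ℝ := n / N
  have hp1 : (M : ℝ) * p ≤ α * n := by
    calc (M : ℝ) * p ≤ α * N * p := mul_le_mul_of_nonneg_right hM1 (by positivity)
      _ = α * n := by simp only [p]; field_simp
  have hblock : ∀ b : Fin k,
      press μn f m - B * ((α + 1) / 2 + 1 + 2 * α * δ) * Real.sqrt n
      ≤ ∑ τ, W τ * (press μn f (count τ (some b))
          - 2 * B * count τ (some b) * ∫ ω, min |σ b ω ^ 2 - 1| 1 ∂P) := by
    intro b
    obtain ⟨i0, i1, i2⟩ := assign_moments (blockProb k n r) hw (some b) M
    have hp : blockProb k n r (some b) = p := rfl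
    rw [hp] at i1 i2
    have hple : p ≤ 1 := by
      rw [← hp, ← hw]
      exact Finset.single_le_sum (fun b _ => blockProb_nonneg k n r b) (Finset.mem_univ _)
    have hdiff : |(M : ℝ) * p - m| ≤ 1 := by
      have : α * n - p ≤ M * p := by
        calc α * n - p = (α * N - 1) * p := by simp only [p]; field_simp
          _ ≤ M * p := mul_le_mul_of_nonneg_right hM2 (by positivity)
      rw [abs_le]; constructor <;> linarith
    set D := ∫ ω, min |σ b ω ^ 2 - 1| 1 ∂P
    have hD0 : 0 ≤ D := integral_nonneg fun ω => le_min (abs_nonneg _) zero_le_one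
    have hterm : ∀ τ : Fin M → Option (Fin k),
        press μn f m - B * ((((count τ (some b) : ℝ) - M * p) ^ 2 / Real.sqrt n + Real.sqrt n) / 2 + 1)
          - 2 * B * count τ (some b) * D
        ≤ press μn f (count τ (some b)) - 2 * B * count τ (some b) * D := by
      intro τ
      refine sub_le_sub_right (le_trans ?_ (press_count hf hfb _ m)) _
      set x := (count τ (some b) : ℝ) - M * p
      have h1 : |(count τ (some b) : ℝ) - m| ≤ |x| + 1 := by
        refine le_trans ?_ (add_le_add le_rfl hdiff)
        exact abs_sub_le _ _ _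
      have h2 : |x| ≤ (x ^ 2 / Real.sqrt n + Real.sqrt n) / 2 := abs_le_avg hs x
      have := mul_le_mul_of_nonneg_left (h1.trans (add_le_add h2 le_rfl)) hB
      linarith
    refine le_trans ?_ (Finset.sum_le_sum fun τ _ => mul_le_mul_of_nonneg_left (hterm τ) (hW0 τ))
    have e : ∀ τ : Fin M → Option (Fin k), W τ * (press μn f m - B *
        ((((count τ (some b) : ℝ) - M * p) ^ 2 / Real.sqrt n + Real.sqrt n) / 2 + 1)
          - 2 * B * count τ (some b) * D)
        = W τ * (press μn f m - B * (Real.sqrt n / 2 + 1))
          - B / (2 * Real.sqrt n) * (W τ * ((count τ (some b) : ℝ) - M * p) ^ 2)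
          - 2 * B * D * (W τ * count τ (some b)) := fun τ => by ring
    simp only [W] at e ⊢
    simp only [e, Finset.sum_sub_distrib, ← Finset.sum_mul, ← Finset.mul_sum, i0, i1, i2, one_mul]
    have hv : (M : ℝ) * (p * (1 - p)) ≤ α * n := by
      nlinarith [mul_nonneg (Nat.cast_nonneg M : (0:ℝ) ≤ M) (mul_self_nonneg p)]
    have hD : 2 * B * D * (M * p) ≤ 2 * B * (δ / Real.sqrt n) * (α * n) := by
      have hd := (hδ b).trans' le_rfl
      exact mul_le_mul (mul_le_mul_of_nonneg_left hd (by positivity)) hp1 (by positivity)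
        (by have := hD0.trans hd; positivity)
    have hv' : B / (2 * Real.sqrt n) * (M * (p * (1 - p))) ≤ B / (2 * Real.sqrt n) * (α * n) :=
      mul_le_mul_of_nonneg_left hv (by positivity)
    have hsq : Real.sqrt n * Real.sqrt n = n := Real.mul_self_sqrt hn'.le
    have e1 : B / (2 * Real.sqrt n) * (α * n) = B * α / 2 * Real.sqrt n := by
      field_simp; rw [Real.sq_sqrt hn'.le]
    have e2 : 2 * B * (δ / Real.sqrt n) * (α * n) = 2 * B * α * δ * Real.sqrt n := by
      field_simp; rw [Real.sq_sqrt hn'.le]
    nlinarith [mul_le_mul_of_nonneg_left hs1 hB]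
  have hnone : (∑ τ, W τ * (count τ none * B)) ≤ B * (α * r) := by
    obtain ⟨-, i1, -⟩ := assign_moments (blockProb k n r) hw none M
    simp only [W, ← mul_assoc, ← Finset.sum_mul, i1]
    calc (M : ℝ) * blockProb k n r none * B ≤ α * N * (r / N) * B :=
          mul_le_mul_of_nonneg_right
            (mul_le_mul_of_nonneg_right hM1 (blockProb_nonneg k n r none)) hB
      _ = B * α * r := by field_simp
  refine le_trans ?_ key
  refine le_trans ?_ (Finset.sum_le_sum fun τ _ =>
    mul_le_mul_of_nonneg_left (pressureW_blocks hν hσ hmarg τ) (hW0 τ))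
  have hsum := Finset.sum_le_sum (s := (Finset.univ : Finset (Fin k))) fun b _ => hblock b
  rw [Finset.sum_comm] at hsum
  simp only [Finset.sum_const, Finset.card_univ, Fintype.card_fin, nsmul_eq_mul,
    ← Finset.mul_sum] at hsum
  have hsplit : ∀ τ, W τ * ((∑ b, (press μn f (count τ (some b))
      - 2 * B * count τ (some b) * ∫ ω, min |σ b ω ^ 2 - 1| 1 ∂P)) - count τ none * B)
      = W τ * (∑ b, (press μn f (count τ (some b))
      - 2 * B * count τ (some b) * ∫ ω, min |σ b ω ^ 2 - 1| 1 ∂P)) - W τ * (count τ none * B) :=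
    fun τ => by ring
  rw [show (∑ τ, W τ * ((∑ b, (press μn (potential c₀ ν) (count τ (some b))
      - 2 * potBound c₀ ν * count τ (some b) * ∫ ω, min |σ b ω ^ 2 - 1| 1 ∂P))
      - count τ none * potBound c₀ ν)) = _ from Finset.sum_congr rfl fun τ _ => hsplit τ,
    Finset.sum_sub_distrib]
  linarith

end Split

end Vale.Agent.P157
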