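import Mathlib.MeasureTheory.Constructions.HaarToSphere
import Mathlib.MeasureTheory.Measure.Haar.InnerProductSpace
import Mathlib.MeasureTheory.Measure.Lebesgue.EqHaar
import Mathlib.Probability.Distributions.Gaussian.Real
import Mathlib.Analysis.SpecialFunctions.Log.Basic

/-!
Definitions for P157: the two configuration spaces and the expected pressure.
-/

open MeasureTheory ProbabilityTheory
open scoped BigOperators

namespace Vale.Agent.P157

/-- The uniform probability measure on `{-1, 1}^N`. -/
noncomputable def isingMeasure (N : ℕ) : Measure (Fin N → ℝ) :=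
  Measure.pi fun _ => (2⁻¹ : NNReal) • (Measure.dirac (1 : ℝ) + Measure.dirac (-1 : ℝ))

/-- Normalised surface measure on the sphere `{x | ∑ i, x i ^ 2 = N}`. -/
noncomputable def sphereMeasure (N : ℕ) : Measure (Fin N → ℝ) :=
  ((volume : Measure (EuclideanSpace ℝ (Fin N))).toSphere Set.univ)⁻¹ •
    Measure.map (fun θ : Metric.sphere (0 : EuclideanSpace ℝ (Fin N)) 1 =>
      fun i => Real.sqrt N * (θ : EuclideanSpace ℝ (Fin N)) i)
      (volume : Measure (EuclideanSpace ℝ (Fin N))).toSphere

/-- `E p_N(f)` with `M = ⌊α N⌋` independent standard Gaussian patterns. -/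
noncomputable def pressure (α : ℝ) (f : ℝ → ℝ) (N : ℕ) (μ : Measure (Fin N → ℝ)) : ℝ :=
  (∫ g : Fin ⌊α * N⌋₊ → Fin N → ℝ,
      Real.log (∫ x, Real.exp (∑ a, f ((∑ i, g a i * x i) / Real.sqrt N)) ∂μ)
    ∂Measure.pi fun _ => Measure.pi fun _ => gaussianReal 0 1) / N

end Vale.Agent.P157
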