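import Vale.Agent.P157.Kernel
import Vale.Agent.P157.Moments
import Mathlib.Analysis.SpecificLimits.Normed

/-!
One pattern: the replica-symmetric comparison.
-/

open MeasureTheory ProbabilityTheory Complex
open scoped BigOperators

namespace Vale.Agent.P157

/-- Gardner's smoothed cosine transform. -/
noncomputable def rsU (ν : Measure ℝ) (q z : ℝ) : ℝ :=
  ∫ ξ, Real.cos (ξ * (Real.sqrt q * z)) * Real.exp (-((1 - q) * ξ ^ 2) / 2) ∂ν

/-- Minus its derivative in the field. -/
noncomputable def rsV (ν : Measure ℝ) (q z : ℝ) : ℝ :=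
  ∫ ξ, ξ * Real.sin (ξ * (Real.sqrt q * z)) * Real.exp (-((1 - q) * ξ ^ 2) / 2) ∂ν

/-- The conjugate order parameter, per pattern. -/
noncomputable def rsR (ν : Measure ℝ) (q : ℝ) : ℝ :=
  ∫ z, (rsV ν q z / (1 - rsU ν q z)) ^ 2 ∂gaussianReal 0 1

/-- Bound for `|ξ| exp (-(1 - q) ξ² / 2)`. -/
noncomputable def capC (q : ℝ) : ℝ := 1 + 1 / (2 * (1 - q))

variable {ν : Measure ℝ} [IsFiniteMeasure ν] {q : ℝ}

lemma damp_pos (q ξ : ℝ) : 0 < Real.exp (-((1 - q) * ξ ^ 2) / 2) := Real.exp_pos _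

lemma damp_le_one (hq : q ≤ 1) (ξ : ℝ) : Real.exp (-((1 - q) * ξ ^ 2) / 2) ≤ 1 :=
  Real.exp_le_one_iff.2 (by nlinarith [mul_nonneg (sub_nonneg.2 hq) (sq_nonneg ξ)])

lemma one_le_capC (hq : q < 1) : 1 ≤ capC q := by
  have : 0 ≤ 1 / (2 * (1 - q)) := div_nonneg zero_le_one (by linarith)
  unfold capC; linarith

lemma abs_mul_damp_le (hq : q < 1) (ξ : ℝ) :
    |ξ| * Real.exp (-((1 - q) * ξ ^ 2) / 2) ≤ capC q := by
  set a := 1 - q
  have ha : 0 < a := by simp only [a]; linarith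
  rw [neg_div, Real.exp_neg, ← div_eq_mul_inv, div_le_iff₀ (Real.exp_pos _), capC]
  have h1 : |ξ| ≤ a * ξ ^ 2 / 2 + 1 / (2 * a) := by
    rw [← sub_nonneg]
    have e : a * ξ ^ 2 / 2 + 1 / (2 * a) - |ξ| = (a * |ξ| - 1) ^ 2 / (2 * a) := by
      rw [← sq_abs ξ]; field_simp; ring
    rw [e]; positivity
  have h2 : a * ξ ^ 2 / 2 + 1 / (2 * a) ≤ (1 + 1 / (2 * a)) * (1 + a * ξ ^ 2 / 2) := by
    nlinarith [mul_nonneg (by positivity : (0:ℝ) ≤ 1 / (2 * a)) (by positivity : (0:ℝ) ≤ a * ξ ^ 2 / 2)]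
  refine h1.trans (h2.trans (mul_le_mul_of_nonneg_left ?_ (by positivity)))
  linarith [Real.add_one_le_exp (a * ξ ^ 2 / 2)]

lemma abs_rsU_le (hq : q ≤ 1) (z : ℝ) : |rsU ν q z| ≤ ν.real Set.univ := by
  simpa [rsU] using norm_integral_le_of_norm_le_const (μ := ν)
    (f := fun ξ => Real.cos (ξ * (Real.sqrt q * z)) * Real.exp (-((1 - q) * ξ ^ 2) / 2)) (C := 1)
    (ae_of_all _ fun ξ => by
      rw [norm_mul, Real.norm_eq_abs, Real.norm_eq_abs, Real.abs_exp]
      exact mul_le_one₀ (Real.abs_cos_le_one _) (Real.exp_pos _).le (damp_le_one hq ξ))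

lemma abs_rsV_le (hq : q < 1) (z : ℝ) : |rsV ν q z| ≤ capC q * ν.real Set.univ := by
  simpa [rsV] using norm_integral_le_of_norm_le_const (μ := ν)
    (f := fun ξ => ξ * Real.sin (ξ * (Real.sqrt q * z)) * Real.exp (-((1 - q) * ξ ^ 2) / 2))
    (C := capC q) (ae_of_all _ fun ξ => by
      rw [norm_mul, norm_mul, Real.norm_eq_abs, Real.norm_eq_abs, Real.norm_eq_abs, Real.abs_exp,
        mul_right_comm]
      exact le_trans (mul_le_of_le_one_right (by positivity) (Real.abs_sin_le_one _))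
        (abs_mul_damp_le hq ξ))

@[fun_prop]
lemma measurable_rsU (ν : Measure ℝ) [IsFiniteMeasure ν] (q : ℝ) : Measurable (rsU ν q) :=
  (StronglyMeasurable.integral_prod_right (f := fun z ξ =>
    Real.cos (ξ * (Real.sqrt q * z)) * Real.exp (-((1 - q) * ξ ^ 2) / 2)) (by fun_prop)).measurable

@[fun_prop]
lemma measurable_rsV (ν : Measure ℝ) [IsFiniteMeasure ν] (q : ℝ) : Measurable (rsV ν q) :=
  (StronglyMeasurable.integral_prod_right (f := fun z ξ =>
    ξ * Real.sin (ξ * (Real.sqrt q * z)) * Real.exp (-((1 - q) * ξ ^ 2) / 2)) (by fun_prop)).measurable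

/-- The complex weight of one replica. -/
noncomputable def phase (q z ξ : ℝ) : ℂ :=
  (Real.exp (-((1 - q) * ξ ^ 2) / 2) : ℂ) * cexp ((ξ * (Real.sqrt q * z) : ℝ) * I)

lemma norm_phase (q z ξ : ℝ) : ‖phase q z ξ‖ = Real.exp (-((1 - q) * ξ ^ 2) / 2) := by
  rw [phase, norm_mul, Complex.norm_exp_ofReal_mul_I, mul_one, Complex.norm_real,
    Real.norm_eq_abs, Real.abs_exp]

lemma integral_symm2C {h : ℝ → ℂ} (hh : Measurable h) {C : ℝ} (hb : ∀ ξ, ‖h ξ‖ ≤ C) :
    ∫ ξ, h ξ ∂symm2 ν = ∫ ξ, (h ξ + h (-ξ)) / 2 ∂ν := by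
  have hi : ∀ (m : Measure ℝ), IsFiniteMeasure m → Integrable h m := fun m _ =>
    Integrable.of_bound hh.aestronglyMeasurable C (ae_of_all _ hb)
  have hn : Integrable (fun ξ => h (-ξ)) ν :=
    Integrable.of_bound (hh.comp measurable_neg).aestronglyMeasurable C (ae_of_all _ fun ξ => hb _)
  rw [symm2, integral_smul_nnreal_measure, integral_add_measure (hi _ inferInstance)
    (hi _ inferInstance), integral_map (by fun_prop) hh.aestronglyMeasurable,
    ← integral_add (hi _ inferInstance) hn, NNReal.smul_def, Complex.real_smul,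
    ← integral_const_mul]
  refine integral_congr_ae (ae_of_all _ fun ξ => ?_)
  push_cast; ring

lemma integral_phase (hq : q ≤ 1) (z : ℝ) : ∫ ξ, phase q z ξ ∂symm2 ν = (rsU ν q z : ℂ) := by
  rw [integral_symm2C (C := 1) (by unfold phase; fun_prop) fun ξ => (norm_phase q z ξ).trans_le
    (damp_le_one hq ξ), rsU, ← integral_complex_ofReal]
  refine integral_congr_ae (ae_of_all _ fun ξ => ?_)
  simp only [phase, even_two.neg_pow]
  push_cast
  rw [Complex.cos]
  ring

lemma integral_id_phase (hq : q < 1) (z : ℝ) :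
    ∫ ξ, (ξ : ℂ) * phase q z ξ ∂symm2 ν = I * (rsV ν q z : ℂ) := by
  rw [integral_symm2C (C := capC q) (by unfold phase; fun_prop) fun ξ => by
      rw [norm_mul, norm_phase, Complex.norm_real, Real.norm_eq_abs]; exact abs_mul_damp_le hq ξ,
    rsV, ← integral_complex_ofReal, ← integral_const_mul]
  refine integral_congr_ae (ae_of_all _ fun ξ => ?_)
  simp only [phase, even_two.neg_pow]
  push_cast
  rw [Complex.sin]
  ring_nf
  rw [Complex.I_sq]
  ring

/-- The annealed exponent of `n` replicas at common overlap `q`. -/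
noncomputable def rsExp (q : ℝ) {n : ℕ} (ξ : Fin n → ℝ) : ℝ :=
  (1 - q) / 2 * ∑ a, ξ a ^ 2 + q / 2 * (∑ a, ξ a) ^ 2

lemma exp_rsExp_le (hq0 : 0 ≤ q) {n : ℕ} (ξ : Fin n → ℝ) :
    Real.exp (-rsExp q ξ) ≤ ∏ a, Real.exp (-((1 - q) * ξ a ^ 2) / 2) := by
  rw [← Real.exp_sum]
  refine Real.exp_le_exp.2 ?_
  have : ∑ a, -((1 - q) * ξ a ^ 2) / 2 = -((1 - q) / 2 * ∑ a, ξ a ^ 2) := by
    rw [Finset.mul_sum, ← Finset.sum_neg_distrib]
    exact Finset.sum_congr rfl fun a _ => by ring
  rw [this, rsExp]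
  nlinarith [sq_nonneg (∑ a, ξ a)]

lemma abs_weight_le (hq0 : 0 ≤ q) {C : ℝ} {n : ℕ} {f : Fin n → ℝ → ℝ}
    (hfb : ∀ k ξ, |f k ξ| * Real.exp (-((1 - q) * ξ ^ 2) / 2) ≤ C) (ξ : Fin n → ℝ) :
    |(∏ k, f k (ξ k)) * Real.exp (-rsExp q ξ)| ≤ C ^ n := by
  rw [abs_mul, Real.abs_exp, Finset.abs_prod]
  calc (∏ k, |f k (ξ k)|) * Real.exp (-rsExp q ξ)
      ≤ (∏ k, |f k (ξ k)|) * ∏ k, Real.exp (-((1 - q) * ξ k ^ 2) / 2) :=
        mul_le_mul_of_nonneg_left (exp_rsExp_le hq0 ξ) (Finset.prod_nonneg fun k _ => abs_nonneg _)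
    _ ≤ C ^ n := by
        rw [← Finset.prod_mul_distrib]
        simpa using Finset.prod_le_prod (fun k _ => by positivity) fun k (_ : k ∈ Finset.univ) => hfb k (ξ k)

/-- Averaging replica weights: the Gaussian integral decouples the replicas. -/
lemma gauss_avg (hq0 : 0 ≤ q) {n : ℕ} (f : Fin n → ℝ → ℝ) (hf : ∀ k, Measurable (f k))
    {C : ℝ} (hfb : ∀ k ξ, |f k ξ| * Real.exp (-((1 - q) * ξ ^ 2) / 2) ≤ C) :
    ((∫ ξ, (∏ k, f k (ξ k)) * Real.exp (-rsExp q ξ) ∂Measure.pi fun _ => symm2 ν : ℝ) : ℂ)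
      = ∫ z, ∏ k, ∫ ξ, (f k ξ : ℂ) * phase q z ξ ∂symm2 ν ∂gaussianReal 0 1 := by
  set S := Measure.pi fun _ : Fin n => symm2 ν
  have e : ∀ ξ : Fin n → ℝ, ((((∏ k, f k (ξ k)) * Real.exp (-rsExp q ξ)) : ℝ) : ℂ)
      = ∫ z, ∏ k, (f k (ξ k) : ℂ) * phase q z (ξ k) ∂gaussianReal 0 1 := by
    intro ξ
    have h1 : ∀ z : ℝ, (∏ k, (f k (ξ k) : ℂ) * phase q z (ξ k))
        = ((∏ k, f k (ξ k)) * Real.exp (-((1 - q) / 2 * ∑ a, ξ a ^ 2)) : ℝ)
          * cexp (((Real.sqrt q * ∑ a, ξ a) : ℝ) * (z : ℂ) * I) := by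
      intro z
      simp only [phase, Finset.prod_mul_distrib]
      push_cast
      rw [← Complex.exp_sum, ← Complex.exp_sum]
      rw [mul_assoc]
      congr 2
      · congr 1
        rw [Finset.mul_sum, ← Finset.sum_neg_distrib]
        exact Finset.sum_congr rfl fun a _ => by ring
      · congr 1
        rw [Finset.mul_sum, Finset.sum_mul, Finset.sum_mul]
        exact Finset.sum_congr rfl fun a _ => by ring
    simp_rw [h1]
    rw [integral_const_mul, ← charFun_apply_real, charFun_gaussianReal, rsExp, neg_add,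
      Real.exp_add, ← mul_assoc, Complex.ofReal_mul, Complex.ofReal_exp (-(q / 2 * _))]
    congr 2
    push_cast
    rw [mul_pow, ← Complex.ofReal_pow (Real.sqrt q), Real.sq_sqrt hq0]
    ring
  rw [← integral_complex_ofReal]
  simp_rw [e]
  rw [integral_integral_swap]
  · refine integral_congr_ae (ae_of_all _ fun z => ?_)
    dsimp only
    exact integral_fintype_prod_eq_prod (f := fun k ξ => (f k ξ : ℂ) * phase q z ξ)
  · refine Integrable.of_bound (C := C ^ n) ?_ (ae_of_all _ fun p => ?_)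
    · refine (Finset.measurable_prod _ fun k _ => ?_).aestronglyMeasurable
      have := hf k
      unfold phase
      fun_prop
    · simp only [Function.uncurry, norm_prod, norm_mul, norm_phase, Complex.norm_real,
        Real.norm_eq_abs]
      simpa using Finset.prod_le_prod (fun k _ => by positivity)
        fun k (_ : k ∈ Finset.univ) => hfb k (p.1 k)

lemma rs_base (hq0 : 0 ≤ q) (hq : q ≤ 1) (n : ℕ) :
    ∫ ξ, Real.exp (-rsExp q ξ) ∂Measure.pi (fun _ : Fin n => symm2 ν)
      = ∫ z, rsU ν q z ^ n ∂gaussianReal 0 1 := by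
  apply Complex.ofReal_injective
  have h := gauss_avg (ν := ν) hq0 (n := n) (fun _ _ => (1 : ℝ)) (fun _ => measurable_const) (C := 1)
    fun _ ξ => by simpa using damp_le_one hq ξ
  simp only [Finset.prod_const_one, one_mul, Complex.ofReal_one, integral_phase hq,
    Finset.prod_const, Finset.card_univ, Fintype.card_fin] at h
  rw [h, ← integral_complex_ofReal]
  push_cast; rfl

lemma prod_two_ite {n : ℕ} {M : Type*} [CommMonoid M] {a b : Fin n} (hab : a ≠ b) (A B D : M) :
    ∏ k, (if k = a then A else if k = b then B else D) = A * B * D ^ (n - 2) := by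
  have hb : b ∈ Finset.univ.erase a := by simp [hab.symm]
  rw [← Finset.mul_prod_erase Finset.univ _ (Finset.mem_univ a), ← Finset.mul_prod_erase _ _ hb,
    if_pos rfl, if_neg hab.symm, if_pos rfl, ← mul_assoc]
  congr 1
  rw [Finset.prod_congr rfl (g := fun _ => D) fun k hk => by
    simp only [Finset.mem_erase] at hk; rw [if_neg hk.2.1, if_neg hk.1], Finset.prod_const]
  simp [Finset.card_erase_of_mem, hb]
  congr 1

lemma rs_pair (hq0 : 0 ≤ q) (hq : q < 1) {n : ℕ} {a b : Fin n} (hab : a ≠ b) :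
    ∫ ξ, ξ a * ξ b * Real.exp (-rsExp q ξ) ∂Measure.pi (fun _ : Fin n => symm2 ν)
      = -∫ z, rsV ν q z ^ 2 * rsU ν q z ^ (n - 2) ∂gaussianReal 0 1 := by
  apply Complex.ofReal_injective
  let f : Fin n → ℝ → ℝ := fun k ξ => if k = a then ξ else if k = b then ξ else 1
  have hp : ∀ ξ : Fin n → ℝ, ∏ k, f k (ξ k) = ξ a * ξ b := fun ξ => by
    have : ∀ k, f k (ξ k) = if k = a then ξ a else if k = b then ξ b else 1 := fun k => by
      simp only [f]; split_ifs with h1 h2 <;> simp_all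
    simp only [this]
    rw [prod_two_ite hab, one_pow, mul_one]
  have h := gauss_avg (ν := ν) hq0 (n := n) f
    (fun k => by simp only [f]; split_ifs <;> fun_prop) (C := capC q) fun k ξ => by
      simp only [f]
      split_ifs
      · exact abs_mul_damp_le hq ξ
      · exact abs_mul_damp_le hq ξ
      · simpa using (damp_le_one hq.le ξ).trans (one_le_capC hq)
  simp only [hp] at h
  rw [h, Complex.ofReal_neg, ← integral_complex_ofReal, ← integral_neg]
  refine integral_congr_ae (ae_of_all _ fun z => ?_)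
  dsimp only
  have : ∀ k, ∫ ξ, (f k ξ : ℂ) * phase q z ξ ∂symm2 ν
      = if k = a then I * (rsV ν q z : ℂ) else if k = b then I * (rsV ν q z : ℂ)
        else (rsU ν q z : ℂ) := fun k => by
    simp only [f]
    split_ifs
    · exact integral_id_phase hq z
    · exact integral_id_phase hq z
    · simp [integral_phase hq.le z]
  simp only [this]
  rw [prod_two_ite hab]
  push_cast
  linear_combination (rsV ν q z : ℂ) ^ 2 * (rsU ν q z : ℂ) ^ (n - 2) * I_mul_I

variable {ι : Type*} [Fintype ι]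

/-- Averaged squared overlap of two replicas drawn from `G`. -/
noncomputable def rbar (c : ι → ℝ) (G : Measure (ι → ℝ)) : ℝ :=
  ∑ j, (c j * ∫ x, x j ∂G) ^ 2

/-- Overlap with weights `c`. -/
def ovl (c x y : ι → ℝ) : ℝ := ∑ j, (c j * x j) * (c j * y j)

omit [Fintype ι] in
lemma sum_offDiag {n : ℕ} (F : Fin n → Fin n → ℝ) :
    ∑ a, ∑ b, F a b = ∑ a, F a a + ∑ p ∈ (Finset.univ : Finset (Fin n)).offDiag, F p.1 p.2 := by
  rw [← Finset.sum_product', ← Finset.diag_union_offDiag,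
    Finset.sum_union (Finset.disjoint_diag_offDiag _), Finset.sum_diag]

lemma abs_ovl_le (c x y : ι → ℝ) (hx : ∑ j, (c j * x j) ^ 2 = 1) (hy : ∑ j, (c j * y j) ^ 2 = 1) :
    |ovl c x y| ≤ 1 := by
  refine (Finset.abs_sum_le_sum_abs _ _).trans ?_
  calc ∑ j, |c j * x j * (c j * y j)| ≤ ∑ j, ((c j * x j) ^ 2 + (c j * y j) ^ 2) / 2 :=
        Finset.sum_le_sum fun j _ => by
          rw [abs_mul]
          nlinarith [sq_nonneg (|c j * x j| - |c j * y j|), sq_abs (c j * x j), sq_abs (c j * y j)]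
    _ = 1 := by rw [← Finset.sum_div, Finset.sum_add_distrib, hx, hy]; norm_num

lemma abs_coord_le (c x : ι → ℝ) (hx : ∑ j, (c j * x j) ^ 2 = 1) (j : ι) : |c j * x j| ≤ 1 := by
  rw [← sq_le_one_iff_abs_le_one, ← hx]
  exact Finset.single_le_sum (fun k _ => sq_nonneg (c k * x k)) (Finset.mem_univ j)

variable {c : ι → ℝ} {G : Measure (ι → ℝ)} [IsProbabilityMeasure G]

lemma ae_all_unit (hG : ∀ᵐ x ∂G, ∑ j, (c j * x j) ^ 2 = 1) (n : ℕ) :
    ∀ᵐ xs ∂Measure.pi (fun _ : Fin n => G), ∀ a, ∑ j, (c j * xs a j) ^ 2 = 1 :=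
  ae_all_iff.2 fun a => (measurePreserving_eval (fun _ : Fin n => G) a).quasiMeasurePreserving.ae hG

lemma integral_ovl (hG : ∀ᵐ x ∂G, ∑ j, (c j * x j) ^ 2 = 1) {n : ℕ} {a b : Fin n} (hab : a ≠ b) :
    ∫ xs, ovl c (xs a) (xs b) ∂Measure.pi (fun _ : Fin n => G) = rbar c G := by
  have hi : ∀ j, Integrable (fun xs : Fin n → ι → ℝ => c j * xs a j * (c j * xs b j))
      (Measure.pi fun _ : Fin n => G) := fun j =>
    Integrable.of_bound (by fun_prop) 1 ((ae_all_unit hG n).mono fun xs h => by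
      rw [Real.norm_eq_abs, abs_mul]
      exact mul_le_one₀ (abs_coord_le c _ (h a) j) (abs_nonneg _) (abs_coord_le c _ (h b) j))
  unfold ovl rbar
  rw [integral_finsetSum _ fun j _ => hi j]
  refine Finset.sum_congr rfl fun j _ => ?_
  let f : Fin n → (ι → ℝ) → ℝ := fun k x => if k = a then c j * x j else if k = b then c j * x j else 1
  have hp : ∀ xs : Fin n → ι → ℝ, c j * xs a j * (c j * xs b j) = ∏ k, f k (xs k) := fun xs => by
    have : ∀ k, f k (xs k)
        = if k = a then c j * xs a j else if k = b then c j * xs b j else 1 := fun k => by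
      simp only [f]; split_ifs with h1 h2 <;> simp_all
    simp only [this]
    rw [prod_two_ite hab, one_pow, mul_one]
  simp only [hp]
  rw [integral_fintype_prod_eq_prod (f := f)]
  have : ∀ k, ∫ x, f k x ∂G
      = if k = a then c j * ∫ x, x j ∂G else if k = b then c j * ∫ x, x j ∂G else 1 := fun k => by
    simp only [f]; split_ifs <;> simp [integral_const_mul]
  simp only [this]
  rw [prod_two_ite hab]; ring

/-- Tangent bound for the moments. -/
lemma moment_rs (hq0 : 0 ≤ q) (hq : q < 1) (hG : ∀ᵐ x ∂G, ∑ j, (c j * x j) ^ 2 = 1) (n : ℕ) :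
    (∫ z, rsU ν q z ^ n ∂gaussianReal 0 1)
        + ((n : ℝ) * (n - 1) / 2) * (rbar c G - q)
          * ∫ z, rsV ν q z ^ 2 * rsU ν q z ^ (n - 2) ∂gaussianReal 0 1
      ≤ moment ν G c n := by
  set X := Measure.pi fun _ : Fin n => G
  set S := Measure.pi fun _ : Fin n => symm2 ν
  set O := (Finset.univ : Finset (Fin n)).offDiag
  rw [moment_eq, ← (measurePreserving_arrowProdEquivProdArrow (ι → ℝ) ℝ (Fin n) (fun _ => G)
    (fun _ => symm2 ν)).symm.integral_comp']
  let T : (Fin n → ι → ℝ) × (Fin n → ℝ) → ℝ := fun w =>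
    Real.exp (-rsExp q w.2) - 1 / 2 * ∑ p ∈ O,
      (ovl c (w.1 p.1) (w.1 p.2) - q) * (w.2 p.1 * w.2 p.2 * Real.exp (-rsExp q w.2))
  have hC := one_le_capC hq
  have hE : ∀ ξ : Fin n → ℝ, |Real.exp (-rsExp q ξ)| ≤ 1 := fun ξ => by
    rw [Real.abs_exp]
    exact (exp_rsExp_le hq0 ξ).trans (Finset.prod_le_one (fun a _ => (Real.exp_pos _).le)
      fun a _ => damp_le_one hq.le _)
  have hP : ∀ p ∈ O, ∀ ξ : Fin n → ℝ, |ξ p.1 * ξ p.2 * Real.exp (-rsExp q ξ)| ≤ capC q ^ n := by
    intro p hp ξ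
    have hab : p.1 ≠ p.2 := (Finset.mem_offDiag.1 hp).2.2
    let f : Fin n → ℝ → ℝ := fun k ξ => if k = p.1 then ξ else if k = p.2 then ξ else 1
    have e : ∏ k, f k (ξ k) = ξ p.1 * ξ p.2 := by
      have : ∀ k, f k (ξ k) = if k = p.1 then ξ p.1 else if k = p.2 then ξ p.2 else 1 := fun k => by
        simp only [f]; split_ifs with h1 h2 <;> simp_all
      simp only [this]
      rw [prod_two_ite hab, one_pow, mul_one]
    rw [← e]
    refine abs_weight_le hq0 (fun k y => ?_) ξ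
    simp only [f]
    split_ifs
    · exact abs_mul_damp_le hq y
    · exact abs_mul_damp_le hq y
    · simpa using (damp_le_one hq.le y).trans hC
  have hmE : Measurable fun ξ : Fin n → ℝ => Real.exp (-rsExp q ξ) := by unfold rsExp; fun_prop
  have hae := (Measure.quasiMeasurePreserving_fst (ν := S)).ae (ae_all_unit hG n)
  have i0 : Integrable (fun w : (Fin n → ι → ℝ) × (Fin n → ℝ) => Real.exp (-rsExp q w.2))
      (X.prod S) :=
    Integrable.of_bound (hmE.comp measurable_snd).aestronglyMeasurable 1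
      (ae_of_all _ fun w => (Real.norm_eq_abs _).trans_le (hE _))
  have ip : ∀ p ∈ O, Integrable (fun w : (Fin n → ι → ℝ) × (Fin n → ℝ) =>
      (ovl c (w.1 p.1) (w.1 p.2) - q) * (w.2 p.1 * w.2 p.2 * Real.exp (-rsExp q w.2)))
      (X.prod S) := by
    intro p hp
    refine Integrable.of_bound (C := (1 + |q|) * capC q ^ n) ?_ ?_
    · unfold ovl rsExp
      exact Measurable.aestronglyMeasurable (by fun_prop)
    · filter_upwards [hae] with w hw
      rw [Real.norm_eq_abs, abs_mul]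
      exact mul_le_mul ((abs_sub _ _).trans (add_le_add (abs_ovl_le c _ _ (hw _) (hw _)) le_rfl))
        (hP p hp _) (abs_nonneg _) (by positivity)
  have iT : Integrable T (X.prod S) := i0.sub ((integrable_finsetSum _ ip).const_mul _)
  have hmono : ∀ᵐ w ∂X.prod S, T w ≤ Real.exp (-quad c
      ((MeasurableEquiv.arrowProdEquivProdArrow (ι → ℝ) ℝ (Fin n)).symm w) / 2) := by
    filter_upwards [hae] with w hw
    have hquad : quad c ((MeasurableEquiv.arrowProdEquivProdArrow (ι → ℝ) ℝ (Fin n)).symm w)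
        = ∑ a, w.2 a ^ 2 + ∑ p ∈ O, ovl c (w.1 p.1) (w.1 p.2) * (w.2 p.1 * w.2 p.2) := by
      have e : quad c ((MeasurableEquiv.arrowProdEquivProdArrow (ι → ℝ) ℝ (Fin n)).symm w)
          = ∑ a, ∑ b, ovl c (w.1 a) (w.1 b) * (w.2 a * w.2 b) := by
        change ∑ j, (∑ a, w.2 a * (c j * w.1 a j)) ^ 2 = _
        simp only [sq, Finset.sum_mul_sum]
        rw [Finset.sum_comm]
        refine Finset.sum_congr rfl fun a _ => ?_
        rw [Finset.sum_comm]
        refine Finset.sum_congr rfl fun b _ => ?_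
        rw [ovl, Finset.sum_mul]
        exact Finset.sum_congr rfl fun j _ => by ring
      rw [e, sum_offDiag]
      congr 1
      refine Finset.sum_congr rfl fun a _ => ?_
      have : ovl c (w.1 a) (w.1 a) = 1 := by
        rw [ovl, ← hw a]; exact Finset.sum_congr rfl fun j _ => by ring
      rw [this]; ring
    have hsq : (∑ a, w.2 a) ^ 2 = ∑ a, w.2 a ^ 2 + ∑ p ∈ O, w.2 p.1 * w.2 p.2 := by
      rw [sq, Finset.sum_mul_sum, sum_offDiag]
      simp only [sq]; rfl
    set D := ∑ p ∈ O, (ovl c (w.1 p.1) (w.1 p.2) - q) * (w.2 p.1 * w.2 p.2)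
    have hD : T w = Real.exp (-rsExp q w.2) * (1 + -D / 2) := by
      have : ∑ p ∈ O, (ovl c (w.1 p.1) (w.1 p.2) - q) * (w.2 p.1 * w.2 p.2 * Real.exp (-rsExp q w.2))
          = D * Real.exp (-rsExp q w.2) := by
        rw [Finset.sum_mul]; exact Finset.sum_congr rfl fun p _ => by ring
      simp only [T, this]; ring
    have hex : -quad c ((MeasurableEquiv.arrowProdEquivProdArrow (ι → ℝ) ℝ (Fin n)).symm w) / 2
        = -rsExp q w.2 + -D / 2 := by
      rw [hquad, rsExp, hsq]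
      simp only [D, sub_mul, Finset.sum_sub_distrib, ← Finset.mul_sum]
      ring
    rw [hD, hex, Real.exp_add]
    exact mul_le_mul_of_nonneg_left (by linarith [Real.add_one_le_exp (-D / 2)]) (Real.exp_pos _).le
  refine le_trans (le_of_eq ?_) (integral_mono_ae iT ?_ hmono)
  · have hval : ∀ p ∈ O, ∫ w, (ovl c (w.1 p.1) (w.1 p.2) - q)
        * (w.2 p.1 * w.2 p.2 * Real.exp (-rsExp q w.2)) ∂X.prod S
        = (rbar c G - q) * -∫ z, rsV ν q z ^ 2 * rsU ν q z ^ (n - 2) ∂gaussianReal 0 1 := by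
      intro p hp
      have hab : p.1 ≠ p.2 := (Finset.mem_offDiag.1 hp).2.2
      rw [integral_prod_mul (μ := X) (ν := S) (fun xs : Fin n → ι → ℝ => ovl c (xs p.1) (xs p.2) - q)
        (fun ξ => ξ p.1 * ξ p.2 * Real.exp (-rsExp q ξ)), rs_pair hq0 hq hab]
      congr 1
      rw [integral_sub ?_ (integrable_const _), integral_ovl hG hab]
      · simp
      · exact Integrable.of_bound (Measurable.aestronglyMeasurable (by unfold ovl; fun_prop)) 1
          ((ae_all_unit hG n).mono fun xs h => (Real.norm_eq_abs _).trans_le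
            (abs_ovl_le c _ _ (h _) (h _)))
    simp only [T]
    rw [integral_sub i0 ((integrable_finsetSum _ ip).const_mul _), integral_const_mul,
      integral_finsetSum _ ip, Finset.sum_congr rfl hval, Finset.sum_const, nsmul_eq_mul]
    have h0 : ∫ w, Real.exp (-rsExp q w.2) ∂X.prod S = ∫ z, rsU ν q z ^ n ∂gaussianReal 0 1 := by
      rw [← rs_base hq0 hq.le n]
      simpa [X, S] using integral_prod_mul (μ := X) (ν := S) (fun _ => (1:ℝ))
        (fun ξ => Real.exp (-rsExp q ξ))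
    have hcard : (O.card : ℝ) = (n : ℝ) * (n - 1) := by
      rw [Finset.offDiag_card, Finset.card_univ, Fintype.card_fin]
      rw [Nat.cast_sub (Nat.le_mul_self n)]; push_cast; ring
    rw [h0, hcard]; ring
  · exact ((measurePreserving_arrowProdEquivProdArrow (ι → ℝ) ℝ (Fin n) (fun _ => G)
      (fun _ => symm2 ν)).symm.integrable_comp_emb (MeasurableEquiv.measurableEmbedding _)).2
      (integrable_exp_quad ν G c n)

/-- One pattern: the replica-symmetric upper bound. -/
lemma log_one_sub_rs (hν : ν.real Set.univ < 1) (hq0 : 0 ≤ q) (hq : q < 1)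
    (hG : ∀ᵐ x ∂G, ∑ j, (c j * x j) ^ 2 = 1) :
    ∫ g, Real.log (1 - ∫ x, cosTr ν (field c g x) ∂G) ∂gaussVec ι
      ≤ (∫ z, Real.log (1 - rsU ν q z) ∂gaussianReal 0 1) - rsR ν q / 2 * (rbar c G - q) := by
  set m := ν.real Set.univ
  have hm0 : 0 ≤ m := measureReal_nonneg
  have hm1 : |m| < 1 := by rwa [abs_of_nonneg hm0]
  have hU := fun z => abs_rsU_le (ν := ν) hq.le z
  have hV := fun z => abs_rsV_le (ν := ν) hq z
  have geom : ∀ y : ℝ, |y| < 1 →
      HasSum (fun n : ℕ => (n : ℝ) * y ^ (n - 1)) (1 / (1 - y) ^ 2) := fun y hy => by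
    have h1 := hasSum_coe_mul_geometric_of_norm_lt_one (r := y) (by simpa using hy)
    have h2 := hasSum_geometric_of_abs_lt_one hy
    have hy' : 1 - y ≠ 0 := by linarith [le_abs_self y]
    refine (hasSum_nat_add_iff' 1).1 ?_
    have e : y / (1 - y) ^ 2 + (1 - y)⁻¹
        = 1 / (1 - y) ^ 2 - ∑ i ∈ Finset.range 1, (i : ℝ) * y ^ (i - 1) := by
      simp; field_simp; ring
    rw [← e]
    exact (h1.add h2).congr_fun fun n => by simp; ring
  have s1 : HasSum (fun n : ℕ => (∫ z, rsU ν q z ^ (n + 1) ∂gaussianReal 0 1) / (n + 1))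
      (-∫ z, Real.log (1 - rsU ν q z) ∂gaussianReal 0 1) := by
    rw [← integral_neg]
    have := hasSum_integral_of_dominated_convergence (μ := gaussianReal 0 1)
      (F := fun (n : ℕ) z => rsU ν q z ^ (n + 1) / (n + 1))
      (f := fun z => -Real.log (1 - rsU ν q z))
      (fun n _ => m ^ (n + 1) / (n + 1))
      (fun n => Measurable.aestronglyMeasurable (by fun_prop))
      (fun n => ae_of_all _ fun z => by
        rw [Real.norm_eq_abs, abs_div, abs_pow, abs_of_nonneg (by positivity : (0:ℝ) ≤ n + 1)]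
        gcongr; exact hU z)
      (ae_of_all _ fun _ => (Real.hasSum_pow_div_log_of_abs_lt_one hm1).summable)
      (integrable_const _)
      (ae_of_all _ fun z => Real.hasSum_pow_div_log_of_abs_lt_one ((hU z).trans_lt hν))
    simpa [integral_div] using this
  have s2 : HasSum (fun n : ℕ => ∫ z, (n : ℝ) * (rsV ν q z ^ 2 * rsU ν q z ^ (n - 1))
      ∂gaussianReal 0 1) (rsR ν q) := by
    have := hasSum_integral_of_dominated_convergence (μ := gaussianReal 0 1)
      (F := fun (n : ℕ) z => (n : ℝ) * (rsV ν q z ^ 2 * rsU ν q z ^ (n - 1)))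
      (f := fun z => (rsV ν q z / (1 - rsU ν q z)) ^ 2)
      (fun n _ => (capC q * m) ^ 2 * ((n : ℝ) * m ^ (n - 1)))
      (fun n => Measurable.aestronglyMeasurable (by fun_prop))
      (fun n => ae_of_all _ fun z => by
        rw [Real.norm_eq_abs, abs_mul, abs_mul, abs_pow, abs_pow, Nat.abs_cast, mul_left_comm]
        gcongr
        · exact hV z
        · exact hU z)
      (ae_of_all _ fun _ => (geom m hm1).summable.mul_left _)
      (integrable_const _)
      (ae_of_all _ fun z => by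
        have := (geom _ ((hU z).trans_lt hν)).mul_left (rsV ν q z ^ 2)
        rw [div_pow]
        rw [mul_one_div] at this
        exact this.congr_fun fun n => by ring)
    simpa [rsR] using this
  have hle := hasSum_le (fun n : ℕ => ?_) (s1.add (s2.mul_left ((rbar c G - q) / 2)))
    (hasSum_moment ν hν G c)
  · linarith
  · have h := moment_rs (ν := ν) hq0 hq hG (n + 1)
    have hn : (0:ℝ) < n + 1 := by positivity
    rw [integral_const_mul]
    rw [le_div_iff₀ hn]
    rw [show n + 1 - 2 = n - 1 by omega] at h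
    push_cast at h
    have e : ((∫ z, rsU ν q z ^ (n + 1) ∂gaussianReal 0 1) / (n + 1)
        + (rbar c G - q) / 2 * ((n:ℝ) * ∫ z, rsV ν q z ^ 2 * rsU ν q z ^ (n - 1) ∂gaussianReal 0 1))
          * (n + 1)
        = (∫ z, rsU ν q z ^ (n + 1) ∂gaussianReal 0 1)
          + ((n + 1 : ℝ) * (n + 1 - 1) / 2) * (rbar c G - q)
            * ∫ z, rsV ν q z ^ 2 * rsU ν q z ^ (n - 1) ∂gaussianReal 0 1 := by
      field_simp; ring
    rw [e]; exact h

end Vale.Agent.P157
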