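import Vale.Agent.P157.Blocks
import Vale.Agent.P157.PatternRS

/-!
Adding a small Gaussian site field, and adding one pattern.
-/

open MeasureTheory ProbabilityTheory
open scoped BigOperators

namespace Vale.Agent.P157

variable {ι : Type*} [Fintype ι]

/-- Coordinatewise truncation at `√card`. -/
noncomputable def clipV (x : ι → ℝ) : ι → ℝ := fun i =>
  max (-Real.sqrt (Fintype.card ι)) (min (Real.sqrt (Fintype.card ι)) (x i))

/-- The site field. -/
noncomputable def siteField (v x : ι → ℝ) : ℝ := field (unit ι) v (clipV x)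

@[fun_prop]
lemma measurable_clipV : Measurable (clipV : (ι → ℝ) → ι → ℝ) := by unfold clipV; fun_prop

@[fun_prop]
lemma measurable_siteField : Measurable fun z : (ι → ℝ) × (ι → ℝ) => siteField z.1 z.2 := by
  unfold siteField field; fun_prop

lemma abs_unit_clip_le (x : ι → ℝ) (i : ι) : |unit ι i * clipV x i| ≤ 1 := by
  have hn : 0 < Real.sqrt (Fintype.card ι) := by
    have : Nonempty ι := ⟨i⟩
    exact Real.sqrt_pos.2 (by exact_mod_cast Fintype.card_pos)
  rw [unit, div_mul_eq_mul_div, one_mul, abs_div, abs_of_pos hn, div_le_one hn, abs_le, clipV]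
  exact ⟨le_max_left _ _, max_le (by linarith) (min_le_left _ _)⟩

/-- `∑ |v i|`. -/
noncomputable def absSum (v : ι → ℝ) : ℝ := ∑ i, |v i|

lemma absSum_nonneg (v : ι → ℝ) : 0 ≤ absSum v := Finset.sum_nonneg fun _ _ => abs_nonneg _

@[fun_prop]
lemma measurable_absSum : Measurable (absSum : (ι → ℝ) → ℝ) := by unfold absSum; fun_prop

lemma abs_siteField_le (v x : ι → ℝ) : |siteField v x| ≤ absSum v := by
  refine (Finset.abs_sum_le_sum_abs _ _).trans (Finset.sum_le_sum fun i _ => ?_)
  rw [abs_mul]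
  exact mul_le_of_le_one_right (abs_nonneg _) (abs_unit_clip_le x i)

lemma siteField_comb (a b : ℝ) (v w x : ι → ℝ) :
    siteField (fun i => a * v i + b * w i) x = a * siteField v x + b * siteField w x := by
  simp only [siteField, field, Finset.mul_sum, ← Finset.sum_add_distrib]
  exact Finset.sum_congr rfl fun i _ => by ring

lemma siteField_smul (a : ℝ) (v x : ι → ℝ) :
    siteField (fun i => a * v i) x = a * siteField v x := by
  simp only [siteField, field, Finset.mul_sum]
  exact Finset.sum_congr rfl fun i _ => by ring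

lemma clipV_eq {x : ι → ℝ} (hx : ∑ j, (unit ι j * x j) ^ 2 = 1) : clipV x = x := by
  funext i
  have : Nonempty ι := ⟨i⟩
  have hn : 0 < Real.sqrt (Fintype.card ι) := Real.sqrt_pos.2 (by exact_mod_cast Fintype.card_pos)
  have h := abs_coord_le (unit ι) x hx i
  rw [unit, div_mul_eq_mul_div, one_mul, abs_div, abs_of_pos hn, div_le_one hn, abs_le] at h
  simp [clipV, h.1, h.2]

lemma integrable_absSum_pow (n : ℕ) :
    Integrable (fun v : ι → ℝ => absSum v ^ n) (gaussVec ι) := by
  rcases Nat.eq_zero_or_pos n with rfl | hn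
  · simp
  have h : MemLp (absSum : (ι → ℝ) → ℝ) n (gaussVec ι) := by
    unfold absSum
    exact memLp_finsetSum _ fun i _ =>
      ((memLp_id_gaussianReal (μ := 0) (v := 1) n).comp_measurePreserving
        (measurePreserving_eval (fun _ : ι => gaussianReal 0 1) i)).abs
  refine (h.integrable_norm_pow hn.ne').congr (ae_of_all _ fun v => ?_)
  dsimp only
  rw [Real.norm_eq_abs, abs_of_nonneg (absSum_nonneg v)]

lemma integrable_absSum : Integrable (absSum : (ι → ℝ) → ℝ) (gaussVec ι) := by
  simpa using integrable_absSum_pow (ι := ι) 1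

/-- Error constant of one field step. -/
noncomputable def fieldConst : ℝ :=
  8 * (∫ z, |z| ^ 3 ∂gaussianReal 0 1) + (1 / 8) * (∫ z, |z| ^ 4 ∂gaussianReal 0 1)
    + 32 * ∫ z, |z| ^ 6 ∂gaussianReal 0 1

lemma fieldConst_nonneg : 0 ≤ fieldConst := by
  have : ∀ k : ℕ, 0 ≤ ∫ z, |z| ^ k ∂gaussianReal 0 1 := fun k =>
    integral_nonneg fun z => by positivity
  have h3 := this 3; have h4 := this 4; have h6 := this 6
  unfold fieldConst; positivity

lemma cumulant_lower {X : Type*} [MeasurableSpace X] {G : Measure X} [IsProbabilityMeasure G]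
    {Y : X → ℝ} {C : ℝ} (hm : Measurable Y) (hb : ∀ x, |Y x| ≤ C) :
    (∫ x, Y x ∂G) + ((∫ x, Y x ^ 2 ∂G) - (∫ x, Y x ∂G) ^ 2) / 2
      - (8 * (∫ x, |Y x| ^ 3 ∂G) + (1 / 8) * (∫ x, |Y x| ^ 4 ∂G) + 32 * ∫ x, |Y x| ^ 6 ∂G)
      ≤ Real.log (∫ x, Real.exp (Y x) ∂G) := by
  set a := ∫ x, Y x ∂G
  set A := ∫ x, |Y x| ^ 3 ∂G
  have hi : ∀ (F : X → ℝ) (D : ℝ), Measurable F → (∀ x, |F x| ≤ D) → Integrable F G :=
    fun F D hF hD => Integrable.of_bound hF.aestronglyMeasurable D
      (ae_of_all _ fun x => (Real.norm_eq_abs _).trans_le (hD x))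
  have hC : ∀ x, |Y x| ≤ |C| := fun x => (hb x).trans (le_abs_self C)
  have ip : ∀ k : ℕ, Integrable (fun x => |Y x| ^ k) G := fun k =>
    hi _ (|C| ^ k) (by fun_prop) fun x => by
      rw [abs_pow, abs_abs]; exact pow_le_pow_left₀ (abs_nonneg _) (hC x) k
  have i1 : Integrable Y G := hi _ _ hm hb
  have i1' : Integrable (fun x => |Y x|) G := by simpa using ip 1
  have i2 : Integrable (fun x => Y x ^ 2) G := by simpa using ip 2
  have ha : |a| ≤ ∫ x, |Y x| ∂G := abs_integral_le_integral_abs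
  have ha3 : |a| ^ 3 ≤ A := (pow_le_pow_left₀ (abs_nonneg _) ha 3).trans
    (mean_cube_le (fun x => abs_nonneg _) i1' (ip 3))
  have hA2 : A ^ 2 ≤ ∫ x, |Y x| ^ 6 ∂G :=
    (mean_sq_le (ip 3) ((ip 6).congr (ae_of_all _ fun x => by ring))).trans
      (le_of_eq (integral_congr_ae (ae_of_all _ fun x => by ring)))
  set v := (∫ x, Y x ^ 2 ∂G) - a ^ 2
  have hv0 : 0 ≤ v := sub_nonneg.2 (mean_sq_le i1 i2)
  have hv2 : v ^ 2 ≤ ∫ x, |Y x| ^ 4 ∂G := by
    refine (pow_le_pow_left₀ hv0 (sub_le_self _ (sq_nonneg a)) 2).trans ?_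
    refine (mean_sq_le i2 ((ip 4).congr (ae_of_all _ fun x => ?_))).trans
      (le_of_eq (integral_congr_ae (ae_of_all _ fun x => ?_)))
    · dsimp only; rw [show (4:ℕ) = 2 * 2 from rfl, pow_mul, sq_abs]
    · dsimp only; rw [show (4:ℕ) = 2 * 2 from rfl, pow_mul |Y x|, sq_abs]
  set T := ∫ x, |Y x - a| ^ 3 ∂G
  have iT : Integrable (fun x => |Y x - a| ^ 3) G := hi _ ((|C| + |a|) ^ 3) (by fun_prop) fun x => by
    rw [abs_pow, abs_abs]
    exact pow_le_pow_left₀ (abs_nonneg _) ((abs_sub _ _).trans (add_le_add (hC x) le_rfl)) 3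
  have hT0 : 0 ≤ T := integral_nonneg fun x => by positivity
  have hT : T ≤ 8 * A := by
    have := integral_mono iT (((ip 3).const_mul 4).add (integrable_const (4 * |a| ^ 3))) fun x => by
      refine (pow_le_pow_left₀ (abs_nonneg _) (abs_sub (Y x) a) 3).trans ?_
      simp only [Pi.add_apply]
      nlinarith [mul_nonneg (add_nonneg (abs_nonneg (Y x)) (abs_nonneg a)) (sq_nonneg (|Y x| - |a|))]
    rw [integral_add' ((ip 3).const_mul 4) (integrable_const _), integral_const_mul, integral_const,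
      probReal_univ, one_smul] at this
    linarith
  set X' := ∫ x, Real.exp (Y x - a) ∂G
  have ie : Integrable (fun x => Real.exp (Y x - a)) G := hi _ (Real.exp (|C| + |a|)) (by fun_prop)
    fun x => by
      rw [Real.abs_exp]
      exact Real.exp_le_exp.2 ((le_abs_self _).trans ((abs_sub _ _).trans (add_le_add (hC x) le_rfl)))
  have hlog : Real.log (∫ x, Real.exp (Y x) ∂G) = a + Real.log X' := by
    have : ∫ x, Real.exp (Y x) ∂G = Real.exp a * X' := by
      rw [← integral_const_mul]
      refine integral_congr_ae (ae_of_all _ fun x => ?_)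
      dsimp only
      rw [← Real.exp_add]; ring_nf
    rw [this, Real.log_mul (Real.exp_ne_zero _) (integral_exp_pos' (h := fun x => Y x - a)
      (B := |C| + |a|) (by fun_prop) fun x => (abs_sub _ _).trans (add_le_add (hC x) le_rfl)).ne',
      Real.log_exp]
  have isub : Integrable (fun x => Y x - a) G := i1.sub (integrable_const _)
  have isq : Integrable (fun x => (Y x - a) ^ 2) G := by
    refine hi _ ((|C| + |a|) ^ 2) (by fun_prop) fun x => ?_
    rw [abs_pow]
    exact pow_le_pow_left₀ (abs_nonneg _) ((abs_sub _ _).trans (add_le_add (hC x) le_rfl)) 2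
  have hz : ∫ x, (Y x - a) ∂G = 0 := by
    rw [integral_sub i1 (integrable_const _)]; simp [a]
  have hX1 : 1 ≤ X' := by
    have := integral_mono ((integrable_const (1:ℝ)).add isub) ie fun x => by
      simp only [Pi.add_apply]; linarith [Real.add_one_le_exp (Y x - a)]
    rw [integral_add' (integrable_const _) isub, hz] at this
    simpa using this
  have hvar : ∫ x, (Y x - a) ^ 2 ∂G = v := by
    rw [show (fun x => (Y x - a) ^ 2) = fun x => (Y x ^ 2 - 2 * a * Y x) + a ^ 2 from
        funext fun x => by ring,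
      integral_add (f := fun x => Y x ^ 2 - 2 * a * Y x) (i2.sub (i1.const_mul _)) (integrable_const _),
      integral_sub i2 (i1.const_mul _), integral_const_mul]
    simp [v, a]; ring
  have hX : v / 2 - T ≤ X' - 1 := by
    have i3 : Integrable (fun x => 1 + (Y x - a) + (Y x - a) ^ 2 / 2) G :=
      ((integrable_const 1).add isub).add (isq.div_const 2)
    have := integral_mono (i3.sub iT) ie fun x => exp_ge_cubic (Y x - a)
    rw [integral_sub' i3 iT, integral_add (f := fun x => 1 + (Y x - a))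
      ((integrable_const (1:ℝ)).add isub) (isq.div_const 2),
      integral_add (integrable_const _) isub, hz, integral_div, hvar] at this
    simp only [integral_const, probReal_univ, one_smul, add_zero] at this
    linarith
  have h := le_log_of_le hX1 hX
  rw [hlog]
  have hT2 : T ^ 2 ≤ 64 * ∫ x, |Y x| ^ 6 ∂G := by
    nlinarith [pow_le_pow_left₀ hT0 hT 2]
  nlinarith [mul_nonneg hv0 hT0]

variable {G : Measure (ι → ℝ)} [IsProbabilityMeasure G]

lemma rbar_le_one (hG : ∀ᵐ x ∂G, ∑ j, (unit ι j * x j) ^ 2 = 1) : rbar (unit ι) G ≤ 1 := by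
  have hi : ∀ j, Integrable (fun x : ι → ℝ => (unit ι j * x j) ^ 2) G := fun j =>
    Integrable.of_bound (Measurable.aestronglyMeasurable (by fun_prop)) 1 (hG.mono fun x h => by
      rw [Real.norm_eq_abs, abs_pow]; exact pow_le_one₀ (abs_nonneg _) (abs_coord_le _ x h j))
  calc rbar (unit ι) G = ∑ j, (∫ x, unit ι j * x j ∂G) ^ 2 := by
        simp only [rbar, integral_const_mul]
    _ ≤ ∑ j, ∫ x, (unit ι j * x j) ^ 2 ∂G := Finset.sum_le_sum fun j _ =>
        mean_sq_le (Integrable.of_bound (Measurable.aestronglyMeasurable (by fun_prop)) 1 (hG.mono fun x h =>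
          (Real.norm_eq_abs _).trans_le (abs_coord_le _ x h j))) (hi j)
    _ = 1 := by
        rw [← integral_finsetSum _ fun j _ => hi j, integral_congr_ae hG]; simp

omit [IsProbabilityMeasure G] in
lemma rbar_nonneg (c : ι → ℝ) : 0 ≤ rbar c G := Finset.sum_nonneg fun _ _ => sq_nonneg _

/-- A small independent field raises the log-partition function. -/
lemma field_gain (hG : ∀ᵐ x ∂G, ∑ j, (unit ι j * x j) ^ 2 = 1) {δ : ℝ} (hδ0 : 0 ≤ δ) (hδ1 : δ ≤ 1) :
    δ / 2 * (1 - rbar (unit ι) G) - fieldConst * (δ * Real.sqrt δ)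
      ≤ ∫ v, Real.log (∫ x, Real.exp (Real.sqrt δ * siteField v x) ∂G) ∂gaussVec ι := by
  set σ := Real.sqrt δ
  have hσ0 : 0 ≤ σ := Real.sqrt_nonneg _
  have hσ1 : σ ≤ 1 := Real.sqrt_le_one.2 hδ1
  have hσ2 : σ ^ 2 = δ := Real.sq_sqrt hδ0
  have hY : ∀ v x : ι → ℝ, |σ * siteField v x| ≤ σ * absSum v := fun v x => by
    rw [abs_mul, abs_of_nonneg hσ0]
    exact mul_le_mul_of_nonneg_left (abs_siteField_le v x) hσ0
  have hw : ∀ᵐ x ∂G, ∑ j, (σ * (unit ι j * clipV x j)) ^ 2 = δ := hG.mono fun x h => by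
    simp only [mul_pow σ, ← Finset.mul_sum, clipV_eq h, h, hσ2, mul_one]
  have hlin : ∀ v x, σ * siteField v x = ∑ j, v j * (σ * (unit ι j * clipV x j)) := fun v x => by
    simp only [siteField, field, Finset.mul_sum]
    exact Finset.sum_congr rfl fun j _ => by ring
  -- mixed integrals
  have hmix : ∀ (F : ℝ → ℝ) (k : ℕ), Measurable F → (∀ y, |F y| ≤ |y| ^ k) →
      Integrable (fun v => ∫ x, F (σ * siteField v x) ∂G) (gaussVec ι) ∧
      ∫ v, ∫ x, F (σ * siteField v x) ∂G ∂gaussVec ι = ∫ z, F (σ * z) ∂gaussianReal 0 1 := by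
    intro F k hF hFb
    have hi : Integrable (Function.uncurry fun v x => F (σ * siteField v x)) ((gaussVec ι).prod G) := by
      refine Integrable.mono' (((integrable_absSum_pow (ι := ι) k).const_mul (σ ^ k)).comp_fst G)
        (hF.comp (by fun_prop)).aestronglyMeasurable (ae_of_all _ fun p => ?_)
      refine (Real.norm_eq_abs _).trans_le ((hFb _).trans ?_)
      rw [← mul_pow]
      exact pow_le_pow_left₀ (abs_nonneg _) (hY p.1 p.2) k
    refine ⟨hi.integral_prod_left, ?_⟩
    rw [integral_integral_swap hi]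
    have : ∀ᵐ x ∂G, ∫ v, F (σ * siteField v x) ∂gaussVec ι = ∫ z, F (σ * z) ∂gaussianReal 0 1 := by
      filter_upwards [hw] with x hx
      simp only [hlin]
      rw [integral_linear _ hF, hx]
    rw [integral_congr_ae this]; simp
  obtain ⟨j1, e1⟩ := hmix (fun y => y) 1 measurable_id fun y => by simp
  obtain ⟨j2, e2⟩ := hmix (fun y => y ^ 2) 2 (by fun_prop) fun y => by simp
  have hk : ∀ k : ℕ, Integrable (fun v => ∫ x, |σ * siteField v x| ^ k ∂G) (gaussVec ι) ∧
      ∫ v, ∫ x, |σ * siteField v x| ^ k ∂G ∂gaussVec ι = σ ^ k * ∫ z, |z| ^ k ∂gaussianReal 0 1 := by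
    intro k
    obtain ⟨a, b⟩ := hmix (fun y => |y| ^ k) k (by fun_prop) fun y => by simp [abs_pow]
    refine ⟨a, b.trans ?_⟩
    simp only [abs_mul, mul_pow, abs_of_nonneg hσ0, integral_const_mul]
  set m := fun j => σ * (unit ι j * ∫ x, x j ∂G)
  have hmean : ∀ v, ∫ x, σ * siteField v x ∂G = ∑ j, v j * m j := by
    intro v
    simp only [hlin]
    rw [integral_finsetSum]
    · refine Finset.sum_congr rfl fun j _ => ?_
      rw [integral_const_mul, integral_const_mul, integral_const_mul]
      congr 3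
      exact integral_congr_ae (hG.mono fun x h => by dsimp only; rw [clipV_eq h])
    · intro j _
      refine ((Integrable.of_bound (by fun_prop) 1 (ae_of_all _ fun x => ?_)).const_mul σ).const_mul _
      exact (Real.norm_eq_abs _).trans_le (abs_unit_clip_le x j)
  have jm : Integrable (fun v => (∫ x, σ * siteField v x ∂G) ^ 2) (gaussVec ι) := by
    simp only [hmean]
    exact integrable_linear m (F := fun y => y ^ 2) (by fun_prop)
      (by simp only [mul_pow]; exact (integrable_pow_gauss 2).const_mul _)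
  have em : ∫ v, (∫ x, σ * siteField v x ∂G) ^ 2 ∂gaussVec ι = δ * rbar (unit ι) G := by
    simp only [hmean, integral_linear_sq, m, mul_pow σ, ← Finset.mul_sum, hσ2]
    rfl
  have hlow : ∀ v, (∫ x, σ * siteField v x ∂G)
      + ((∫ x, (σ * siteField v x) ^ 2 ∂G) - (∫ x, σ * siteField v x ∂G) ^ 2) / 2
      - (8 * (∫ x, |σ * siteField v x| ^ 3 ∂G) + (1 / 8) * (∫ x, |σ * siteField v x| ^ 4 ∂G)
        + 32 * ∫ x, |σ * siteField v x| ^ 6 ∂G)
      ≤ Real.log (∫ x, Real.exp (σ * siteField v x) ∂G) := fun v =>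
    cumulant_lower (by fun_prop) (hY v)
  have jlog : Integrable (fun v => Real.log (∫ x, Real.exp (σ * siteField v x) ∂G)) (gaussVec ι) := by
    refine Integrable.mono' (integrable_absSum.const_mul σ)
      (measurable_logMean_param (μ := G) (F := fun v x => σ * siteField v x) (by fun_prop)).aestronglyMeasurable
      (ae_of_all _ fun v => ?_)
    rw [Real.norm_eq_abs]
    exact abs_logMean_le (by fun_prop) (hY v)
  have jE := (((hk 3).1.const_mul 8).add ((hk 4).1.const_mul (1 / 8))).add ((hk 6).1.const_mul 32)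
  have jQ := (j2.sub jm).div_const 2
  have := integral_mono ((j1.add jQ).sub jE) jlog hlow
  rw [integral_sub' (j1.add jQ) jE, integral_add' j1 jQ] at this
  simp only [Pi.add_apply, Pi.sub_apply] at this
  rw [integral_add (f := fun v => 8 * (∫ x, |σ * siteField v x| ^ 3 ∂G)
      + (1 / 8) * ∫ x, |σ * siteField v x| ^ 4 ∂G)
      (((hk 3).1.const_mul 8).add ((hk 4).1.const_mul (1 / 8))) ((hk 6).1.const_mul 32),
    integral_add ((hk 3).1.const_mul 8) ((hk 4).1.const_mul (1 / 8)), integral_const_mul,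
    integral_const_mul, integral_const_mul, (hk 3).2, (hk 4).2, (hk 6).2, integral_div,
    integral_sub j2 jm, e1, e2, em, integral_const_mul] at this
  simp only [mul_pow, integral_const_mul, gauss_sq, integral_id_gaussianReal, hσ2, mul_zero,
    mul_one] at this
  refine le_trans ?_ this
  have hle : ∀ k : ℕ, 3 ≤ k → σ ^ k * ∫ z, |z| ^ k ∂gaussianReal 0 1
      ≤ (δ * σ) * ∫ z, |z| ^ k ∂gaussianReal 0 1 := fun k hk => by
    refine mul_le_mul_of_nonneg_right ?_ (integral_nonneg fun z => by positivity)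
    rw [← hσ2, ← pow_succ]
    exact pow_le_pow_of_le_one hσ0 hσ1 hk
  have b3 := hle 3 le_rfl
  have b4 := hle 4 (by norm_num)
  have b6 := hle 6 (by norm_num)
  unfold fieldConst
  linarith

end Vale.Agent.P157
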