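import Mathlib.Analysis.SpecialFunctions.Pow.Real

/-!
Binomial thinning of sequences.
-/

namespace Vale.Agent.P157

/-- One thinning step. -/
def thin (p : ℝ) (G : ℕ → ℝ) : ℕ → ℝ := fun j => (1 - p) * G j + p * G (j + 1)

/-- `k` thinning steps. -/
def thinIter (p : ℝ) : ℕ → (ℕ → ℝ) → ℕ → ℝ
  | 0, G => G
  | k + 1, G => thin p (thinIter p k G)

variable {p : ℝ}

lemma thinIter_lin (p a b : ℝ) (F G : ℕ → ℝ) (k j : ℕ) :
    thinIter p k (fun i => a * F i + b * G i) j = a * thinIter p k F j + b * thinIter p k G j := by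
  induction k generalizing j with
  | zero => rfl
  | succ k ih => simp only [thinIter, thin, ih]; ring

lemma thinIter_const (p C : ℝ) (k j : ℕ) : thinIter p k (fun _ => C) j = C := by
  induction k generalizing j with
  | zero => rfl
  | succ k ih => simp only [thinIter, thin, ih]; ring

lemma thinIter_affine (p a b : ℝ) (G : ℕ → ℝ) (k j : ℕ) :
    thinIter p k (fun i => a * G i + b) j = a * thinIter p k G j + b := by
  have := thinIter_lin p a b G (fun _ => 1) k j
  simpa [thinIter_const] using this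

lemma thinIter_mono (hp0 : 0 ≤ p) (hp1 : p ≤ 1) {F G : ℕ → ℝ} (h : ∀ i, F i ≤ G i) (k j : ℕ) :
    thinIter p k F j ≤ thinIter p k G j := by
  induction k generalizing j with
  | zero => exact h j
  | succ k ih =>
    exact add_le_add (mul_le_mul_of_nonneg_left (ih j) (by linarith))
      (mul_le_mul_of_nonneg_left (ih (j + 1)) hp0)

lemma thinIter_abs_le (hp0 : 0 ≤ p) (hp1 : p ≤ 1) {G : ℕ → ℝ} {B : ℝ} (h : ∀ i, |G i| ≤ B)
    (k j : ℕ) : |thinIter p k G j| ≤ B := by
  rw [abs_le]
  constructor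
  · simpa [thinIter_const] using thinIter_mono hp0 hp1 (F := fun _ => -B)
      (fun i => (abs_le.1 (h i)).1) k j
  · simpa [thinIter_const] using thinIter_mono hp0 hp1 (G := fun _ => B)
      (fun i => (abs_le.1 (h i)).2) k j

lemma thinIter_shift (p : ℝ) (G : ℕ → ℝ) (k j : ℕ) :
    thinIter p k (fun i => G (i + 1)) j = thinIter p k G (j + 1) := by
  induction k generalizing j with
  | zero => rfl
  | succ k ih => simp only [thinIter, thin, ih]

lemma thinIter_diff (p : ℝ) (G : ℕ → ℝ) (k j : ℕ) :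
    thinIter p k (fun i => G (i + 1) - G i) j = thinIter p k G (j + 1) - thinIter p k G j := by
  have := thinIter_lin p 1 (-1) (fun i => G (i + 1)) G k j
  rw [thinIter_shift] at this
  calc _ = thinIter p k (fun i => 1 * G (i + 1) + -1 * G i) j := by
        congr 1; funext i; ring
    _ = _ := by rw [this]; ring

lemma thinIter_zero_prob (G : ℕ → ℝ) (k j : ℕ) : thinIter 0 k G j = G j := by
  induction k generalizing j with
  | zero => rfl
  | succ k ih => simp [thinIter, thin, ih]

lemma thinIter_one_prob (G : ℕ → ℝ) (k j : ℕ) : thinIter 1 k G j = G (j + k) := by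
  induction k generalizing j with
  | zero => rfl
  | succ k ih => simp only [thinIter, thin, ih]; ring_nf

/-- First-order expansion in the retention probability, one-sided. -/
lemma thinIter_increase {p p' : ℝ} (hp : 0 ≤ p) (hpp : p ≤ p') (hp1 : p' ≤ 1) {G : ℕ → ℝ} {B : ℝ}
    (hB : ∀ i, |G (i + 1) - G i| ≤ B) (k j : ℕ) :
    thinIter p' (k + 1) G j - thinIter p (k + 1) G j
      ≤ (k + 1) * (p' - p) * thinIter p k (fun i => G (i + 1) - G i) j
        + B * ((k + 1) * (p' - p)) ^ 2 := by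
  have hB0 : 0 ≤ B := (abs_nonneg _).trans (hB 0)
  induction k generalizing j with
  | zero =>
    simp only [thinIter, thin, Nat.cast_zero]
    nlinarith [mul_nonneg hB0 (sq_nonneg (p' - p))]
  | succ k ih =>
    set D := fun i => G (i + 1) - G i
    set A := thinIter p k D
    have hA := fun i => abs_le.1 (thinIter_abs_le hp (hpp.trans hp1) hB k i)
    have h0 := mul_le_mul_of_nonneg_left (ih j) (sub_nonneg.2 hp1)
    have h1 := mul_le_mul_of_nonneg_left (ih (j + 1)) (hp.trans hpp)
    have hd : thinIter p (k + 1) G (j + 1) - thinIter p (k + 1) G j = thinIter p (k + 1) D j :=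
      (thinIter_diff p G (k + 1) j).symm
    have hA2 : (p' - p) * (A (j + 1) - A j) ≤ (p' - p) * (2 * B) :=
      mul_le_mul_of_nonneg_left (by linarith [(hA j).1, (hA (j + 1)).2]) (sub_nonneg.2 hpp)
    have hA3 := mul_le_mul_of_nonneg_left hA2
      (show (0:ℝ) ≤ (k + 1) * (p' - p) by nlinarith [(Nat.cast_nonneg k : (0:ℝ) ≤ k)])
    change (1 - p') * thinIter p' (k + 1) G j + p' * thinIter p' (k + 1) G (j + 1)
      - ((1 - p) * thinIter p (k + 1) G j + p * thinIter p (k + 1) G (j + 1))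
      ≤ _ * _ * thinIter p (k + 1) D j + _
    have hs : thinIter p (k + 1) D j = (1 - p) * A j + p * A (j + 1) := rfl
    have key : (p' - p) * (thinIter p (k + 1) G (j + 1) - thinIter p (k + 1) G j)
        = (p' - p) * ((1 - p) * A j + p * A (j + 1)) := by rw [hd, hs]
    rw [hs]
    push_cast
    nlinarith [mul_nonneg hB0 (sq_nonneg (p' - p))]

lemma thinIter_mean (p a : ℝ) (k j : ℕ) :
    thinIter p k (fun i => (i : ℝ) - a) j = j + k * p - a := by
  induction k generalizing j with
  | zero => simp [thinIter]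
  | succ k ih => simp only [thinIter, thin, ih]; push_cast; ring

lemma thinIter_sq (p a : ℝ) (k j : ℕ) :
    thinIter p k (fun i => ((i : ℝ) - a) ^ 2) j = (j + k * p - a) ^ 2 + k * (p * (1 - p)) := by
  induction k generalizing j with
  | zero => simp [thinIter]
  | succ k ih => simp only [thinIter, thin, ih]; push_cast; ring

lemma thinIter_weight (p : ℝ) (R : ℕ → ℝ) (k j : ℕ) :
    (k + 1) * (1 - p) * thinIter p k R j
      = thinIter p (k + 1) (fun i => ((k : ℝ) + 1 + j - i) * R i) j := by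
  induction k generalizing j with
  | zero => simp only [thinIter, thin]; push_cast; ring
  | succ k ih =>
    have e1 := thinIter_lin p 1 1 (fun i => ((k : ℝ) + 1 + j - i) * R i) R (k + 1) j
    have e2 := ih j
    have e3 := ih (j + 1)
    have f1 : (fun i : ℕ => (((k + 1 : ℕ) : ℝ) + 1 + j - i) * R i)
        = fun i : ℕ => 1 * (((k : ℝ) + 1 + j - i) * R i) + 1 * R i := by
      funext i; push_cast; ring
    have f2 : (fun i : ℕ => (((k + 1 : ℕ) : ℝ) + 1 + j - i) * R i)
        = fun i : ℕ => ((k : ℝ) + 1 + ((j + 1 : ℕ) : ℝ) - i) * R i := by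
      funext i; push_cast; ring
    change _ = (1 - p) * thinIter p (k + 1) _ j + p * thinIter p (k + 1) _ (j + 1)
    conv_rhs => arg 2; rw [f2, ← e3]
    rw [f1, e1, ← e2]
    simp only [thinIter, thin]
    push_cast; ring

/-- Replacing `k + 1` steps by `k` steps. -/
lemma thinIter_mismatch (hp0 : 0 ≤ p) (hp1 : p < 1) {R : ℕ → ℝ} (hR : ∀ i, |R i| ≤ 1) (k : ℕ) :
    thinIter p (k + 1) R 0 - thinIter p k R 0 ≤ 1 / Real.sqrt ((k + 1) * (1 - p)) := by
  set w := Real.sqrt ((k + 1) * (1 - p))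
  have h1p : 0 < 1 - p := by linarith
  have hw : 0 < w := Real.sqrt_pos.2 (by positivity)
  have hw2 : w ^ 2 = (k + 1) * (1 - p) := Real.sq_sqrt (by positivity)
  set a := ((k : ℝ) + 1) * p
  have hb : ∀ i : ℕ, ((i : ℝ) - a) * R i ≤ 1 / (2 * w) * ((i : ℝ) - a) ^ 2 + w / 2 := by
    intro i
    have h2 : ((i : ℝ) - a) * R i ≤ |(i : ℝ) - a| := by
      refine (le_abs_self _).trans ?_
      rw [abs_mul]; exact mul_le_of_le_one_right (abs_nonneg _) (hR i)
    refine h2.trans ?_
    rw [← sub_nonneg]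
    have e : 1 / (2 * w) * ((i : ℝ) - a) ^ 2 + w / 2 - |(i : ℝ) - a|
        = (|(i : ℝ) - a| - w) ^ 2 / (2 * w) := by
      rw [← sq_abs ((i : ℝ) - a)]; field_simp; ring
    rw [e]; positivity
  have h3 := thinIter_mono hp0 hp1.le hb (k + 1) 0
  rw [thinIter_affine, thinIter_sq] at h3
  have h4 := thinIter_lin p (-1) ((k + 1) * (1 - p)) (fun i => ((k : ℝ) + 1 + (0:ℕ) - i) * R i) R (k + 1) 0
  rw [← thinIter_weight] at h4
  have f : (fun i : ℕ => -1 * (((k : ℝ) + 1 + (0:ℕ) - i) * R i) + (k + 1) * (1 - p) * R i)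
      = fun i : ℕ => ((i : ℝ) - a) * R i := by funext i; simp [a]; ring
  rw [f] at h4
  rw [h4] at h3
  have h5 : 1 / (2 * w) * (((0:ℕ) + ((k + 1 : ℕ) : ℝ) * p - a) ^ 2 + ((k + 1 : ℕ) : ℝ) * (p * (1 - p)))
      = p * w / 2 := by
    have : ((0:ℕ) + ((k + 1 : ℕ) : ℝ) * p - a) = 0 := by simp [a]
    rw [this]; push_cast
    field_simp; rw [hw2]; ring
  rw [h5] at h3
  rw [le_div_iff₀ hw]
  have h6 : p * w / 2 + w / 2 ≤ w := by nlinarith
  have h7 : (thinIter p (k + 1) R 0 - thinIter p k R 0) * w * w ≤ w := by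
    rw [mul_assoc, ← sq, hw2]; linarith
  nlinarith

end Vale.Agent.P157
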