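import Vale.Agent.P157.FieldStep
import Vale.Agent.P157.Thinning

/-!
Replica-symmetric upper bound by a thinning interpolation.
-/

open MeasureTheory ProbabilityTheory Filter Topology
open scoped BigOperators

namespace Vale.Agent.P157

variable {ι : Type*} [Fintype ι] (μ : Measure (ι → ℝ)) [IsProbabilityMeasure μ]
  (c₀ : ℝ) (ν : Measure ℝ) [IsFiniteMeasure ν]

/-- Exponent at field `v` and patterns `g`. -/
noncomputable def mixedE (j : ℕ) (v : ι → ℝ) (g : Fin j → ι → ℝ) (x : ι → ℝ) : ℝ :=
  siteField v x + energy (potential c₀ ν) (fun _ => unit ι) g x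

/-- Averaged pressure with `j` patterns and site-field variance `s`. -/
noncomputable def gp (j : ℕ) (s : ℝ) : ℝ :=
  ∫ h, pressureW μ (potential c₀ ν) (fun _ : Fin j => unit ι)
    (fun x => siteField (fun i => Real.sqrt s * h i) x) ∂gaussVec ι

/-- Averaged overlap in the mixed system. -/
noncomputable def rb (j : ℕ) (s : ℝ) : ℝ :=
  ∫ h, ∫ g, rbar (unit ι) (μ.tilted (mixedE c₀ ν j (fun i => Real.sqrt s * h i) g))
    ∂patterns ι j ∂gaussVec ι

/-- The constant per removed pattern. -/
noncomputable def rsK (q : ℝ) : ℝ := c₀ + ∫ z, Real.log (1 - rsU ν q z) ∂gaussianReal 0 1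

lemma measurable_mixedE (j : ℕ) :
    Measurable fun z : ((ι → ℝ) × (Fin j → ι → ℝ)) × (ι → ℝ) => mixedE c₀ ν j z.1.1 z.1.2 z.2 := by
  unfold mixedE energy field; fun_prop

lemma abs_mixedE_le (hν : ν.real Set.univ < 1) (j : ℕ) (v : ι → ℝ) (g : Fin j → ι → ℝ) (x : ι → ℝ) :
    |mixedE c₀ ν j v g x| ≤ absSum v + j * potBound c₀ ν :=
  (abs_add_le _ _).trans (add_le_add (abs_siteField_le v x)
    (abs_energy_le (abs_potential_le c₀ ν hν) _ g x))

lemma absSum_smul (a : ℝ) (v : ι → ℝ) : absSum (fun i => a * v i) = |a| * absSum v := by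
  simp [absSum, abs_mul, Finset.mul_sum]

lemma tilted_unit {μ : Measure (ι → ℝ)} (hμ : ∀ᵐ x ∂μ, ∑ j, (unit ι j * x j) ^ 2 = 1)
    (F : (ι → ℝ) → ℝ) : ∀ᵐ x ∂μ.tilted F, ∑ j, (unit ι j * x j) ^ 2 = 1 :=
  (tilted_absolutelyContinuous μ F).ae_le hμ

lemma isProb_mixed (hν : ν.real Set.univ < 1) (j : ℕ) (v : ι → ℝ) (g : Fin j → ι → ℝ) :
    IsProbabilityMeasure (μ.tilted (mixedE c₀ ν j v g)) :=
  isProbabilityMeasure_tilted (integrable_exp_bdd
    (show Measurable (mixedE c₀ ν j v g) by unfold mixedE energy field; fun_prop)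
    (abs_mixedE_le c₀ ν hν j v g))

lemma measurable_rbar_mixed (j : ℕ) :
    Measurable fun z : (ι → ℝ) × (Fin j → ι → ℝ) =>
      rbar (unit ι) (μ.tilted (mixedE c₀ ν j z.1 z.2)) := by
  unfold rbar
  refine Finset.measurable_sum _ fun k _ => (measurable_const.mul ?_).pow_const 2
  simp only [integral_tilted, smul_eq_mul]
  have hE := measurable_mixedE (ι := ι) c₀ ν j
  have hZ : Measurable fun z : (ι → ℝ) × (Fin j → ι → ℝ) =>
      ∫ x, Real.exp (mixedE c₀ ν j z.1 z.2 x) ∂μ :=
    (StronglyMeasurable.integral_prod_right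
      (f := fun (z : (ι → ℝ) × (Fin j → ι → ℝ)) x => Real.exp (mixedE c₀ ν j z.1 z.2 x))
      (by exact (Real.measurable_exp.comp hE).stronglyMeasurable)).measurable
  exact (StronglyMeasurable.integral_prod_right
    (f := fun (z : (ι → ℝ) × (Fin j → ι → ℝ)) x => Real.exp (mixedE c₀ ν j z.1 z.2 x)
      / (∫ x, Real.exp (mixedE c₀ ν j z.1 z.2 x) ∂μ) * x k)
    (by exact (((Real.measurable_exp.comp hE).div (hZ.comp measurable_fst)).mul
      ((measurable_pi_apply k).comp measurable_snd)).stronglyMeasurable)).measurable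

variable {μ}

lemma rbar_mixed_le (hν : ν.real Set.univ < 1) (hμ : ∀ᵐ x ∂μ, ∑ j, (unit ι j * x j) ^ 2 = 1)
    (j : ℕ) (v : ι → ℝ) (g : Fin j → ι → ℝ) :
    |rbar (unit ι) (μ.tilted (mixedE c₀ ν j v g))| ≤ 1 := by
  have := isProb_mixed μ c₀ ν hν j v g
  rw [abs_of_nonneg (rbar_nonneg _)]
  exact rbar_le_one (tilted_unit hμ _)

lemma abs_rb_le (hν : ν.real Set.univ < 1) (hμ : ∀ᵐ x ∂μ, ∑ j, (unit ι j * x j) ^ 2 = 1)
    (j : ℕ) (s : ℝ) : |rb μ c₀ ν j s| ≤ 1 := by
  rw [← Real.norm_eq_abs, rb]
  refine (norm_integral_le_of_norm_le_const (C := 1) (μ := gaussVec ι)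
    (ae_of_all _ fun h => ?_)).trans (by simp)
  exact (norm_integral_le_of_norm_le_const (C := 1) (ae_of_all _ fun g =>
    (Real.norm_eq_abs _).trans_le (rbar_mixed_le c₀ ν hν hμ j _ g))).trans (by simp)

lemma integrable_rbar_mixed (hν : ν.real Set.univ < 1)
    (hμ : ∀ᵐ x ∂μ, ∑ j, (unit ι j * x j) ^ 2 = 1) (j : ℕ) (v : ι → ℝ) :
    Integrable (fun g => rbar (unit ι) (μ.tilted (mixedE c₀ ν j v g))) (patterns ι j) :=
  Integrable.of_bound ((measurable_rbar_mixed μ c₀ ν j).comp measurable_prodMk_left).aestronglyMeasurable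
    1 (ae_of_all _ fun g => (Real.norm_eq_abs _).trans_le (rbar_mixed_le c₀ ν hν hμ j v g))

variable (μ)

lemma abs_pressureW_field_le (hν : ν.real Set.univ < 1) (j : ℕ) (v : ι → ℝ) :
    |pressureW μ (potential c₀ ν) (fun _ : Fin j => unit ι) (fun x => siteField v x)|
      ≤ absSum v + j * potBound c₀ ν :=
  (norm_integral_le_of_norm_le_const (μ := patterns ι j) (C := absSum v + j * potBound c₀ ν)
    (f := fun g => logMean μ (fun x => siteField v x + energy (potential c₀ ν) (fun _ => unit ι) g x))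
    (ae_of_all _ fun g => (Real.norm_eq_abs _).trans_le
      (abs_logMean_le (measurable_base_add_energy (measurable_potential c₀ ν) (by fun_prop) _ g)
        (abs_mixedE_le c₀ ν hν j v g)))).trans (by simp)

lemma measurable_pressureW_field (j : ℕ) :
    Measurable fun v : ι → ℝ =>
      pressureW μ (potential c₀ ν) (fun _ : Fin j => unit ι) (fun x => siteField v x) := by
  unfold pressureW
  exact (StronglyMeasurable.integral_prod_right
    (f := fun v g => logMean μ (fun x => siteField v x + energy (potential c₀ ν) (fun _ : Fin j => unit ι) g x))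
    (by exact (measurable_logMean_param (by unfold energy field; fun_prop)).stronglyMeasurable)).measurable

lemma integrable_gp (hν : ν.real Set.univ < 1) (j : ℕ) (a : ℝ) :
    Integrable (fun h : ι → ℝ => pressureW μ (potential c₀ ν) (fun _ : Fin j => unit ι)
      (fun x => siteField (fun i => a * h i) x)) (gaussVec ι) := by
  refine Integrable.mono' ((integrable_absSum.const_mul |a|).add (integrable_const (j * potBound c₀ ν)))
    (show Measurable _ from (measurable_pressureW_field μ c₀ ν j).comp (by fun_prop)).aestronglyMeasurable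
    (ae_of_all _ fun h => ?_)
  rw [Real.norm_eq_abs]
  refine (abs_pressureW_field_le μ c₀ ν hν j _).trans ?_
  rw [absSum_smul]; exact le_rfl

lemma gp_zero_field (j : ℕ) : gp μ c₀ ν j 0 = press μ (potential c₀ ν) j := by
  simp only [gp, press, Real.sqrt_zero, zero_mul]
  rw [integral_const, probReal_univ, one_smul]
  congr 1; funext x; simp [siteField, field]

variable {μ} {q : ℝ}

lemma pressureW_succ (hν : ν.real Set.univ < 1) (j : ℕ) (v : ι → ℝ) :
    pressureW μ (potential c₀ ν) (fun _ : Fin (j + 1) => unit ι) (fun x => siteField v x)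
      = ∫ g, (logMean μ (mixedE c₀ ν j v g) + c₀ + ∫ g0, Real.log (1 - ∫ x,
          cosTr ν (field (unit ι) g0 x) ∂μ.tilted (mixedE c₀ ν j v g)) ∂gaussVec ι) ∂patterns ι j := by
  have ec : (fun _ : Fin (j + 1) => unit ι) = Fin.cons (unit ι) (fun _ : Fin j => unit ι) := by
    funext a; refine Fin.cases ?_ (fun i => ?_) a <;> simp
  rw [ec, (pressureW_cons (measurable_potential c₀ ν) (abs_potential_le c₀ ν hν)
    (h := fun x => siteField v x) (H := absSum v) (by fun_prop) (abs_siteField_le v) _ _).2]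
  refine integral_congr_ae (ae_of_all _ fun g => ?_)
  exact integral_logMean_add_potential c₀ ν hν
    (h := mixedE c₀ ν j v g) (by unfold mixedE energy field; fun_prop) (abs_mixedE_le c₀ ν hν j v g) _

lemma integrable_logMean_mixed (hν : ν.real Set.univ < 1) (j : ℕ) (v : ι → ℝ) :
    Integrable (fun g => logMean μ (mixedE c₀ ν j v g)) (patterns ι j) :=
  integrable_logMean_energy (h := fun x => siteField v x) (measurable_potential c₀ ν)
    (abs_potential_le c₀ ν hν) (by fun_prop) (abs_siteField_le v) _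

/-- Adding one pattern. -/
lemma gp_succ_le (hν : ν.real Set.univ < 1) (hμ : ∀ᵐ x ∂μ, ∑ j, (unit ι j * x j) ^ 2 = 1)
    (hq0 : 0 ≤ q) (hq : q < 1) (j : ℕ) (s : ℝ) :
    gp μ c₀ ν (j + 1) s - gp μ c₀ ν j s ≤ rsK c₀ ν q - rsR ν q / 2 * (rb μ c₀ ν j s - q) := by
  have hR : Integrable (fun h : ι → ℝ => ∫ g, rbar (unit ι)
      (μ.tilted (mixedE c₀ ν j (fun i => Real.sqrt s * h i) g)) ∂patterns ι j) (gaussVec ι) := by
    refine Integrable.of_bound ?_ 1 (ae_of_all _ fun h =>
      (norm_integral_le_of_norm_le_const (C := 1) (ae_of_all _ fun g =>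
        (Real.norm_eq_abs _).trans_le (rbar_mixed_le c₀ ν hν hμ j _ g))).trans (by simp))
    exact (StronglyMeasurable.integral_prod_right
      (f := fun (h : ι → ℝ) g => rbar (unit ι) (μ.tilted (mixedE c₀ ν j (fun i => Real.sqrt s * h i) g)))
      (by exact ((measurable_rbar_mixed μ c₀ ν j).comp (by fun_prop :
        Measurable fun z : (ι → ℝ) × (Fin j → ι → ℝ) =>
          ((fun i => Real.sqrt s * z.1 i), z.2))).stronglyMeasurable)).aestronglyMeasurable
  have hpt : ∀ h : ι → ℝ, pressureW μ (potential c₀ ν) (fun _ : Fin (j + 1) => unit ι)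
        (fun x => siteField (fun i => Real.sqrt s * h i) x)
      ≤ (pressureW μ (potential c₀ ν) (fun _ : Fin j => unit ι)
          (fun x => siteField (fun i => Real.sqrt s * h i) x) + (rsK c₀ ν q + rsR ν q / 2 * q))
        + -(rsR ν q / 2) * ∫ g, rbar (unit ι)
          (μ.tilted (mixedE c₀ ν j (fun i => Real.sqrt s * h i) g)) ∂patterns ι j := by
    intro h
    set v := fun i => Real.sqrt s * h i
    rw [pressureW_succ c₀ ν hν j v]
    have i1 := integrable_logMean_mixed (μ := μ) c₀ ν hν j v
    have i2 := (integrable_rbar_mixed c₀ ν hν hμ j v).const_mul (-(rsR ν q / 2))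
    have i3 : Integrable (fun g => logMean μ (mixedE c₀ ν j v g) + (rsK c₀ ν q + rsR ν q / 2 * q))
        (patterns ι j) := i1.add (integrable_const _)
    refine le_trans (integral_mono_ae ?_ (i3.add i2) ?_) (le_of_eq ?_)
    · refine Integrable.of_bound ?_ (absSum v + j * potBound c₀ ν + potBound c₀ ν)
        (ae_of_all _ fun g => ?_)
      · simp only [← integral_logMean_add_potential c₀ ν hν
          (h := mixedE c₀ ν j v _) (by unfold mixedE energy field; fun_prop)
          (abs_mixedE_le c₀ ν hν j v _)]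
        exact (StronglyMeasurable.integral_prod_right
          (f := fun g g0 => logMean μ (fun x => mixedE c₀ ν j v g x + potential c₀ ν (field (unit ι) g0 x)))
          (by exact (measurable_logMean_param
            (by unfold mixedE energy field; fun_prop)).stronglyMeasurable)).aestronglyMeasurable
      · rw [← integral_logMean_add_potential c₀ ν hν
          (h := mixedE c₀ ν j v g) (by unfold mixedE energy field; fun_prop)
          (abs_mixedE_le c₀ ν hν j v g)]
        refine (norm_integral_le_of_norm_le_const (C := absSum v + j * potBound c₀ ν + potBound c₀ ν)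
          (ae_of_all _ fun g0 => ?_)).trans (by simp)
        rw [Real.norm_eq_abs]
        exact abs_logMean_le (by unfold mixedE energy field; fun_prop) fun x =>
          (abs_add_le _ _).trans (add_le_add (abs_mixedE_le c₀ ν hν j v g x)
            (abs_potential_le c₀ ν hν _))
    · refine ae_of_all _ fun g => ?_
      have := isProb_mixed μ c₀ ν hν j v g
      have := log_one_sub_rs (c := unit ι) hν hq0 hq (tilted_unit hμ (mixedE c₀ ν j v g))
      simp only [Pi.add_apply, rsK]
      linarith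
    · rw [integral_add' i3 i2, integral_add i1 (integrable_const _), integral_const_mul,
        integral_const, probReal_univ, one_smul]
      rfl
  have i4 := integrable_gp μ c₀ ν hν j (Real.sqrt s)
  have i5 : Integrable (fun h : ι → ℝ => pressureW μ (potential c₀ ν) (fun _ : Fin j => unit ι)
      (fun x => siteField (fun i => Real.sqrt s * h i) x) + (rsK c₀ ν q + rsR ν q / 2 * q))
      (gaussVec ι) := i4.add (integrable_const _)
  have := integral_mono (integrable_gp μ c₀ ν hν (j + 1) (Real.sqrt s))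
    (i5.add (hR.const_mul (-(rsR ν q / 2)))) hpt
  rw [integral_add' i5 (hR.const_mul _), integral_add i4 (integrable_const _), integral_const_mul,
    integral_const, probReal_univ, one_smul] at this
  simp only [gp, rb] at this ⊢
  linarith

lemma abs_gp_succ_sub (hν : ν.real Set.univ < 1) (j : ℕ) (s : ℝ) :
    |gp μ c₀ ν (j + 1) s - gp μ c₀ ν j s| ≤ potBound c₀ ν := by
  unfold gp
  rw [← integral_sub (integrable_gp μ c₀ ν hν (j + 1) _) (integrable_gp μ c₀ ν hν j _),
    ← Real.norm_eq_abs]
  refine (norm_integral_le_of_norm_le_const (C := potBound c₀ ν) (ae_of_all _ fun h => ?_)).trans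
    (by simp)
  set v := fun i => Real.sqrt s * h i
  rw [Real.norm_eq_abs, pressureW_succ c₀ ν hν j v]
  have i1 := integrable_logMean_mixed (μ := μ) c₀ ν hν j v
  have hm : ∀ g : Fin j → ι → ℝ, Measurable (mixedE c₀ ν j v g) := fun g => by
    unfold mixedE energy field; fun_prop
  have hd : ∀ g, |(logMean μ (mixedE c₀ ν j v g) + c₀ + ∫ g0, Real.log (1 - ∫ x,
      cosTr ν (field (unit ι) g0 x) ∂μ.tilted (mixedE c₀ ν j v g)) ∂gaussVec ι)
      - logMean μ (mixedE c₀ ν j v g)| ≤ potBound c₀ ν := fun g => by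
    rw [← integral_logMean_add_potential c₀ ν hν (hm g) (abs_mixedE_le c₀ ν hν j v g)]
    have hb := abs_mixedE_le c₀ ν hν j v g
    have hf := abs_potential_le c₀ ν hν
    have i0 : Integrable (fun g0 => logMean μ (fun x => mixedE c₀ ν j v g x
        + potential c₀ ν (field (unit ι) g0 x))) (gaussVec ι) :=
      Integrable.of_bound (measurable_logMean_param
        (by unfold mixedE energy field; fun_prop)).aestronglyMeasurable
        (absSum v + j * potBound c₀ ν + potBound c₀ ν) (ae_of_all _ fun g0 => by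
          rw [Real.norm_eq_abs]
          exact abs_logMean_le (by unfold mixedE energy field; fun_prop) fun x =>
            (abs_add_le _ _).trans (add_le_add (hb x) (hf _)))
    calc |(∫ g0, logMean μ (fun x => mixedE c₀ ν j v g x + potential c₀ ν (field (unit ι) g0 x))
            ∂gaussVec ι) - logMean μ (mixedE c₀ ν j v g)|
        = |∫ g0, (logMean μ (fun x => mixedE c₀ ν j v g x + potential c₀ ν (field (unit ι) g0 x))
            - logMean μ (mixedE c₀ ν j v g)) ∂gaussVec ι| := by
          rw [integral_sub i0 (integrable_const _)]; simp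
      _ ≤ _ := by
          rw [← Real.norm_eq_abs]
          refine (norm_integral_le_of_norm_le_const (C := potBound c₀ ν)
            (ae_of_all _ fun g0 => ?_)).trans (by simp)
          have hm2 : Measurable fun x => mixedE c₀ ν j v g x + potential c₀ ν (field (unit ι) g0 x) := by
            unfold mixedE energy field; fun_prop
          have hb2 := fun x => (abs_add_le (mixedE c₀ ν j v g x)
            (potential c₀ ν (field (unit ι) g0 x))).trans (add_le_add (hb x) (hf _))
          have u1 := logMean_mono_add (μ := μ) hm2 hb2 (hm g) hb (d := potBound c₀ ν)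
            fun x => by linarith [(abs_le.1 (hf (field (unit ι) g0 x))).2]
          have u2 := logMean_mono_add (μ := μ) (hm g) hb hm2 hb2 (d := potBound c₀ ν)
            fun x => by linarith [(abs_le.1 (hf (field (unit ι) g0 x))).1]
          rw [Real.norm_eq_abs, abs_le]; constructor <;> linarith
  have isum : Integrable (fun g => logMean μ (mixedE c₀ ν j v g) + c₀ + ∫ g0, Real.log (1 - ∫ x,
      cosTr ν (field (unit ι) g0 x) ∂μ.tilted (mixedE c₀ ν j v g)) ∂gaussVec ι) (patterns ι j) := by
    refine Integrable.mono' (i1.abs.add (integrable_const (potBound c₀ ν))) ?_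
      (ae_of_all _ fun g => ?_)
    · simp only [← integral_logMean_add_potential c₀ ν hν (hm _) (abs_mixedE_le c₀ ν hν j v _)]
      exact (StronglyMeasurable.integral_prod_right
        (f := fun g g0 => logMean μ (fun x => mixedE c₀ ν j v g x + potential c₀ ν (field (unit ι) g0 x)))
        (by exact (measurable_logMean_param
          (by unfold mixedE energy field; fun_prop)).stronglyMeasurable)).aestronglyMeasurable
    · rw [Real.norm_eq_abs]
      simp only [Pi.add_apply]
      have := abs_sub_abs_le_abs_sub (logMean μ (mixedE c₀ ν j v g) + c₀ + ∫ g0, Real.log (1 - ∫ x,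
        cosTr ν (field (unit ι) g0 x) ∂μ.tilted (mixedE c₀ ν j v g)) ∂gaussVec ι)
        (logMean μ (mixedE c₀ ν j v g))
      linarith [hd g]
  change |(∫ g, _ ∂patterns ι j) - ∫ g, logMean μ (mixedE c₀ ν j v g) ∂patterns ι j| ≤ _
  rw [← integral_sub isum i1, ← Real.norm_eq_abs]
  exact (norm_integral_le_of_norm_le_const (ae_of_all _ fun g =>
    (Real.norm_eq_abs _).trans_le (hd g))).trans (by simp)

/-- Increasing the site-field variance. -/
lemma gp_field_ge (hν : ν.real Set.univ < 1) (hμ : ∀ᵐ x ∂μ, ∑ j, (unit ι j * x j) ^ 2 = 1)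
    (j : ℕ) {s δ : ℝ} (hs : 0 ≤ s) (hδ0 : 0 ≤ δ) (hδ1 : δ ≤ 1) :
    gp μ c₀ ν j s + δ / 2 * (1 - rb μ c₀ ν j s) - fieldConst * (δ * Real.sqrt δ)
      ≤ gp μ c₀ ν j (s + δ) := by
  set F : (ι → ℝ) → ℝ := fun v =>
    pressureW μ (potential c₀ ν) (fun _ : Fin j => unit ι) (fun x => siteField v x)
  have hFm : Measurable F := measurable_pressureW_field μ c₀ ν j
  set K := δ / 2 - fieldConst * (δ * Real.sqrt δ)
  have hrot : gp μ c₀ ν j (s + δ) = ∫ p, F (fun i => Real.sqrt s * p.1 i + Real.sqrt δ * p.2 i)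
      ∂(gaussVec ι).prod (gaussVec ι) := by
    rw [← integral_map (φ := fun p : (ι → ℝ) × (ι → ℝ) => fun i =>
      Real.sqrt s * p.1 i + Real.sqrt δ * p.2 i) (by fun_prop) hFm.aestronglyMeasurable,
      gaussVec_rotate hs hδ0, integral_map (Measurable.aemeasurable (by fun_prop)) hFm.aestronglyMeasurable]
    rfl
  have hFi : Integrable (fun p : (ι → ℝ) × (ι → ℝ) =>
      F (fun i => Real.sqrt s * p.1 i + Real.sqrt δ * p.2 i)) ((gaussVec ι).prod (gaussVec ι)) := by
    refine Integrable.mono' ((((integrable_absSum.const_mul (Real.sqrt s)).comp_fst _).add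
      ((integrable_absSum.const_mul (Real.sqrt δ)).comp_snd _)).add
        (integrable_const (j * potBound c₀ ν))) (hFm.comp (by fun_prop)).aestronglyMeasurable
      (ae_of_all _ fun p => (Real.norm_eq_abs _).trans_le
        ((abs_pressureW_field_le μ c₀ ν hν j _).trans (add_le_add ?_ le_rfl)))
    simp only [absSum, Pi.add_apply, Finset.mul_sum, ← Finset.sum_add_distrib]
    refine Finset.sum_le_sum fun i _ => (abs_add_le _ _).trans (le_of_eq ?_)
    rw [abs_mul, abs_mul, abs_of_nonneg (Real.sqrt_nonneg s), abs_of_nonneg (Real.sqrt_nonneg δ)]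
  rw [hrot, integral_prod _ hFi]
  have hRi : Integrable (fun h : ι → ℝ => ∫ g, rbar (unit ι)
      (μ.tilted (mixedE c₀ ν j (fun i => Real.sqrt s * h i) g)) ∂patterns ι j) (gaussVec ι) := by
    refine Integrable.of_bound ?_ 1 (ae_of_all _ fun h =>
      (norm_integral_le_of_norm_le_const (C := 1) (ae_of_all _ fun g =>
        (Real.norm_eq_abs _).trans_le (rbar_mixed_le c₀ ν hν hμ j _ g))).trans (by simp))
    exact (StronglyMeasurable.integral_prod_right
      (f := fun (h : ι → ℝ) g => rbar (unit ι) (μ.tilted (mixedE c₀ ν j (fun i => Real.sqrt s * h i) g)))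
      (by exact ((measurable_rbar_mixed μ c₀ ν j).comp (by fun_prop :
        Measurable fun z : (ι → ℝ) × (Fin j → ι → ℝ) =>
          ((fun i => Real.sqrt s * z.1 i), z.2))).stronglyMeasurable)).aestronglyMeasurable
  have i6 := integrable_gp μ c₀ ν hν j (Real.sqrt s)
  have hpt : ∀ h : ι → ℝ, (F (fun i => Real.sqrt s * h i) + K) + -(δ / 2) * ∫ g, rbar (unit ι)
      (μ.tilted (mixedE c₀ ν j (fun i => Real.sqrt s * h i) g)) ∂patterns ι j
      ≤ ∫ h', F (fun i => Real.sqrt s * h i + Real.sqrt δ * h' i) ∂gaussVec ι := by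
    intro h
    set v := fun i => Real.sqrt s * h i
    set C := absSum v + j * potBound c₀ ν
    let Φ : (ι → ℝ) → (Fin j → ι → ℝ) → ℝ := fun h' g =>
      logMean μ (fun x => mixedE c₀ ν j v g x + Real.sqrt δ * siteField h' x)
    have hΦ : ∀ h', F (fun i => v i + Real.sqrt δ * h' i) = ∫ g, Φ h' g ∂patterns ι j := fun h' => by
      refine integral_congr_ae (ae_of_all _ fun g => congrArg (logMean μ) (funext fun x => ?_))
      have := siteField_comb 1 (Real.sqrt δ) v h' x
      simp only [one_mul] at this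
      simp only [mixedE, this]; ring
    have hΦb : ∀ h' g, |Φ h' g| ≤ C + Real.sqrt δ * absSum h' := fun h' g =>
      abs_logMean_le (by unfold mixedE energy field; fun_prop) fun x => (abs_add_le _ _).trans
        (add_le_add (abs_mixedE_le c₀ ν hν j v g x) (by
          rw [abs_mul, abs_of_nonneg (Real.sqrt_nonneg _)]
          exact mul_le_mul_of_nonneg_left (abs_siteField_le h' x) (Real.sqrt_nonneg _)))
    have hΦi : Integrable (Function.uncurry Φ) ((gaussVec ι).prod (patterns ι j)) := by
      refine Integrable.mono' ((((integrable_absSum.const_mul (Real.sqrt δ))).comp_fst _).add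
        (integrable_const C)) (show Measurable (Function.uncurry Φ) from measurable_logMean_param
          (by unfold mixedE energy field; fun_prop)).aestronglyMeasurable
        (ae_of_all _ fun p => (Real.norm_eq_abs _).trans_le ((hΦb p.1 p.2).trans ?_))
      simp only [Pi.add_apply]; linarith
    change _ ≤ ∫ h', F (fun i => v i + Real.sqrt δ * h' i) ∂gaussVec ι
    rw [integral_congr_ae (ae_of_all _ hΦ), integral_integral_swap hΦi]
    have i7 := integrable_logMean_mixed (μ := μ) c₀ ν hν j v
    have i8 : Integrable (fun g => logMean μ (mixedE c₀ ν j v g) + K) (patterns ι j) :=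
      i7.add (integrable_const _)
    have i9 := (integrable_rbar_mixed c₀ ν hν hμ j v).const_mul (-(δ / 2))
    have hgain : ∀ g, (logMean μ (mixedE c₀ ν j v g) + K)
        + -(δ / 2) * rbar (unit ι) (μ.tilted (mixedE c₀ ν j v g)) ≤ ∫ h', Φ h' g ∂gaussVec ι := by
      intro g
      have hE : Measurable (mixedE c₀ ν j v g) := by unfold mixedE energy field; fun_prop
      have := isProb_mixed μ c₀ ν hν j v g
      have hg := field_gain (tilted_unit hμ (mixedE c₀ ν j v g)) hδ0 hδ1
      set G := μ.tilted (mixedE c₀ ν j v g)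
      have hb : ∀ h' x, |Real.sqrt δ * siteField h' x| ≤ Real.sqrt δ * absSum (ι := ι) h' := fun h' x => by
        rw [abs_mul, abs_of_nonneg (Real.sqrt_nonneg _)]
        exact mul_le_mul_of_nonneg_left (abs_siteField_le h' x) (Real.sqrt_nonneg _)
      have hsplit : ∀ h', Φ h' g = logMean μ (mixedE c₀ ν j v g)
          + Real.log (∫ x, Real.exp (Real.sqrt δ * siteField h' x) ∂G) := fun h' => by
        have e : ∫ x, Real.exp (Real.sqrt δ * siteField h' x) ∂G
            = (∫ x, Real.exp (mixedE c₀ ν j v g x + Real.sqrt δ * siteField h' x) ∂μ)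
              / ∫ x, Real.exp (mixedE c₀ ν j v g x) ∂μ := by
          simpa [G] using integral_exp_tilted (μ := μ) (mixedE c₀ ν j v g)
            (fun x => Real.sqrt δ * siteField h' x)
        have p1 := integral_exp_pos' (μ := μ) hE (abs_mixedE_le c₀ ν hν j v g)
        have p2 := integral_exp_pos' (μ := μ) (h := fun x => mixedE c₀ ν j v g x + Real.sqrt δ * siteField h' x)
          (B := C + Real.sqrt δ * absSum h') (by fun_prop) fun x => (abs_add_le _ _).trans
            (add_le_add (abs_mixedE_le c₀ ν hν j v g x) (hb h' x))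
        simp only [Φ, logMean, e, Real.log_div p2.ne' p1.ne']
        ring
      simp only [hsplit]
      rw [integral_add (integrable_const _) ?_, integral_const, probReal_univ, one_smul]
      · simp only [K]; linarith
      · refine Integrable.mono' (integrable_absSum.const_mul (Real.sqrt δ))
          (measurable_logMean_param (μ := G) (F := fun h' x => Real.sqrt δ * siteField h' x)
            (by fun_prop)).aestronglyMeasurable (ae_of_all _ fun h' => ?_)
        rw [Real.norm_eq_abs]
        exact abs_logMean_le (by fun_prop) (hb h')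
    have := integral_mono (i8.add i9) hΦi.integral_prod_right hgain
    rw [integral_add' i8 i9, integral_add i7 (integrable_const _), integral_const_mul,
      integral_const, probReal_univ, one_smul] at this
    exact this
  have i10 : Integrable (fun h : ι → ℝ => F (fun i => Real.sqrt s * h i) + K) (gaussVec ι) :=
    i6.add (integrable_const _)
  have := integral_mono (i10.add (hRi.const_mul (-(δ / 2)))) hFi.integral_prod_left hpt
  rw [integral_add' i10 (hRi.const_mul _), integral_add i6 (integrable_const _), integral_const_mul,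
    integral_const, probReal_univ, one_smul] at this
  simp only [gp, rb, K, F] at this ⊢
  linarith

/-- One step of the interpolation. -/
lemma guerra_step (hν : ν.real Set.univ < 1) (hμ : ∀ᵐ x ∂μ, ∑ j, (unit ι j * x j) ^ 2 = 1)
    (hq0 : 0 ≤ q) (hq : q < 1) (k : ℕ) {L l : ℕ} (hl : l < L) {δ : ℝ}
    (hδ : δ * L = (k + 1) * rsR ν q) (hδ1 : δ ≤ 1) :
    thinIter ((l + 1 : ℕ) / L) (k + 1) (fun j => gp μ c₀ ν j ((L - (l + 1) : ℕ) * δ) - j * rsK c₀ ν q) 0
      ≤ thinIter (l / L) (k + 1) (fun j => gp μ c₀ ν j ((L - l : ℕ) * δ) - j * rsK c₀ ν q) 0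
        - δ * (1 - q) / 2 + (potBound c₀ ν + |rsK c₀ ν q|) * ((k + 1) / L) ^ 2
        + fieldConst * (δ * Real.sqrt δ)
        + rsR ν q * Real.sqrt (k + 1) / Real.sqrt L
            * (Real.sqrt ((L - l : ℕ) : ℝ) - Real.sqrt ((L - (l + 1) : ℕ) : ℝ)) := by
  have hL : (0 : ℝ) < L := by exact_mod_cast (lt_of_le_of_lt (Nat.zero_le l) hl)
  have hr : 0 ≤ rsR ν q := integral_nonneg fun z => sq_nonneg _
  have hδ0 : 0 ≤ δ := by
    have : 0 ≤ δ * L := hδ ▸ mul_nonneg (by positivity) hr
    exact nonneg_of_mul_nonneg_left this hL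
  obtain ⟨d, hd⟩ : ∃ d, L - l = d + 1 := ⟨L - l - 1, by omega⟩
  have hd' : L - (l + 1) = d := by omega
  have hdL : (l : ℝ) + d + 1 = L := by exact_mod_cast (show l + d + 1 = L by omega)
  rw [hd, hd']
  set p := (l : ℝ) / L
  set s := (d : ℝ) * δ
  set G : ℝ → ℕ → ℝ := fun t j => gp μ c₀ ν j t - j * rsK c₀ ν q
  have hp0 : 0 ≤ p := by positivity
  have hp' : ((l + 1 : ℕ) : ℝ) / L = p + 1 / L := by simp only [p]; push_cast; ring
  have hp1' : p + 1 / L ≤ 1 := by
    rw [← hp', div_le_one hL]; exact_mod_cast hl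
  have hp1 : p < 1 := by linarith [one_div_pos.2 hL]
  have hB : ∀ i, |G s (i + 1) - G s i| ≤ potBound c₀ ν + |rsK c₀ ν q| := fun i => by
    have e : G s (i + 1) - G s i = (gp μ c₀ ν (i + 1) s - gp μ c₀ ν i s) - rsK c₀ ν q := by
      simp only [G]; push_cast; ring
    rw [e]
    exact (abs_sub _ _).trans (add_le_add (abs_gp_succ_sub c₀ ν hν i s) le_rfl)
  have h1 := thinIter_increase hp0 (le_add_of_nonneg_right (one_div_nonneg.2 hL.le)) hp1' hB k 0
  have h2 : thinIter p k (fun i => G s (i + 1) - G s i) 0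
      ≤ -(rsR ν q / 2) * thinIter p k (fun i => rb μ c₀ ν i s) 0 + rsR ν q / 2 * q := by
    rw [← thinIter_affine]
    refine thinIter_mono hp0 hp1.le (fun i => ?_) k 0
    have := gp_succ_le c₀ ν hν hμ hq0 hq i s
    simp only [G]; push_cast; linarith
  have h3 : thinIter p (k + 1) (G s) 0 ≤ thinIter p (k + 1) (G (s + δ)) 0
      + (δ / 2 * thinIter p (k + 1) (fun i => rb μ c₀ ν i s) 0
        + (fieldConst * (δ * Real.sqrt δ) - δ / 2)) := by
    rw [← thinIter_affine]
    have := thinIter_lin p 1 1 (G (s + δ))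
      (fun i => δ / 2 * rb μ c₀ ν i s + (fieldConst * (δ * Real.sqrt δ) - δ / 2)) (k + 1) 0
    simp only [one_mul] at this
    rw [← this]
    refine thinIter_mono hp0 hp1.le (fun i => ?_) (k + 1) 0
    have := gp_field_ge c₀ ν hν hμ i (s := s) (mul_nonneg (Nat.cast_nonneg d) hδ0) hδ0 hδ1
    simp only [G]; linarith
  have h4 := thinIter_mismatch hp0 hp1 (R := fun i => rb μ c₀ ν i s)
    (fun i => abs_rb_le c₀ ν hν hμ i s) k
  have h5 : δ / 2 * (1 / Real.sqrt ((k + 1) * (1 - p)))
      ≤ rsR ν q * Real.sqrt (k + 1) / Real.sqrt L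
        * (Real.sqrt ((d + 1 : ℕ) : ℝ) - Real.sqrt (d : ℝ)) := by
    set a := Real.sqrt ((d + 1 : ℕ) : ℝ)
    set b := Real.sqrt (d : ℝ)
    have ha : 0 < a := Real.sqrt_pos.2 (by positivity)
    have hab : b ≤ a := Real.sqrt_le_sqrt (by simp)
    have hdiff : 1 / (2 * a) ≤ a - b := by
      rw [div_le_iff₀ (by positivity)]
      have e : (a - b) * (a + b) = 1 := by
        have e1 : a ^ 2 = d + 1 := by rw [Real.sq_sqrt (by positivity)]; push_cast; rfl
        have e2 : b ^ 2 = d := Real.sq_sqrt (Nat.cast_nonneg d)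
        nlinarith
      nlinarith [mul_le_mul_of_nonneg_left (by linarith : a + b ≤ 2 * a) (sub_nonneg.2 hab)]
    have hp1d : 1 - p = ((d + 1 : ℕ) : ℝ) / L := by
      simp only [p]; field_simp; push_cast; linarith
    have hk : 0 < Real.sqrt ((k : ℝ) + 1) := Real.sqrt_pos.2 (by positivity)
    have hsL : 0 < Real.sqrt L := Real.sqrt_pos.2 hL
    calc δ / 2 * (1 / Real.sqrt ((k + 1) * (1 - p)))
        = rsR ν q * Real.sqrt (k + 1) / Real.sqrt L * (1 / (2 * a)) := by
          rw [hp1d, Real.sqrt_mul (by positivity), Real.sqrt_div (by positivity)]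
          have eδ : δ = (k + 1) * rsR ν q / L := by rw [← hδ]; field_simp
          rw [eδ]
          field_simp
          rw [Real.sq_sqrt hL.le, Real.sq_sqrt (by positivity : (0:ℝ) ≤ (k:ℝ) + 1)]
          ring
      _ ≤ _ := mul_le_mul_of_nonneg_left hdiff (by positivity)
  have hpe : (((k : ℝ) + 1) * (p + 1 / L - p)) = (k + 1) / L := by ring
  rw [hpe] at h1
  have hs : ((d + 1 : ℕ) : ℝ) * δ = s + δ := by simp only [s]; push_cast; ring
  rw [hp', hs]
  have hmul : ((k : ℝ) + 1) / L * (rsR ν q / 2) = δ / 2 := by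
    rw [← mul_div_assoc, div_mul_eq_mul_div, ← hδ]; field_simp
  have h2' := mul_le_mul_of_nonneg_left h2 (by positivity : (0:ℝ) ≤ ((k : ℝ) + 1) / L)
  have h4' := mul_le_mul_of_nonneg_left h4 (by linarith : 0 ≤ δ / 2)
  have h2'' : ((k : ℝ) + 1) / L * thinIter p k (fun i => G s (i + 1) - G s i) 0
      ≤ -(δ / 2) * thinIter p k (fun i => rb μ c₀ ν i s) 0 + δ / 2 * q := by
    refine h2'.trans (le_of_eq ?_)
    rw [← hmul]; ring
  change thinIter (p + 1 / L) (k + 1) (G s) 0 ≤ thinIter p (k + 1) (G (s + δ)) 0 - _ + _ + _ + _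
  linarith

/-- The replica-symmetric upper bound, at finite size. -/
lemma press_le_rs (hν : ν.real Set.univ < 1) (hμ : ∀ᵐ x ∂μ, ∑ j, (unit ι j * x j) ^ 2 = 1)
    (hq0 : 0 ≤ q) (hq : q < 1) (M : ℕ) :
    press μ (potential c₀ ν) M
      ≤ M * (rsK c₀ ν q - rsR ν q * (1 - q) / 2) + gp μ c₀ ν 0 (M * rsR ν q)
        + rsR ν q * Real.sqrt M := by
  rcases M with _ | k
  · simp [gp_zero_field]
  set r := rsR ν q
  have hr : 0 ≤ r := integral_nonneg fun z => sq_nonneg _
  set B := potBound c₀ ν + |rsK c₀ ν q|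
  have key : ∀ L : ℕ, 0 < L → (k + 1) * r ≤ L →
      press μ (potential c₀ ν) (k + 1) ≤ (k + 1 : ℕ) * (rsK c₀ ν q - r * (1 - q) / 2)
        + gp μ c₀ ν 0 ((k + 1 : ℕ) * r) + r * Real.sqrt ((k + 1 : ℕ) : ℝ)
        + B * ((k + 1) ^ 2 * (1 / L))
        + fieldConst * ((k + 1) * r * Real.sqrt ((k + 1) * r * (1 / L))) := by
    intro L hL hle
    have hL' : (0 : ℝ) < L := by exact_mod_cast hL
    set δ := (k + 1) * r / L
    have hδ : δ * L = (k + 1) * r := by simp only [δ]; field_simp
    have hδ1 : δ ≤ 1 := (div_le_one hL').2 hle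
    set S : ℕ → ℝ := fun l =>
      thinIter ((l : ℝ) / L) (k + 1) (fun j => gp μ c₀ ν j ((L - l : ℕ) * δ) - j * rsK c₀ ν q) 0
    have ind : ∀ l, l ≤ L → S l ≤ S 0 + l * (-(δ * (1 - q) / 2) + B * ((k + 1) / L) ^ 2
        + fieldConst * (δ * Real.sqrt δ))
        + r * Real.sqrt (k + 1) / Real.sqrt L * (Real.sqrt L - Real.sqrt ((L - l : ℕ) : ℝ)) := by
      intro l
      induction l with
      | zero => intro _; simp
      | succ l ih =>
        intro hl
        have h := guerra_step c₀ ν hν hμ hq0 hq k (L := L) (l := l) hl hδ hδ1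
        have := ih (Nat.le_of_succ_le hl)
        simp only [S, B, r] at *
        push_cast at *
        nlinarith
    have := ind L le_rfl
    have eL : S L = press μ (potential c₀ ν) (k + 1) - (k + 1 : ℕ) * rsK c₀ ν q := by
      simp only [S, Nat.sub_self, Nat.cast_zero, zero_mul, div_self hL'.ne', thinIter_one_prob,
        zero_add, gp_zero_field]
    have e0 : S 0 = gp μ c₀ ν 0 ((k + 1 : ℕ) * r) := by
      simp only [S, Nat.cast_zero, zero_div, thinIter_zero_prob, Nat.sub_zero, zero_mul, sub_zero]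
      congr 1; rw [mul_comm, hδ]; push_cast; ring
    rw [eL, e0, Nat.sub_self, Nat.cast_zero, Real.sqrt_zero, sub_zero,
      div_mul_cancel₀ _ (Real.sqrt_pos.2 hL').ne'] at this
    have t1 : (L : ℝ) * (δ * (1 - q) / 2) = (k + 1) * r * (1 - q) / 2 := by
      rw [← hδ]; ring
    have t2 : (L : ℝ) * (B * ((k + 1) / L) ^ 2) = B * ((k + 1) ^ 2 * (1 / L)) := by
      field_simp
    have t3 : (L : ℝ) * (fieldConst * (δ * Real.sqrt δ))
        = fieldConst * ((k + 1) * r * Real.sqrt ((k + 1) * r * (1 / L))) := by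
      rw [← hδ, mul_one_div, mul_div_cancel_right₀ _ hL'.ne']; ring
    push_cast at this ⊢
    linarith
  refine ge_of_tendsto (f := fun L : ℕ => (k + 1 : ℕ) * (rsK c₀ ν q - r * (1 - q) / 2)
      + gp μ c₀ ν 0 ((k + 1 : ℕ) * r) + r * Real.sqrt ((k + 1 : ℕ) : ℝ)
      + B * ((k + 1) ^ 2 * (1 / L))
      + fieldConst * ((k + 1) * r * Real.sqrt ((k + 1) * r * (1 / L)))) (x := atTop) ?_
    ((eventually_ge_atTop (max 1 ⌈(k + 1) * r⌉₊)).mono fun L hL =>
      key L (by omega) (Nat.le_ceil _ |>.trans (by exact_mod_cast le_trans (le_max_right _ _) hL)))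
  have h0 : Tendsto (fun L : ℕ => (1 : ℝ) / L) atTop (𝓝 0) := tendsto_one_div_atTop_nhds_zero_nat
  have hB := ((h0.const_mul (((k : ℝ) + 1) ^ 2)).const_mul B)
  have hs := ((((h0.const_mul (((k : ℝ) + 1) * r)).sqrt).const_mul (((k : ℝ) + 1) * r)).const_mul fieldConst)
  simp only [mul_zero, Real.sqrt_zero] at hB hs
  simpa using (tendsto_const_nhds.add hB).add hs

end Vale.Agent.P157
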