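import Vale.Agent.P157.Defs
import Vale.Agent.P157.Blocks
import Mathlib.Probability.Moments.Variance
import Mathlib.MeasureTheory.Function.L2Space

/-!
The Ising cube and the sphere: block marginals, and the identification of the sphere measure
with the law of a normalised Gaussian vector.
-/

open MeasureTheory ProbabilityTheory
open scoped BigOperators ENNReal

namespace Vale.Agent.P157

variable {ι ι' : Type*} [Fintype ι] [Fintype ι']

/-- A fair sign. -/
noncomputable def coin : Measure ℝ :=
  (2⁻¹ : NNReal) • (Measure.dirac (1 : ℝ) + Measure.dirac (-1 : ℝ))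

instance : IsProbabilityMeasure coin :=
  ⟨by simp [coin, ENNReal.smul_def, ENNReal.inv_two_add_inv_two]⟩

/-- Uniform measure on the cube indexed by `ι`. -/
noncomputable def isingOn (ι : Type*) [Fintype ι] : Measure (ι → ℝ) := Measure.pi fun _ => coin

instance : IsProbabilityMeasure (isingOn ι) := by unfold isingOn; infer_instance

/-- Squared length. -/
def sq2 (z : ι → ℝ) : ℝ := ∑ i, z i ^ 2

lemma sq2_nonneg (z : ι → ℝ) : 0 ≤ sq2 z := Finset.sum_nonneg fun _ _ => sq_nonneg _

@[fun_prop]
lemma measurable_sq2 : Measurable (sq2 : (ι → ℝ) → ℝ) := by unfold sq2; fun_prop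

/-- Radial projection to the sphere of squared radius `card ι`. -/
noncomputable def proj (z : ι → ℝ) : ι → ℝ :=
  fun i => Real.sqrt (Fintype.card ι) * z i / Real.sqrt (sq2 z)

@[fun_prop]
lemma measurable_proj : Measurable (proj : (ι → ℝ) → ι → ℝ) := by unfold proj; fun_prop

/-- Law of the normalised Gaussian vector. -/
noncomputable def sphereOn (ι : Type*) [Fintype ι] : Measure (ι → ℝ) := (gaussVec ι).map proj

instance : IsProbabilityMeasure (sphereOn ι) := by
  unfold sphereOn; exact Measure.isProbabilityMeasure_map measurable_proj.aemeasurable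

lemma isingOn_reindex (e : ι ≃ ι') :
    (isingOn ι).map (fun x j => x (e.symm j)) = isingOn ι' :=
  map_comp_injective coin e.symm.injective

lemma sphereOn_reindex (e : ι ≃ ι') :
    (sphereOn ι).map (fun x j => x (e.symm j)) = sphereOn ι' := by
  have h : (gaussVec ι).map (fun x j => x (e.symm j)) = gaussVec ι' :=
    map_comp_injective (gaussianReal 0 1) e.symm.injective
  unfold sphereOn
  rw [← h, Measure.map_map (by fun_prop) measurable_proj,
    Measure.map_map measurable_proj (by fun_prop)]
  congr 1
  funext z j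
  simp only [Function.comp_apply, proj, sq2, e.symm.sum_comp (fun i => z i ^ 2),
    Fintype.card_congr e]

/-- Second moment of the normalised squared length. -/
noncomputable def kappa : ℝ := Var[fun x : ℝ => x ^ 2; gaussianReal 0 1]

lemma memLp_sq : MemLp (fun x : ℝ => x ^ 2) 2 (gaussianReal 0 1) := by
  rw [memLp_two_iff_integrable_sq (by fun_prop)]
  have h := (memLp_id_gaussianReal (μ := 0) (v := 1) 4).integrable_norm_pow (p := 4) (by norm_num)
  refine h.congr (ae_of_all _ fun x => ?_)
  simp only [id, Real.norm_eq_abs]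
  rw [← pow_mul, show (2 * 2 : ℕ) = 4 from rfl]
  exact Even.pow_abs (by decide) x

lemma integral_sq_gauss : ∫ x, x ^ 2 ∂gaussianReal 0 1 = 1 := by
  have h := variance_id_gaussianReal (μ := 0) (v := 1)
  rw [variance_of_integral_eq_zero (by fun_prop) (by simp)] at h
  simpa using h

lemma integral_abs_sq2_sub (n : ℕ) (hn : 0 < n) (hc : Fintype.card ι ≥ n) :
    ∫ z, |sq2 z / Fintype.card ι - 1| ∂gaussVec ι ≤ (kappa + 1) / (2 * Real.sqrt n) := by
  set m : ℝ := (Fintype.card ι : ℝ)
  have hn' : (0 : ℝ) < n := by exact_mod_cast hn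
  have hm : (n : ℝ) ≤ m := by simp only [m]; exact_mod_cast hc
  have hfun : (fun z : ι → ℝ => sq2 z) = ∑ i, fun z : ι → ℝ => z i ^ 2 := by
    funext z; simp [sq2]
  have hmem : ∀ i, MemLp (fun z : ι → ℝ => z i ^ 2) 2 (gaussVec ι) := fun i =>
    memLp_sq.comp_measurePreserving (measurePreserving_eval _ i)
  have hS : MemLp (fun z : ι → ℝ => sq2 z) 2 (gaussVec ι) := by
    rw [hfun]; exact memLp_finsetSum' _ fun i _ => hmem i
  have hmean : ∫ z, sq2 z ∂gaussVec ι = m := by
    simp only [sq2]
    rw [integral_finsetSum _ fun i _ => (hmem i).integrable one_le_two]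
    have : ∀ i : ι, ∫ z, z i ^ 2 ∂gaussVec ι = 1 := fun i => by
      rw [gaussVec, ← integral_sq_gauss]
      exact integral_comp_eval (μ := fun _ : ι => gaussianReal 0 1) (i := i) (f := fun x : ℝ => x ^ 2) (by fun_prop)
    simp [this, m]
  have hvar : ∫ z, (sq2 z - m) ^ 2 ∂gaussVec ι = m * kappa := by
    have h := variance_eq_integral hS.aemeasurable
    rw [hmean] at h
    rw [← h, hfun, gaussVec, variance_sum_pi (fun _ => memLp_sq)]
    simp [kappa, m]
  have hk : 0 ≤ kappa := variance_nonneg _ _
  have hs : 0 < Real.sqrt n := Real.sqrt_pos.2 hn'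
  have hm0 : 0 < m := hn'.trans_le hm
  have hint2 : Integrable (fun z : ι → ℝ => (sq2 z - m) ^ 2) (gaussVec ι) :=
    (hS.sub (memLp_const m)).integrable_sq
  calc ∫ z, |sq2 z / m - 1| ∂gaussVec ι
      ≤ ∫ z, ((Real.sqrt n / (2 * m ^ 2)) * (sq2 z - m) ^ 2 + 1 / (2 * Real.sqrt n)) ∂gaussVec ι := by
        refine integral_mono (((hS.integrable one_le_two).div_const _).sub (integrable_const _)).abs
          ((hint2.const_mul _).add (integrable_const _)) fun z => ?_
        have := abs_le_avg (inv_pos.2 hs) (sq2 z / m - 1)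
        refine this.trans (le_of_eq ?_)
        field_simp
    _ = (Real.sqrt n / (2 * m ^ 2)) * (m * kappa) + 1 / (2 * Real.sqrt n) := by
        rw [integral_add (hint2.const_mul _) (integrable_const _), integral_const_mul, hvar]
        simp
    _ ≤ _ := by
        rw [add_div]
        refine add_le_add ?_ le_rfl
        rw [show Real.sqrt n / (2 * m ^ 2) * (m * kappa) = Real.sqrt n * kappa / (2 * m) by
          field_simp, div_le_div_iff₀ (by positivity) (by positivity)]
        nlinarith [Real.mul_self_sqrt hn'.le, mul_le_mul_of_nonneg_left hm hk]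

section Polar

lemma lintegral_pi_mul : ∀ (n : ℕ) (F : Fin n → ℝ → ℝ≥0∞), (∀ i, Measurable (F i)) →
    ∫⁻ z : Fin n → ℝ, ∏ i, F i (z i) = ∏ i, ∫⁻ x, F i x := by
  intro n
  induction n with
  | zero => intro F _; simp [volume_pi]
  | succ n ih =>
    intro F hF
    have hmp := (volume_preserving_piFinSuccAbove (fun _ : Fin (n + 1) => ℝ) 0).symm
    have hmeas : Measurable fun z : Fin (n + 1) → ℝ => ∏ i, F i (z i) :=
      Finset.measurable_prod _ fun i _ => (hF i).comp (measurable_pi_apply i)
    rw [← hmp.lintegral_comp hmeas,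
      Fin.prod_univ_succ, ← ih (fun i => F i.succ) (fun i => hF _), Measure.volume_eq_prod,
      ← lintegral_prod_mul (g := fun z : Fin n → ℝ => ∏ i, F i.succ (z i)) (hF 0).aemeasurable
        (Finset.measurable_prod _ fun (i : Fin n) _ => (hF i.succ).comp (measurable_pi_apply i)).aemeasurable]
    refine lintegral_congr fun z => ?_
    simp [MeasurableEquiv.piFinSuccAbove_symm_apply, Fin.insertNthEquiv, Fin.prod_univ_succ]

/-- Radial profile of the Gaussian density. -/
noncomputable def radial (n : ℕ) (s : ℝ) : ℝ≥0∞ :=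
  ENNReal.ofReal ((Real.sqrt (2 * Real.pi))⁻¹ ^ n * Real.exp (-s / 2))

lemma prod_gaussianPDF (n : ℕ) (z : Fin n → ℝ) :
    ∏ i, gaussianPDF 0 1 (z i) = radial n (sq2 z) := by
  simp only [gaussianPDF, radial, sq2]
  rw [← ENNReal.ofReal_prod_of_nonneg fun i _ => gaussianPDFReal_nonneg _ _ _]
  congr 1
  simp only [gaussianPDFReal, sub_zero, NNReal.coe_one, mul_one, Finset.prod_mul_distrib,
    Finset.prod_const, Finset.card_univ, Fintype.card_fin, ← Real.exp_sum]
  congr 2
  rw [← Finset.sum_neg_distrib, Finset.sum_div]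

lemma gaussVec_eq_withDensity (n : ℕ) :
    gaussVec (Fin n) = (volume : Measure (Fin n → ℝ)).withDensity (fun z => radial n (sq2 z)) := by
  refine Measure.pi_eq fun s hs => ?_
  rw [withDensity_apply _ (MeasurableSet.univ_pi hs), ← lintegral_indicator (MeasurableSet.univ_pi hs)]
  have hr : ∀ i, (gaussianReal 0 1) (s i) = ∫⁻ x, (s i).indicator (gaussianPDF 0 1) x := fun i => by
    rw [gaussianReal_of_var_ne_zero _ one_ne_zero, withDensity_apply _ (hs i),
      lintegral_indicator (hs i)]
  simp_rw [hr]
  rw [← lintegral_pi_mul n _ fun i => (measurable_gaussianPDF 0 1).indicator (hs i)]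
  refine lintegral_congr fun z => ?_
  simp only [← prod_gaussianPDF]
  classical
  by_cases h : z ∈ Set.univ.pi s
  · rw [Set.indicator_of_mem h]
    exact Finset.prod_congr rfl fun i _ => (Set.indicator_of_mem (h i trivial) _).symm
  · rw [Set.indicator_of_notMem h]
    obtain ⟨i, hi⟩ : ∃ i, z i ∉ s i := by simpa [Set.mem_univ_pi] using h
    exact (Finset.prod_eq_zero (Finset.mem_univ i) (Set.indicator_of_notMem hi _)).symm

/-- The two factors of the polar decomposition. -/
noncomputable def dirPart (n : ℕ) (A : Set (Fin n → ℝ)) : ℝ≥0∞ :=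
  (volume : Measure (EuclideanSpace ℝ (Fin n))).toSphere
    ((fun θ : Metric.sphere (0 : EuclideanSpace ℝ (Fin n)) 1 =>
      fun i => Real.sqrt n * (θ : EuclideanSpace ℝ (Fin n)) i) ⁻¹' A)

/-- The radial factor. -/
noncomputable def radPart (n : ℕ) (B : Set ℝ) : ℝ≥0∞ :=
  ∫⁻ r, B.indicator (radial n) (r.1 ^ 2) ∂Measure.volumeIoiPow (n - 1)

lemma gauss_polar {n : ℕ} (hn : 0 < n) {A : Set (Fin n → ℝ)} {B : Set ℝ} (hA : MeasurableSet A)
    (hB : MeasurableSet B) :
    gaussVec (Fin n) (proj ⁻¹' A ∩ sq2 ⁻¹' B) = dirPart n A * radPart n B := by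
  have : Nonempty (Fin n) := ⟨⟨0, hn⟩⟩
  have hAB : MeasurableSet (proj ⁻¹' A ∩ sq2 ⁻¹' B) :=
    (measurable_proj hA).inter (measurable_sq2 hB)
  rw [gaussVec_eq_withDensity, withDensity_apply _ hAB, ← lintegral_indicator hAB]
  have hm : Measurable fun z : Fin n → ℝ =>
      (proj ⁻¹' A ∩ sq2 ⁻¹' B).indicator (fun z => radial n (sq2 z)) z :=
    (by unfold radial; fun_prop : Measurable fun z : Fin n → ℝ => radial n (sq2 z)).indicator hAB
  rw [← (PiLp.volume_preserving_ofLp (Fin n)).lintegral_comp hm]
  have hcompl : ∀ F : (EuclideanSpace ℝ (Fin n)) → ℝ≥0∞, ∫⁻ x, F x ∂(volume : Measure (EuclideanSpace ℝ (Fin n)))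
      = ∫⁻ x : ({0}ᶜ : Set (EuclideanSpace ℝ (Fin n))), F x ∂(volume : Measure (EuclideanSpace ℝ (Fin n))).comap (↑) := fun F => by
    rw [lintegral_subtype_comap (measurableSet_singleton _).compl, restrict_compl_singleton]
  set T : Set (Metric.sphere (0 : (EuclideanSpace ℝ (Fin n))) 1) :=
    (fun θ : Metric.sphere (0 : (EuclideanSpace ℝ (Fin n))) 1 => fun i => Real.sqrt n * (θ : (EuclideanSpace ℝ (Fin n))) i) ⁻¹' A
  have hT : MeasurableSet T := hA.preimage (by fun_prop)
  have hR : Measurable fun r : Set.Ioi (0 : ℝ) => B.indicator (radial n) (r.1 ^ 2) :=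
    ((by unfold radial; fun_prop : Measurable (radial n)).indicator hB).comp (by fun_prop)
  have hdim : n - 1 = Module.finrank ℝ (EuclideanSpace ℝ (Fin n)) - 1 := by
    rw [finrank_euclideanSpace_fin]
  rw [hcompl, dirPart, radPart, ← lintegral_indicator_one hT, hdim,
    ← lintegral_prod_mul (measurable_one.indicator hT).aemeasurable hR.aemeasurable,
    ← ((volume : Measure (EuclideanSpace ℝ (Fin n))).measurePreserving_homeomorphUnitSphereProd).lintegral_comp_emb
      (Homeomorph.measurableEmbedding _)]
  · refine lintegral_congr fun x => ?_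
    have hx : (x : (EuclideanSpace ℝ (Fin n))) ≠ 0 := x.2
    have hnorm : 0 < ‖(x : (EuclideanSpace ℝ (Fin n)))‖ := norm_pos_iff.2 hx
    have hsq : sq2 (WithLp.ofLp (x : (EuclideanSpace ℝ (Fin n)))) = ‖(x : (EuclideanSpace ℝ (Fin n)))‖ ^ 2 := by
      rw [EuclideanSpace.real_norm_sq_eq]; rfl
    have hp : proj (WithLp.ofLp (x : (EuclideanSpace ℝ (Fin n)))) = fun i =>
        Real.sqrt n * ((homeomorphUnitSphereProd (EuclideanSpace ℝ (Fin n)) x).1 : (EuclideanSpace ℝ (Fin n))) i := by
      funext i
      simp only [proj, hsq, Real.sqrt_sq hnorm.le, Fintype.card_fin,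
        homeomorphUnitSphereProd_apply_fst_coe, PiLp.smul_apply, smul_eq_mul]
      field_simp
    classical
    simp only [Set.indicator_apply, Set.mem_inter_iff, Set.mem_preimage, hp, hsq, T,
      homeomorphUnitSphereProd_apply_snd_coe, Pi.one_apply]
    split_ifs <;> simp_all

lemma sphereOn_polar {n : ℕ} (hn : 0 < n) :
    (gaussVec (Fin n)).map (fun z => (proj z, sq2 z))
        = (sphereOn (Fin n)).prod ((gaussVec (Fin n)).map sq2) ∧
      sphereOn (Fin n) = sphereMeasure n := by
  have h1 : dirPart n Set.univ * radPart n Set.univ = 1 := by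
    rw [← gauss_polar hn MeasurableSet.univ MeasurableSet.univ]; simp
  have hdir : ∀ A, MeasurableSet A → sphereOn (Fin n) A = dirPart n A * radPart n Set.univ := by
    intro A hA
    rw [sphereOn, Measure.map_apply measurable_proj hA, ← gauss_polar hn hA MeasurableSet.univ]
    simp
  constructor
  · refine (Measure.prod_eq fun A B hA hB => ?_).symm
    rw [Measure.map_apply (by fun_prop) (hA.prod hB), hdir A hA,
      Measure.map_apply measurable_sq2 hB, Set.mk_preimage_prod, gauss_polar hn hA hB]
    have : gaussVec (Fin n) (sq2 ⁻¹' B) = dirPart n Set.univ * radPart n B := by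
      rw [← gauss_polar hn MeasurableSet.univ hB]; simp
    rw [this]
    calc dirPart n A * radPart n B
        = dirPart n A * radPart n B * (dirPart n Set.univ * radPart n Set.univ) := by rw [h1, mul_one]
      _ = dirPart n A * radPart n Set.univ * (dirPart n Set.univ * radPart n B) := by ring
  · refine Measure.ext fun A hA => ?_
    rw [hdir A hA, sphereMeasure, Measure.smul_apply,
      Measure.map_apply (by fun_prop) hA, smul_eq_mul, mul_comm]
    congr 1
    have h2 := ENNReal.eq_inv_of_mul_eq_one_left ((mul_comm _ _).trans h1)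
    rw [h2, dirPart, Set.preimage_univ]

end Polar

section Blocks

variable (k n r : ℕ)

/-- The sites of a split system, separated. -/
def separate (z : Site k n r → ℝ) : (Fin k → Fin n → ℝ) × (Fin r → ℝ) :=
  (fun b i => z (Sum.inl (b, i)), fun i => z (Sum.inr i))

lemma map_separate : (gaussVec (Site k n r)).map (separate k n r)
    = (Measure.pi fun _ : Fin k => gaussVec (Fin n)).prod (gaussVec (Fin r)) := by
  have h := (measurePreserving_sumPiEquivProdPi
    (fun _ : Site k n r => gaussianReal 0 1)).map_eq
  have hc : (Measure.pi fun _ : Fin k × Fin n => gaussianReal 0 1).map (fun z b i => z (b, i))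
      = Measure.pi fun _ : Fin k => gaussVec (Fin n) := map_curry _
  rw [← hc]
  conv_rhs => arg 2; rw [← Measure.map_id (μ := gaussVec (Fin r))]
  rw [Measure.map_prod_map _ _ (by fun_prop) measurable_id]
  simp only [gaussVec] at h ⊢
  rw [← h, Measure.map_map (by fun_prop) (by fun_prop)]
  rfl

lemma ising_marginal :
    (isingOn (Site k n r)).map (fun x b i => x (Sum.inl (b, i)))
      = ((Measure.dirac ()).prod (Measure.pi fun _ : Fin k => isingOn (Fin n))).map
          (fun z b i => (1 : ℝ) * z.2 b i) := by
  simp only [one_mul]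
  rw [show (fun z : Unit × (Fin k → Fin n → ℝ) => fun b i => z.2 b i) = Prod.snd from rfl,
    ← Measure.snd, Measure.snd_prod]
  have h1 : (isingOn (Site k n r)).map (fun x (p : Fin k × Fin n) => x (Sum.inl p))
      = Measure.pi fun _ : Fin k × Fin n => coin :=
    map_comp_injective coin Sum.inl_injective
  rw [show (fun (x : Site k n r → ℝ) b i => x (Sum.inl (b, i)))
      = (fun (y : Fin k × Fin n → ℝ) b i => y (b, i)) ∘ (fun x p => x (Sum.inl p)) from rfl,
    ← Measure.map_map (by fun_prop) (by fun_prop), h1]
  exact map_curry coin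

/-- Scale of block `b` for the sphere. -/
noncomputable def blockScale (b : Fin k) (z : Site k n r → ℝ) : ℝ :=
  Real.sqrt ((sq2 ((separate k n r z).1 b) / n) / (sq2 z / Fintype.card (Site k n r)))

lemma sphere_marginal (hn : 0 < n) :
    (sphereOn (Site k n r)).map (fun x b i => x (Sum.inl (b, i)))
      = ((gaussVec (Site k n r)).prod (Measure.pi fun _ : Fin k => sphereOn (Fin n))).map
          (fun z b i => blockScale k n r b z.1 * z.2 b i) := by
  set N : ℝ := (Fintype.card (Site k n r) : ℝ)
  let ρ : Measure ℝ := (gaussVec (Fin n)).map sq2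
  have : IsProbabilityMeasure ρ := Measure.isProbabilityMeasure_map measurable_sq2.aemeasurable
  let F : (Fin k → (Fin n → ℝ) × ℝ) × (Fin r → ℝ) → Fin k → Fin n → ℝ := fun d b i =>
    Real.sqrt (((d.1 b).2 / n) / ((∑ b', (d.1 b').2 + sq2 d.2) / N)) * (d.1 b).1 i
  have hF : Measurable F := measurable_pi_lambda _ fun b => measurable_pi_lambda _ fun i => by
    fun_prop
  have hsep : Measurable (separate k n r) := by unfold separate; fun_prop
  have htot : ∀ z : Site k n r → ℝ,
      sq2 z = ∑ b, sq2 ((separate k n r z).1 b) + sq2 (separate k n r z).2 := fun z => by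
    simp [sq2, separate, Fintype.sum_sum_type, Fintype.sum_prod_type]
  let T : (Fin k → Fin n → ℝ) × (Fin r → ℝ) → (Fin k → (Fin n → ℝ) × ℝ) × (Fin r → ℝ) :=
    fun d => (fun b => (proj (d.1 b), sq2 (d.1 b)), d.2)
  have hT : Measurable T := by fun_prop
  set D : Measure ((Fin k → (Fin n → ℝ) × ℝ) × (Fin r → ℝ)) :=
    (Measure.pi fun _ : Fin k => (sphereOn (Fin n)).prod ρ).prod (gaussVec (Fin r))
  have left : (gaussVec (Site k n r)).map (T ∘ separate k n r) = D := by
    rw [← Measure.map_map hT hsep, map_separate]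
    have hp := Measure.pi_map_pi (μ := fun _ : Fin k => gaussVec (Fin n))
      (f := fun _ z => (proj z, sq2 z)) (fun _ => by fun_prop)
    rw [(sphereOn_polar hn).1] at hp
    simp only [D, ρ]
    rw [← hp]
    conv_rhs => arg 2; rw [← Measure.map_id (μ := gaussVec (Fin r))]
    rw [Measure.map_prod_map _ _ (by fun_prop) measurable_id]
    rfl
  let U : (Site k n r → ℝ) × (Fin k → Fin n → ℝ) → (Fin k → (Fin n → ℝ) × ℝ) × (Fin r → ℝ) :=
    fun w => (fun b => (w.2 b, sq2 ((separate k n r w.1).1 b)), (separate k n r w.1).2)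
  have right : ((gaussVec (Site k n r)).prod (Measure.pi fun _ : Fin k => sphereOn (Fin n))).map U
      = D := by
    set μY := Measure.pi fun _ : Fin k => sphereOn (Fin n)
    have hq : (gaussVec (Site k n r)).map (fun z => ((fun b => sq2 ((separate k n r z).1 b)),
        (separate k n r z).2)) = (Measure.pi fun _ : Fin k => ρ).prod (gaussVec (Fin r)) := by
      rw [show (fun z => ((fun b => sq2 ((separate k n r z).1 b)), (separate k n r z).2))
          = (Prod.map (fun (a : Fin k → Fin n → ℝ) b => sq2 (a b)) id) ∘ separate k n r from rfl,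
        ← Measure.map_map (by fun_prop) hsep, map_separate,
        ← Measure.map_prod_map _ _ (by fun_prop) measurable_id, Measure.map_id]
      congr 1
      exact Measure.pi_map_pi (μ := fun _ : Fin k => gaussVec (Fin n))
        (f := fun _ z => sq2 z) (fun _ => by fun_prop)
    have e1 : ((gaussVec (Site k n r)).prod μY).map
        (Prod.map (fun z => ((fun b => sq2 ((separate k n r z).1 b)), (separate k n r z).2)) id)
        = ((Measure.pi fun _ : Fin k => ρ).prod (gaussVec (Fin r))).prod μY := by
      rw [← Measure.map_prod_map _ _ (by fun_prop) measurable_id, hq, Measure.map_id]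
    have e2 := ((measurePreserving_arrowProdEquivProdArrow (Fin n → ℝ) ℝ (Fin k)
      (fun _ => sphereOn (Fin n)) (fun _ => ρ)).symm.prod (MeasurePreserving.id (gaussVec (Fin r)))).comp
      (((MeasurePreserving.id μY).prod (MeasurePreserving.id (Measure.pi fun _ : Fin k => ρ))).prod
        (MeasurePreserving.id (gaussVec (Fin r))))
    have e3 : MeasurePreserving (fun w : ((Fin k → ℝ) × (Fin r → ℝ)) × (Fin k → Fin n → ℝ) =>
        ((w.2, w.1.1), w.1.2))
        (((Measure.pi fun _ : Fin k => ρ).prod (gaussVec (Fin r))).prod μY)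
        ((μY.prod (Measure.pi fun _ : Fin k => ρ)).prod (gaussVec (Fin r))) :=
      ((measurePreserving_prodAssoc μY (Measure.pi fun _ : Fin k => ρ) (gaussVec (Fin r))).symm
        MeasurableEquiv.prodAssoc).comp Measure.measurePreserving_swap
    have e4 := (e2.comp e3).map_eq
    rw [← e1, Measure.map_map (e2.comp e3).measurable (by fun_prop)] at e4
    exact e4
  calc _ = (gaussVec (Site k n r)).map (F ∘ T ∘ separate k n r) := by
        rw [sphereOn, Measure.map_map (by fun_prop) measurable_proj]
        congr 1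
        funext z b i
        simp only [Function.comp_apply, F, T, ← htot]
        rcases eq_or_ne (sq2 ((separate k n r z).1 b)) 0 with h0 | h0
        · have : z (Sum.inl (b, i)) = 0 := by
            have := (Finset.sum_eq_zero_iff_of_nonneg fun j _ => sq_nonneg _).1 h0 i (Finset.mem_univ _)
            simpa [separate] using this
          simp [proj, this, h0]
        · have hq : 0 < sq2 ((separate k n r z).1 b) := lt_of_le_of_ne (sq2_nonneg _) (Ne.symm h0)
          have hn' : (0 : ℝ) < n := by exact_mod_cast hn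
          simp only [proj, Fintype.card_fin]
          rw [Real.sqrt_div (by positivity), Real.sqrt_div hq.le, Real.sqrt_div (sq2_nonneg _)]
          have h1 := Real.sqrt_pos.2 hq
          have h2 := Real.sqrt_pos.2 hn'
          simp only [separate] at h1 ⊢
          field_simp
          ring
    _ = D.map F := by rw [← Measure.map_map hF (hT.comp hsep), left]
    _ = _ := by
        rw [← right, Measure.map_map hF (by fun_prop)]
        congr 1
        funext w b i
        simp only [Function.comp_apply, F, U, blockScale, ← htot]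
        rfl

lemma sphere_scale_bound (hn : 0 < n) (b : Fin k) :
    ∫ z, min |blockScale k n r b z ^ 2 - 1| 1 ∂gaussVec (Site k n r)
      ≤ 2 * (kappa + 1) / Real.sqrt n := by
  set N : ℝ := (Fintype.card (Site k n r) : ℝ)
  have hkn : n ≤ Fintype.card (Site k n r) := by
    simp only [Fintype.card_sum, Fintype.card_prod, Fintype.card_fin]
    have := Fin.pos b
    exact le_trans (Nat.le_mul_of_pos_left n this) (Nat.le_add_right _ _)
  have hblock : (gaussVec (Site k n r)).map (fun z => (separate k n r z).1 b) = gaussVec (Fin n) :=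
    map_comp_injective (gaussianReal 0 1) (q := fun i => (Sum.inl (b, i) : Site k n r))
      fun i j h => by simpa using h
  have hsepb : Measurable fun z : Site k n r → ℝ => (separate k n r z).1 b := by
    unfold separate; fun_prop
  have i1 : ∫ z, |sq2 ((separate k n r z).1 b) / n - 1| ∂gaussVec (Site k n r)
      ≤ (kappa + 1) / (2 * Real.sqrt n) := by
    have := integral_abs_sq2_sub (ι := Fin n) n hn (by simp)
    rw [← hblock, integral_map hsepb.aemeasurable (by fun_prop)] at this
    simpa using this
  have i2 := integral_abs_sq2_sub (ι := Site k n r) n hn hkn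
  have hint : ∀ {ι : Type} [Fintype ι] (c : ℝ),
      Integrable (fun z : ι → ℝ => |sq2 z / c - 1|) (gaussVec ι) := by
    intro ι _ c
    refine (((?_ : Integrable (fun z : ι → ℝ => sq2 z) (gaussVec ι)).div_const c).sub
      (integrable_const 1)).abs
    unfold sq2
    exact integrable_finsetSum _ fun i _ =>
      (memLp_sq.comp_measurePreserving (measurePreserving_eval _ i)).integrable one_le_two
  have hA : Integrable (fun z => |sq2 ((separate k n r z).1 b) / n - 1|) (gaussVec (Site k n r)) := by
    have := hint (ι := Fin n) (n : ℝ)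
    rw [← hblock] at this
    exact this.comp_measurable hsepb
  have hpt : ∀ z, min |blockScale k n r b z ^ 2 - 1| 1
      ≤ 2 * |sq2 ((separate k n r z).1 b) / n - 1| + 2 * |sq2 z / N - 1| := by
    intro z
    set a := sq2 ((separate k n r z).1 b) / n
    set s := sq2 z / N
    have ha : 0 ≤ a := div_nonneg (sq2_nonneg _) (Nat.cast_nonneg _)
    have hs : 0 ≤ s := div_nonneg (sq2_nonneg _) (Nat.cast_nonneg _)
    have e : blockScale k n r b z ^ 2 = a / s := Real.sq_sqrt (div_nonneg ha hs)
    rw [e]
    rcases lt_or_ge s (1 / 2) with h | h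
    · refine (min_le_right _ _).trans ?_
      have : 1 / 2 ≤ |s - 1| := by rw [abs_sub_comm, abs_of_nonneg] <;> linarith
      linarith [abs_nonneg (a - 1)]
    · refine (min_le_left _ _).trans ?_
      have hs0 : 0 < s := by linarith
      rw [div_sub_one hs0.ne', abs_div, abs_of_pos hs0, div_le_iff₀ hs0]
      have := abs_sub_le a 1 s
      rw [abs_sub_comm 1 s] at this
      nlinarith [abs_nonneg (a - 1), abs_nonneg (s - 1)]
  calc _ ≤ ∫ z, (2 * |sq2 ((separate k n r z).1 b) / n - 1| + 2 * |sq2 z / N - 1|)
          ∂gaussVec (Site k n r) := by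
        refine integral_mono_of_nonneg (ae_of_all _ fun z => le_min (abs_nonneg _) zero_le_one)
          ((hA.const_mul 2).add ((hint N).const_mul 2)) (ae_of_all _ hpt)
    _ ≤ _ := by
        rw [integral_add (hA.const_mul 2) ((hint N).const_mul 2), integral_const_mul, integral_const_mul]
        have : (2 * (kappa + 1) / Real.sqrt n : ℝ) = 4 * ((kappa + 1) / (2 * Real.sqrt n)) := by
          field_simp; ring
        linarith

end Blocks

end Vale.Agent.P157
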