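import Mathlib.Analysis.SpecialFunctions.Trigonometric.DerivHyp
import Mathlib.Analysis.SpecialFunctions.Trigonometric.Series
import Mathlib.Analysis.SpecialFunctions.Log.Deriv
import Mathlib.Analysis.Calculus.Deriv.MeanValue

/-!
Scalar inequalities.
-/

open Real Set

namespace Vale.Agent.P157

lemma sinh_mul_le {t y : ℝ} (ht0 : 0 ≤ t) (ht1 : t ≤ 1) (hy : 0 ≤ y) :
    sinh (t * y) ≤ t * sinh y := by
  have hd : ∀ x : ℝ, HasDerivAt (fun x => t * sinh x - sinh (t * x))
      (t * cosh x - cosh (t * x) * t) x := fun x =>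
    ((hasDerivAt_sinh x).const_mul t).sub ((hasDerivAt_id x |>.const_mul t |>.congr_deriv
      (mul_one t)).sinh)
  have hmono : MonotoneOn (fun x => t * sinh x - sinh (t * x)) (Ici 0) := by
    refine monotoneOn_of_deriv_nonneg (convex_Ici 0) (by fun_prop)
      (fun x _ => (hd x).differentiableAt.differentiableWithinAt) fun x hx => ?_
    rw [interior_Ici] at hx
    rw [(hd x).deriv]
    have : cosh (t * x) ≤ cosh x := by
      rw [cosh_le_cosh, abs_of_nonneg (by nlinarith [hx.out]), abs_of_pos hx.out]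
      nlinarith [hx.out]
    nlinarith
  have := hmono self_mem_Ici hy hy
  simp only [mul_zero, sinh_zero, sub_self] at this
  linarith

lemma cosh_sub_one_eq (x : ℝ) : cosh x - 1 = 2 * sinh (x / 2) ^ 2 := by
  have h1 := cosh_two_mul (x / 2)
  have h2 := cosh_sq (x / 2)
  rw [show 2 * (x / 2) = x by ring] at h1
  linarith

lemma cosh_mul_sub_one_le {t x : ℝ} (ht : |t| ≤ 1) :
    cosh (t * x) - 1 ≤ t ^ 2 * (cosh x - 1) := by
  have e1 : cosh (t * x) = cosh (|t| * |x|) := by rw [← abs_mul, cosh_abs]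
  have e2 : cosh x = cosh |x| := (cosh_abs x).symm
  rw [e1, e2, cosh_sub_one_eq, cosh_sub_one_eq, mul_div_assoc, ← sq_abs t]
  have h := sinh_mul_le (abs_nonneg t) ht (by positivity : 0 ≤ |x| / 2)
  have h0 : 0 ≤ sinh (|t| * (|x| / 2)) := sinh_nonneg_iff.2 (by positivity)
  have := pow_le_pow_left₀ h0 h 2
  rw [mul_pow] at this
  linarith

lemma half_sq_le_cosh_sub_one (x : ℝ) : x ^ 2 / 2 ≤ cosh x - 1 := by
  rw [cosh_sub_one_eq]
  rcases le_total 0 x with h | h
  · have := self_le_sinh_iff.2 (by linarith : 0 ≤ x / 2)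
    nlinarith
  · have := self_le_sinh_iff.2 (by linarith : 0 ≤ -(x / 2))
    rw [sinh_neg] at this
    nlinarith

lemma exp_bound_six {x : ℝ} (hx : |x| ≤ 1) :
    exp x ≤ 1 + x + x ^ 2 / 2 + x ^ 3 / 6 + x ^ 4 / 24 + x ^ 5 / 120 + x ^ 6 / 100 := by
  have h := (abs_le.1 (Real.exp_bound hx (n := 6) (by norm_num))).2
  rw [Even.pow_abs (by decide : Even 6)] at h
  have h6 : (0 : ℝ) ≤ x ^ 6 := by positivity
  simp [Finset.sum_range_succ, Nat.factorial] at h
  linarith

lemma cosh_le_poly {x : ℝ} (hx : |x| ≤ 1) :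
    cosh x ≤ 1 + x ^ 2 / 2 + x ^ 4 / 24 + x ^ 6 / 100 := by
  have h1 := exp_bound_six hx
  have h2 := exp_bound_six (x := -x) (by rwa [abs_neg])
  rw [cosh_eq]
  ring_nf at h1 h2 ⊢
  linarith

lemma log_one_add_le {v : ℝ} (hv : 0 ≤ v) : log (1 + v) ≤ v - v ^ 2 / 2 + v ^ 3 / 3 := by
  have hd : ∀ x : ℝ, 0 ≤ x → HasDerivAt (fun x => x - x ^ 2 / 2 + x ^ 3 / 3 - log (1 + x))
      (x ^ 3 / (1 + x)) x := fun x hx => by
    have h := ((((hasDerivAt_id x).sub ((hasDerivAt_pow 2 x).div_const 2)).add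
      ((hasDerivAt_pow 3 x).div_const 3)).sub (((hasDerivAt_id x).const_add 1).log (by simp; linarith)))
    refine h.congr_deriv ?_
    simp only [id, Nat.add_one_sub_one, Nat.cast_ofNat, pow_one]
    field_simp
    ring
  have hmono : MonotoneOn (fun x => x - x ^ 2 / 2 + x ^ 3 / 3 - log (1 + x)) (Ici 0) := by
    refine monotoneOn_of_deriv_nonneg (convex_Ici 0)
      (fun x hx => (hd x hx.out).continuousAt.continuousWithinAt)
      (fun x hx => (hd x (interior_subset hx).out).differentiableAt.differentiableWithinAt)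
      fun x hx => ?_
    rw [(hd x (interior_subset hx).out).deriv]
    have := (interior_subset hx).out
    positivity
  have := hmono self_mem_Ici hv hv
  simp only [add_zero, log_one] at this
  norm_num at this
  linarith

/-- Third-order upper bound for `log cosh`. -/
lemma log_cosh_le (x : ℝ) : log (cosh x) ≤ x ^ 2 / 2 - x ^ 4 / 12 + x ^ 6 := by
  rcases le_or_gt |x| 1 with h | h
  · set v := x ^ 2 / 2 + x ^ 4 / 24 + x ^ 6 / 100
    have hv : 0 ≤ v := by positivity
    have h1 : log (cosh x) ≤ log (1 + v) :=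
      log_le_log (cosh_pos x) (by have := cosh_le_poly h; simp only [v]; linarith)
    have h2 := log_one_add_le hv
    have hs : x ^ 2 ≤ 1 := by rw [← sq_abs]; nlinarith [abs_nonneg x]
    have h3 : v ≤ x ^ 2 := by
      have : x ^ 4 ≤ x ^ 2 := by nlinarith [sq_nonneg x]
      have : x ^ 6 ≤ x ^ 2 := by nlinarith [sq_nonneg x, sq_nonneg (x ^ 2)]
      have := sq_nonneg x
      simp only [v]; linarith
    have h4 : v ^ 3 ≤ (x ^ 2) ^ 3 := pow_le_pow_left₀ hv h3 3
    have h5 : (x ^ 2 / 2 + x ^ 4 / 24) ^ 2 ≤ v ^ 2 :=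
      pow_le_pow_left₀ (by positivity) (by simp only [v]; have : 0 ≤ x ^ 6 := by positivity
                                           linarith) 2
    have h8 : 0 ≤ x ^ 6 := by positivity
    have h9 : 0 ≤ x ^ 8 := by positivity
    have e : (x ^ 2 / 2 + x ^ 4 / 24) ^ 2 = x ^ 4 / 4 + x ^ 6 / 24 + x ^ 8 / 576 := by ring
    have e6 : (x ^ 2) ^ 3 = x ^ 6 := by ring
    simp only [v] at h1 h2 h4 h5 ⊢
    linarith
  · have h1 : log (cosh x) ≤ x ^ 2 / 2 := by
      rw [← log_exp (x ^ 2 / 2)]; exact log_le_log (cosh_pos x) (cosh_le_exp_half_sq x)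
    have hs : 1 ≤ x ^ 2 := by rw [← sq_abs]; nlinarith
    nlinarith [mul_le_mul_of_nonneg_left hs (by positivity : (0:ℝ) ≤ x ^ 4), sq_nonneg (x ^ 2)]

/-- `log (1 - y) ≤ -y - y²/2 - y³/3` below `1`. -/
lemma log_one_sub_le {y : ℝ} (hy : y < 1) : log (1 - y) ≤ -y - y ^ 2 / 2 - y ^ 3 / 3 := by
  rcases le_or_gt y 0 with h | h
  · have := log_one_add_le (by linarith : 0 ≤ -y)
    rw [← sub_eq_add_neg] at this
    calc log (1 - y) ≤ -y - (-y) ^ 2 / 2 + (-y) ^ 3 / 3 := this
      _ = _ := by ring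
  · have hs := hasSum_pow_div_log_of_abs_lt_one (x := y) (by rw [abs_of_pos h]; exact hy)
    have := sum_le_hasSum (Finset.range 3) (fun i _ => by positivity) hs
    simp [Finset.sum_range_succ] at this
    norm_num at this
    linarith

/-- Chernoff exponent at tilt `θ = q`. -/
lemma cosh_pow_exponent {q : ℝ} (h0 : 0 ≤ q) (h1 : q ≤ 1) :
    log (cosh q) ≤ q ^ 2 + 1 - cosh q := by
  have hd1 : ∀ x : ℝ, HasDerivAt (fun x => 2 * x - sinh x - sinh x / cosh x)
      (2 - cosh x - 1 / cosh x ^ 2) x := fun x => by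
    refine ((((hasDerivAt_id x).const_mul 2).sub (hasDerivAt_sinh x)).sub
      ((hasDerivAt_sinh x).div (hasDerivAt_cosh x) (cosh_pos x).ne')).congr_deriv ?_
    rw [show cosh x * cosh x - sinh x * sinh x = 1 by nlinarith [cosh_sq_sub_sinh_sq x], mul_one]
  have hc : ∀ x ∈ Icc (0 : ℝ) 1, cosh x ≤ 1.56 := fun x hx => by
    have h := cosh_le_poly (x := 1) (by norm_num)
    have h2 : cosh x ≤ cosh 1 := by
      rw [cosh_le_cosh, abs_of_nonneg hx.1, abs_one]; exact hx.2
    norm_num at h ⊢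
    linarith
  have hm1 : MonotoneOn (fun x => 2 * x - sinh x - sinh x / cosh x) (Icc 0 1) := by
    refine monotoneOn_of_deriv_nonneg (convex_Icc 0 1)
      (fun x _ => (hd1 x).continuousAt.continuousWithinAt)
      (fun x _ => (hd1 x).differentiableAt.differentiableWithinAt) fun x hx => ?_
    rw [(hd1 x).deriv]
    have h3 := hc x (interior_subset hx)
    have h4 := one_le_cosh x
    have h5 : 1 ≤ (2 - cosh x) * cosh x ^ 2 := by
      nlinarith [mul_nonneg (sub_nonneg.2 h4) (sub_nonneg.2 h3)]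
    have h6 : 1 / cosh x ^ 2 ≤ 2 - cosh x := by
      rw [div_le_iff₀ (by positivity)]; exact h5
    linarith
  have hd2 : ∀ x : ℝ, HasDerivAt (fun x => x ^ 2 + 1 - cosh x - log (cosh x))
      (2 * x - sinh x - sinh x / cosh x) x := fun x => by
    refine ((((hasDerivAt_pow 2 x).add_const 1).sub (hasDerivAt_cosh x)).sub
      ((hasDerivAt_cosh x).log (cosh_pos x).ne')).congr_deriv ?_
    simp
  have hm2 : MonotoneOn (fun x => x ^ 2 + 1 - cosh x - log (cosh x)) (Icc 0 1) := by
    refine monotoneOn_of_deriv_nonneg (convex_Icc 0 1)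
      (fun x _ => (hd2 x).continuousAt.continuousWithinAt)
      (fun x _ => (hd2 x).differentiableAt.differentiableWithinAt) fun x hx => ?_
    rw [(hd2 x).deriv]
    have hx' := interior_subset hx
    have := hm1 (left_mem_Icc.2 zero_le_one) hx' hx'.1
    simpa using this
  have := hm2 (left_mem_Icc.2 zero_le_one) ⟨h0, h1⟩ h0
  simp at this
  linarith

end Vale.Agent.P157
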