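import Vale.Agent.P157.Limit
import Vale.Agent.P157.Scalar

/-!
Second-moment method on the cube, for cosine transforms of measures on `[-1, 1]`.
-/

open MeasureTheory ProbabilityTheory Filter Topology
open scoped BigOperators

namespace Vale.Agent.P157

/-- `E u(G)` for a standard Gaussian `G`. -/
noncomputable def meanU (ν : Measure ℝ) : ℝ := ∫ ξ, Real.exp (-ξ ^ 2 / 2) ∂ν

/-- The curvature constant `E[ξ² e^{-ξ²/2}]`. -/
noncomputable def betaU (ν : Measure ℝ) : ℝ := ∫ ξ, ξ ^ 2 * Real.exp (-ξ ^ 2 / 2) ∂ν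

variable {ι : Type*} [Fintype ι] {ν : Measure ℝ} [IsFiniteMeasure ν]

lemma integrable_bdd {α : Type*} [MeasurableSpace α] {m : Measure α} [IsFiniteMeasure m] {h : α → ℝ}
    (hh : Measurable h) {C : ℝ} (hb : ∀ a, |h a| ≤ C) : Integrable h m :=
  Integrable.of_bound hh.aestronglyMeasurable C (ae_of_all _ fun a => (Real.norm_eq_abs _).trans_le (hb a))

lemma abs_exp_neg_le (a : ℝ) (ha : 0 ≤ a) : |Real.exp (-a)| ≤ 1 := by
  rw [Real.abs_exp]; exact Real.exp_le_one_iff.2 (by linarith)

omit [IsFiniteMeasure ν] in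
lemma meanU_nonneg : 0 ≤ meanU ν := integral_nonneg fun _ => (Real.exp_pos _).le

lemma meanU_le : meanU ν ≤ ν.real Set.univ := by
  refine (integral_mono (g := fun _ => (1:ℝ)) ?_ (integrable_const _) fun ξ =>
    Real.exp_le_one_iff.2 (by nlinarith [sq_nonneg ξ])).trans (le_of_eq (by simp))
  exact integrable_bdd (by fun_prop) (C := 1) fun ξ => by
    rw [show -ξ ^ 2 / 2 = -(ξ ^ 2 / 2) by ring]; exact abs_exp_neg_le _ (by positivity)

omit [IsFiniteMeasure ν] in
lemma betaU_nonneg : 0 ≤ betaU ν := integral_nonneg fun _ => by positivity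

lemma sq_mul_exp_le (ξ : ℝ) : |ξ ^ 2 * Real.exp (-ξ ^ 2 / 2)| ≤ 2 := by
  rw [abs_of_nonneg (by positivity), show -ξ ^ 2 / 2 = -(ξ ^ 2 / 2) by ring, Real.exp_neg,
    ← div_eq_mul_inv, div_le_iff₀ (Real.exp_pos _)]
  linarith [Real.add_one_le_exp (ξ ^ 2 / 2)]

lemma integral_symm2' {h : ℝ → ℝ} (hh : Measurable h) {C : ℝ} (hb : ∀ ξ, |h ξ| ≤ C) :
    ∫ ξ, h ξ ∂symm2 ν = ∫ ξ, (h ξ + h (-ξ)) / 2 ∂ν := by
  have hneg : Measurable fun ξ : ℝ => h (-ξ) := hh.comp measurable_neg
  rw [symm2, integral_smul_nnreal_measure, integral_add_measure (integrable_bdd hh hb)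
    (integrable_bdd hh hb), integral_map (by fun_prop) hh.aestronglyMeasurable,
    ← integral_add (integrable_bdd hh hb) (integrable_bdd hneg fun a => hb _),
    NNReal.smul_def, smul_eq_mul, ← integral_const_mul]
  refine integral_congr_ae (ae_of_all _ fun ξ => ?_)
  push_cast; ring

lemma meanU_symm2 : ∫ ξ, Real.exp (-ξ ^ 2 / 2) ∂symm2 ν = meanU ν := by
  rw [integral_symm2' (C := 1) (by fun_prop) fun ξ => by
    rw [show -ξ ^ 2 / 2 = -(ξ ^ 2 / 2) by ring]; exact abs_exp_neg_le _ (by positivity), meanU]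
  exact integral_congr_ae (ae_of_all _ fun ξ => by simp only [even_two.neg_pow]; ring)

lemma integrable_cosTr_field (c g : ι → ℝ) (G : Measure (ι → ℝ)) [IsProbabilityMeasure G] :
    Integrable (fun x => cosTr ν (field c g x)) G :=
  integrable_bdd ((measurable_cosTr ν).comp (by unfold field; fun_prop)) fun _ => abs_cosTr_le ν _

lemma gauss_single (c x : ι → ℝ) (hx : ∑ j, (c j * x j) ^ 2 = 1) :
    ∫ g, cosTr ν (field c g x) ∂gaussVec ι = meanU ν := by
  have h := moment_eq ν (Measure.dirac x) c 1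
  simp only [moment, integral_dirac, pow_one] at h
  rw [h, ← meanU_symm2]
  have hp := (measurePreserving_piUnique (X := fun _ : Fin 1 => (ι → ℝ) × ℝ)
    fun _ : Fin 1 => (Measure.dirac x).prod (symm2 ν)).symm
  rw [← hp.integral_comp', Measure.dirac_prod, integral_map (by fun_prop)]
  · refine integral_congr_ae (ae_of_all _ fun ξ => ?_)
    simp [quad, MeasurableEquiv.piUnique, mul_pow, ← Finset.mul_sum]
    have : ∑ j, c j ^ 2 * x j ^ 2 = 1 := by simpa [mul_pow] using hx
    rw [this]; ring_nf
  · unfold quad; fun_prop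

/-- Gaussian expectation of `u` at two configurations. -/
noncomputable def pairU (ν : Measure ℝ) (R : ℝ) : ℝ :=
  ∫ a, ∫ b, Real.exp (-(a ^ 2 + b ^ 2) / 2) * Real.cosh (R * (a * b)) ∂ν ∂ν

lemma gauss_pair (c x y : ι → ℝ) (hx : ∑ j, (c j * x j) ^ 2 = 1)
    (hy : ∑ j, (c j * y j) ^ 2 = 1) :
    ∫ g, cosTr ν (field c g x) * cosTr ν (field c g y) ∂gaussVec ι
      = pairU ν (∑ j, (c j * x j) * (c j * y j)) := by
  set R := ∑ j, (c j * x j) * (c j * y j)
  have hq : ∀ a b : ℝ, ∑ j, (a * (c j * x j) + b * (c j * y j)) ^ 2 = a ^ 2 + b ^ 2 + 2 * R * (a * b) := by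
    intro a b
    calc ∑ j, (a * (c j * x j) + b * (c j * y j)) ^ 2
        = a ^ 2 * ∑ j, (c j * x j) ^ 2 + b ^ 2 * ∑ j, (c j * y j) ^ 2
          + 2 * (a * b) * ∑ j, (c j * x j) * (c j * y j) := by
          simp only [Finset.mul_sum, ← Finset.sum_add_distrib]
          exact Finset.sum_congr rfl fun j _ => by ring
      _ = _ := by rw [hx, hy]; ring
  have hexp : ∀ a b : ℝ, |Real.exp (-(a ^ 2 + b ^ 2 + 2 * R * (a * b)) / 2)| ≤ 1 := fun a b => by
    rw [neg_div]; refine abs_exp_neg_le _ ?_
    rw [← hq]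
    exact div_nonneg (Finset.sum_nonneg fun j _ => sq_nonneg _) two_pos.le
  have h1 : ∫ g, cosTr ν (field c g x) * cosTr ν (field c g y) ∂gaussVec ι
      = ∫ z, Real.exp (-(z.1 ^ 2 + z.2 ^ 2 + 2 * R * (z.1 * z.2)) / 2) ∂(symm2 ν).prod (symm2 ν) := by
    apply Complex.ofReal_injective
    rw [← integral_complex_ofReal, ← integral_complex_ofReal]
    push_cast
    simp_rw [← integral_symm2, ← integral_prod_mul]
    have e : ∀ (g : ι → ℝ) (z : ℝ × ℝ), Complex.exp ((z.1 * field c g x : ℝ) * Complex.I)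
        * Complex.exp ((z.2 * field c g y : ℝ) * Complex.I)
        = Complex.exp ((∑ j, g j * (z.1 * (c j * x j) + z.2 * (c j * y j)) : ℝ) * Complex.I) := by
      intro g z
      rw [← Complex.exp_add, ← add_mul, ← Complex.ofReal_add]
      congr 3
      simp only [field, Finset.mul_sum, ← Finset.sum_add_distrib]
      exact Finset.sum_congr rfl fun j _ => by ring
    simp_rw [e]
    rw [integral_integral_swap]
    · refine integral_congr_ae (ae_of_all _ fun z => ?_)
      dsimp only
      rw [gauss_cexp, hq]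
      push_cast; rfl
    · exact integrable_cexp_mul _ (h := fun w : (ι → ℝ) × (ℝ × ℝ) =>
        ∑ j, w.1 j * (w.2.1 * (c j * x j) + w.2.2 * (c j * y j))) (by fun_prop)
  have hinner : ∀ a : ℝ, ∫ b, Real.exp (-(a ^ 2 + b ^ 2 + 2 * R * (a * b)) / 2) ∂symm2 ν
      = ∫ b, Real.exp (-(a ^ 2 + b ^ 2) / 2) * Real.cosh (R * (a * b)) ∂ν := fun a => by
    rw [integral_symm2' (by fun_prop) (hexp a)]
    refine integral_congr_ae (ae_of_all _ fun b => ?_)
    dsimp only
    rw [show -(a ^ 2 + b ^ 2 + 2 * R * (a * b)) / 2 = -(a ^ 2 + b ^ 2) / 2 + -(R * (a * b)) by ring,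
      show -(a ^ 2 + (-b) ^ 2 + 2 * R * (a * -b)) / 2 = -(a ^ 2 + b ^ 2) / 2 + R * (a * b) by ring,
      Real.exp_add, Real.exp_add, Real.cosh_eq]
    ring
  rw [h1, integral_prod _ (integrable_bdd (by fun_prop) fun z => hexp z.1 z.2)]
  simp_rw [hinner]
  have hbd : ∀ a : ℝ, |∫ b, Real.exp (-(a ^ 2 + b ^ 2) / 2) * Real.cosh (R * (a * b)) ∂ν|
      ≤ (symm2 ν).real Set.univ := fun a => by
    rw [← hinner]
    simpa using norm_integral_le_of_norm_le_const (μ := symm2 ν)
      (f := fun b => Real.exp (-(a ^ 2 + b ^ 2 + 2 * R * (a * b)) / 2)) (C := 1)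
      (ae_of_all _ fun b => (Real.norm_eq_abs _).trans_le (hexp a b))
  rw [integral_symm2' ?_ hbd, pairU]
  · refine integral_congr_ae (ae_of_all _ fun a => ?_)
    dsimp only
    have : ∀ b : ℝ, Real.exp (-((-a) ^ 2 + b ^ 2) / 2) * Real.cosh (R * (-a * b))
        = Real.exp (-(a ^ 2 + b ^ 2) / 2) * Real.cosh (R * (a * b)) := fun b => by
      rw [even_two.neg_pow, show R * (-a * b) = -(R * (a * b)) by ring, Real.cosh_neg]
    simp only [this]; ring
  · exact (StronglyMeasurable.integral_prod_right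
      (f := fun a b => Real.exp (-(a ^ 2 + b ^ 2) / 2) * Real.cosh (R * (a * b)))
      (by fun_prop)).measurable

lemma pairU_le (hsupp : ∀ᵐ ξ ∂ν, |ξ| ≤ 1) (R : ℝ) :
    pairU ν R ≤ meanU ν ^ 2 + betaU ν ^ 2 * (Real.cosh R - 1) := by
  have hw : ∀ ξ : ℝ, |Real.exp (-ξ ^ 2 / 2)| ≤ 1 := fun ξ => by
    rw [show -ξ ^ 2 / 2 = -(ξ ^ 2 / 2) by ring]; exact abs_exp_neg_le _ (by positivity)
  have i1 : Integrable (fun ξ => Real.exp (-ξ ^ 2 / 2)) ν := integrable_bdd (by fun_prop) hw
  have i2 : Integrable (fun ξ => ξ ^ 2 * Real.exp (-ξ ^ 2 / 2)) ν :=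
    integrable_bdd (by fun_prop) sq_mul_exp_le
  have hin : ∀ a : ℝ, |a| ≤ 1 →
      ∫ b, Real.exp (-(a ^ 2 + b ^ 2) / 2) * Real.cosh (R * (a * b)) ∂ν
        ≤ Real.exp (-a ^ 2 / 2) * meanU ν
          + a ^ 2 * Real.exp (-a ^ 2 / 2) * (Real.cosh R - 1) * betaU ν := by
    intro a ha
    rw [meanU, betaU, ← integral_const_mul, ← integral_const_mul,
      ← integral_add (i1.const_mul _) (i2.const_mul _)]
    refine integral_mono_of_nonneg (ae_of_all _ fun b => mul_nonneg (Real.exp_pos _).le
      (Real.cosh_pos _).le) ((i1.const_mul _).add (i2.const_mul _)) ?_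
    filter_upwards [hsupp] with b hb
    have hab : |a * b| ≤ 1 := by rw [abs_mul]; exact mul_le_one₀ ha (abs_nonneg _) hb
    have := cosh_mul_sub_one_le (x := R) hab
    rw [show R * (a * b) = a * b * R by ring, show -(a ^ 2 + b ^ 2) / 2 = -a ^ 2 / 2 + -b ^ 2 / 2 by ring,
      Real.exp_add]
    calc Real.exp (-a ^ 2 / 2) * Real.exp (-b ^ 2 / 2) * Real.cosh (a * b * R)
        ≤ Real.exp (-a ^ 2 / 2) * Real.exp (-b ^ 2 / 2) * (1 + (a * b) ^ 2 * (Real.cosh R - 1)) :=
          mul_le_mul_of_nonneg_left (by linarith) (by positivity)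
      _ = _ := by ring
  unfold pairU
  have i2' : Integrable (fun a => a ^ 2 * Real.exp (-a ^ 2 / 2) * (Real.cosh R - 1) * betaU ν) ν :=
    (i2.mul_const _).mul_const _
  have hint := (i1.mul_const (meanU ν)).add i2'
  refine (integral_mono_of_nonneg (g := fun a => Real.exp (-a ^ 2 / 2) * meanU ν
    + a ^ 2 * Real.exp (-a ^ 2 / 2) * (Real.cosh R - 1) * betaU ν)
    (ae_of_all _ fun a => integral_nonneg fun b => mul_nonneg (Real.exp_pos _).le
      (Real.cosh_pos _).le) hint (hsupp.mono hin)).trans (le_of_eq ?_)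
  rw [integral_add (i1.mul_const _) i2', integral_mul_const, integral_mul_const, integral_mul_const,
    meanU, betaU]
  ring

section Cube

variable {N : ℕ}

/-- Overlap. -/
noncomputable def overlap (x y : Fin N → ℝ) : ℝ := (∑ i, x i * y i) / N

lemma ae_isingMeasure (N : ℕ) : ∀ᵐ x ∂isingOn (Fin N), ∀ i, x i ^ 2 = 1 := by
  rw [ae_all_iff]
  intro i
  have h1 : ∀ᵐ a ∂coin, a ^ 2 = 1 := by
    rw [ae_iff]
    simp [coin, ENNReal.smul_def]
  exact (measurePreserving_eval (fun _ : Fin N => coin) i).quasiMeasurePreserving.ae h1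

lemma unit_sq_sum (hN : 0 < N) {x : Fin N → ℝ} (hx : ∀ i, x i ^ 2 = 1) :
    ∑ j, (unit (Fin N) j * x j) ^ 2 = 1 := by
  have : (0 : ℝ) < N := by exact_mod_cast hN
  simp [unit, mul_pow, hx, Real.sq_sqrt this.le, div_pow]
  field_simp

lemma unit_overlap (x y : Fin N → ℝ) :
    ∑ j, (unit (Fin N) j * x j) * (unit (Fin N) j * y j) = overlap x y := by
  simp only [unit, overlap, Fintype.card_fin, Finset.sum_div]
  refine Finset.sum_congr rfl fun j _ => ?_
  rw [show 1 / Real.sqrt (N:ℝ) * x j * (1 / Real.sqrt N * y j)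
    = x j * y j / (Real.sqrt N * Real.sqrt N) by ring, Real.mul_self_sqrt (Nat.cast_nonneg N)]

lemma integral_exp_coin {θ a : ℝ} (ha : a ^ 2 = 1) :
    ∫ y, Real.exp (θ * (a * y)) ∂coin = Real.cosh θ := by
  rw [coin, integral_smul_nnreal_measure, integral_add_measure (integrable_dirac (by simp [enorm_lt_top]))
    (integrable_dirac (by simp [enorm_lt_top])), integral_dirac, integral_dirac, Real.cosh_eq,
    NNReal.smul_def, smul_eq_mul]
  rcases sq_eq_one_iff.1 ha with rfl | rfl <;> push_cast <;> ring_nf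

lemma overlap_tail (hN : 0 < N) {x : Fin N → ℝ} (hx : ∀ i, x i ^ 2 = 1) {q : ℝ} (h0 : 0 ≤ q)
    (h1 : q ≤ 1) :
    (isingOn (Fin N)).real {y | q ≤ |overlap x y|} ≤ 2 * Real.exp (-(N * (Real.cosh q - 1))) := by
  have hN' : (0 : ℝ) < N := by exact_mod_cast hN
  have hmgf : ∀ θ : ℝ, ∫ y, Real.exp (θ * ∑ i, x i * y i) ∂isingOn (Fin N) = Real.cosh θ ^ N := by
    intro θ
    simp only [Finset.mul_sum, Real.exp_sum, isingOn]
    rw [integral_fintype_prod_eq_prod (f := fun i y => Real.exp (θ * (x i * y)))]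
    simp [integral_exp_coin (hx _)]
  have hint : ∀ θ : ℝ, Integrable (fun y => Real.exp (θ * ∑ i, x i * y i)) (isingOn (Fin N)) := by
    intro θ
    refine Integrable.of_bound (Real.measurable_exp.comp ((Finset.measurable_sum _ fun i _ =>
      measurable_const.mul (measurable_pi_apply i)).const_mul θ)).aestronglyMeasurable (Real.exp (|θ| * N)) ?_
    filter_upwards [ae_isingMeasure N] with y hy
    rw [Real.norm_eq_abs, Real.abs_exp]
    refine Real.exp_le_exp.2 ((le_abs_self _).trans ?_)
    rw [abs_mul]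
    refine mul_le_mul_of_nonneg_left ((Finset.abs_sum_le_sum_abs _ _).trans (le_of_eq ?_)) (abs_nonneg _)
    have : ∀ i, |x i * y i| = 1 := fun i => by
      rw [abs_mul, ← Real.sqrt_sq_eq_abs, ← Real.sqrt_sq_eq_abs, hx i, hy i]; simp
    simp [this]
  have key : (isingOn (Fin N)).real {y | q ≤ |overlap x y|}
      ≤ ∫ y, (Real.exp (q * ∑ i, x i * y i) + Real.exp (-q * ∑ i, x i * y i))
          * Real.exp (-(q * q * N)) ∂isingOn (Fin N) := by
    rw [← integral_indicator_one (s := {y | q ≤ |overlap x y|})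
      (measurableSet_le measurable_const (by unfold overlap; fun_prop))]
    refine integral_mono_of_nonneg (ae_of_all _ fun y => Set.indicator_nonneg (fun _ _ => zero_le_one) _)
      (((hint q).add (hint (-q))).mul_const _) (ae_of_all _ fun y => ?_)
    dsimp only
    by_cases hy : y ∈ {y | q ≤ |overlap x y|}
    · rw [Set.indicator_of_mem hy, add_mul, ← Real.exp_add, ← Real.exp_add]
      have hy' : q * N ≤ |∑ i, x i * y i| := by
        have hy2 : q ≤ |overlap x y| := hy
        rwa [overlap, abs_div, Nat.abs_cast, le_div_iff₀ hN'] at hy2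
      rcases le_abs.1 hy' with h | h
      · refine le_add_of_le_of_nonneg ?_ (Real.exp_pos _).le
        refine Real.one_le_exp ?_
        nlinarith [mul_le_mul_of_nonneg_left h h0]
      · refine le_add_of_nonneg_of_le (Real.exp_pos _).le ?_
        refine Real.one_le_exp ?_
        nlinarith [mul_le_mul_of_nonneg_left h h0]
    · rw [Set.indicator_of_notMem hy]; positivity
  refine key.trans ?_
  rw [integral_mul_const, integral_add (hint q) (hint (-q)), hmgf, hmgf, Real.cosh_neg]
  have hlog := cosh_pow_exponent h0 h1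
  have : Real.cosh q ^ N * Real.exp (-(q * q * N)) ≤ Real.exp (-(N * (Real.cosh q - 1))) := by
    rw [← Real.exp_log (Real.cosh_pos q), ← Real.exp_nat_mul, ← Real.exp_add,
      Real.exp_log (Real.cosh_pos q)]
    refine Real.exp_le_exp.2 ?_
    nlinarith [mul_le_mul_of_nonneg_left hlog hN'.le]
  linarith [add_mul (Real.cosh q ^ N) (Real.cosh q ^ N) (Real.exp (-(q * q * N)))]

lemma exp_overlap_bound (hN : 0 < N) {x : Fin N → ℝ} (hx : ∀ i, x i ^ 2 = 1) {θ : ℝ}
    (hθ0 : 0 ≤ θ) (hθ : θ < 1) :
    ∫ y, Real.exp (θ * (N * (Real.cosh (overlap x y) - 1))) ∂isingOn (Fin N)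
      ≤ 2 * Real.exp θ / (1 - Real.exp (θ - 1)) := by
  have hN' : (0 : ℝ) < N := by exact_mod_cast hN
  set W : (Fin N → ℝ) → ℝ := fun y => N * (Real.cosh (overlap x y) - 1)
  have hWm : Measurable W := by
    simp only [W, overlap]
    exact (((Real.continuous_cosh.measurable).comp (by fun_prop)).sub_const 1).const_mul _
  have hW0 : ∀ y, 0 ≤ W y := fun y => mul_nonneg hN'.le (by linarith [Real.one_le_cosh (overlap x y)])
  have hR : ∀ y : Fin N → ℝ, (∀ i, y i ^ 2 = 1) → |overlap x y| ≤ 1 := fun y hy => by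
    rw [overlap, abs_div, Nat.abs_cast, div_le_one hN']
    refine (Finset.abs_sum_le_sum_abs _ _).trans (le_of_eq ?_)
    have : ∀ i, |x i * y i| = 1 := fun i => by
      rw [abs_mul, ← Real.sqrt_sq_eq_abs, ← Real.sqrt_sq_eq_abs, hx i, hy i]; simp
    simp [this]
  have hWN : ∀ y : Fin N → ℝ, (∀ i, y i ^ 2 = 1) → W y ≤ N := fun y hy => by
    have h1 : Real.cosh (overlap x y) ≤ Real.cosh 1 := by
      rw [Real.cosh_le_cosh, abs_one]; exact hR y hy
    have h2 := cosh_le_poly (x := 1) (by norm_num)
    norm_num at h2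
    calc W y ≤ N * 1 := mul_le_mul_of_nonneg_left (by linarith) hN'.le
      _ = N := mul_one _
  have htail : ∀ j : ℕ, (isingOn (Fin N)).real {y | (j : ℝ) ≤ W y} ≤ 2 * Real.exp (-(j : ℝ)) := by
    intro j
    rcases le_or_gt ((j : ℝ) / N) (Real.cosh 1 - 1) with hj | hj
    · obtain ⟨q, hq, hqv⟩ := intermediate_value_Icc (a := (0:ℝ)) (b := 1) (zero_le_one)
        (f := fun q => Real.cosh q - 1) (by fun_prop)
        (show (j : ℝ) / N ∈ Set.Icc (Real.cosh 0 - 1) (Real.cosh 1 - 1) from
          ⟨by simp; positivity, hj⟩)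
      simp only at hqv
      have hsub : {y | (j : ℝ) ≤ W y} ⊆ {y | q ≤ |overlap x y|} := fun y hy => by
        have h1 : Real.cosh q ≤ Real.cosh (overlap x y) := by
          have hy' : (j : ℝ) ≤ N * (Real.cosh (overlap x y) - 1) := hy
          have : (j : ℝ) / N ≤ Real.cosh (overlap x y) - 1 := by rw [div_le_iff₀ hN']; linarith
          linarith
        rw [Real.cosh_le_cosh, abs_of_nonneg hq.1] at h1
        exact h1
      refine ((measureReal_mono hsub).trans (overlap_tail hN hx hq.1 hq.2)).trans ?_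
      rw [hqv]
      field_simp
      exact le_rfl
    · have h0 : {y | (j : ℝ) ≤ W y} ≤ᵐ[isingOn (Fin N)] (∅ : Set (Fin N → ℝ)) := by
        filter_upwards [ae_isingMeasure N] with y hy
        intro (hjy : (j : ℝ) ≤ W y)
        have h1 : Real.cosh (overlap x y) ≤ Real.cosh 1 := by
          rw [Real.cosh_le_cosh, abs_one]; exact hR y hy
        rw [lt_div_iff₀ hN'] at hj
        have := mul_le_mul_of_nonneg_left (sub_le_sub_right h1 1) hN'.le
        simp only [W] at hjy
        nlinarith
      have : (isingOn (Fin N)) {y | (j : ℝ) ≤ W y} = 0 := by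
        simpa using measure_mono_ae h0
      simp [measureReal_def, this]; positivity
  have hms : ∀ j : ℕ, MeasurableSet {y | (j : ℝ) ≤ W y} := fun j => measurableSet_le measurable_const hWm
  set r := Real.exp (θ - 1)
  have hr1 : r < 1 := Real.exp_lt_one_iff.2 (by linarith)
  calc ∫ y, Real.exp (θ * W y) ∂isingOn (Fin N)
      ≤ ∫ y, ∑ j ∈ Finset.range (N + 1), {y | (j : ℝ) ≤ W y}.indicator
          (fun _ => Real.exp (θ * (j + 1))) y ∂isingOn (Fin N) := by
        refine integral_mono_of_nonneg (ae_of_all _ fun y => (Real.exp_pos _).le)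
          (integrable_finsetSum _ fun j _ => (integrable_const _).indicator (hms j)) ?_
        filter_upwards [ae_isingMeasure N] with y hy
        have hle : ⌊W y⌋₊ ∈ Finset.range (N + 1) :=
          Finset.mem_range.2 (Nat.lt_succ_iff.2 (Nat.floor_le_of_le (hWN y hy)))
        refine le_trans ?_ (Finset.single_le_sum (fun j _ => Set.indicator_nonneg
          (fun _ _ => (Real.exp_pos _).le) y) hle)
        rw [Set.indicator_of_mem]
        · exact Real.exp_le_exp.2 (mul_le_mul_of_nonneg_left (Nat.lt_floor_add_one _).le hθ0)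
        · exact Nat.floor_le (hW0 y)
    _ = ∑ j ∈ Finset.range (N + 1),
          (isingOn (Fin N)).real {y | (j : ℝ) ≤ W y} * Real.exp (θ * (j + 1)) := by
        rw [integral_finsetSum _ fun j _ => (integrable_const _).indicator (hms j)]
        exact Finset.sum_congr rfl fun j _ => by rw [integral_indicator_const _ (hms j), smul_eq_mul]
    _ ≤ ∑ j ∈ Finset.range (N + 1), 2 * Real.exp θ * r ^ j := by
        refine Finset.sum_le_sum fun j _ => ?_
        calc _ ≤ 2 * Real.exp (-(j : ℝ)) * Real.exp (θ * (j + 1)) :=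
              mul_le_mul_of_nonneg_right (htail j) (Real.exp_pos _).le
          _ = 2 * Real.exp θ * r ^ j := by
              simp only [r]
              rw [← Real.exp_nat_mul, mul_assoc, ← Real.exp_add, mul_assoc, ← Real.exp_add]
              ring_nf
    _ ≤ _ := by
        rw [← Finset.mul_sum, div_eq_mul_inv]
        refine mul_le_mul_of_nonneg_left ?_ (by positivity)
        rw [← tsum_geometric_of_lt_one (Real.exp_pos _).le hr1]
        exact (summable_geometric_of_lt_one (Real.exp_pos _).le hr1).sum_le_tsum _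
          fun j _ => by positivity

/-- Partition function. -/
noncomputable def partition (c₀ : ℝ) (ν : Measure ℝ) (N M : ℕ) (g : Fin M → Fin N → ℝ) : ℝ :=
  ∫ x, Real.exp (energy (potential c₀ ν) (fun _ => unit (Fin N)) g x) ∂isingOn (Fin N)

variable (c₀ : ℝ)

lemma exp_potential (hν : ν.real Set.univ < 1) (t : ℝ) :
    Real.exp (potential c₀ ν t) = Real.exp c₀ * (1 - cosTr ν t) := by
  rw [potential, Real.exp_add, Real.exp_log (by linarith [(abs_le.1 (abs_cosTr_le ν t)).2])]

lemma exp_energy_le (hν : ν.real Set.univ < 1) {M : ℕ} (g : Fin M → Fin N → ℝ) (x : Fin N → ℝ) :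
    |Real.exp (energy (potential c₀ ν) (fun _ => unit (Fin N)) g x)|
      ≤ Real.exp (M * potBound c₀ ν) := by
  rw [Real.abs_exp]
  exact Real.exp_le_exp.2 ((le_abs_self _).trans (abs_energy_le (abs_potential_le c₀ ν hν) _ g x))

lemma integral_partition (hν : ν.real Set.univ < 1) (hN : 0 < N) (M : ℕ) :
    ∫ g, partition c₀ ν N M g ∂patterns (Fin N) M = (Real.exp c₀ * (1 - meanU ν)) ^ M := by
  unfold partition
  rw [integral_integral_swap (integrable_bdd (by unfold energy field; fun_prop)
    fun z => exp_energy_le c₀ hν z.1 z.2)]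
  have : ∀ᵐ x ∂isingOn (Fin N), ∫ g, Real.exp (energy (potential c₀ ν) (fun _ => unit (Fin N)) g x)
      ∂patterns (Fin N) M = (Real.exp c₀ * (1 - meanU ν)) ^ M := by
    filter_upwards [ae_isingMeasure N] with x hx
    simp only [energy, Real.exp_sum, exp_potential c₀ hν, patterns]
    rw [integral_fintype_prod_eq_pow (fun g : Fin N → ℝ =>
      Real.exp c₀ * (1 - cosTr ν (field (unit (Fin N)) g x))), Fintype.card_fin, integral_const_mul,
      integral_sub (integrable_const _) ?_, gauss_single _ _ (unit_sq_sum hN hx)]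
    · simp
    · exact integrable_bdd ((measurable_cosTr ν).comp (by unfold field; fun_prop))
        fun g => abs_cosTr_le ν _
  rw [integral_congr_ae this]; simp

lemma integral_partition_sq (hν : ν.real Set.univ < 1) (hsupp : ∀ᵐ ξ ∂ν, |ξ| ≤ 1) (hN : 0 < N)
    (M : ℕ) {θ : ℝ} (hθ : θ < 1)
    (hM : (M : ℝ) * (betaU ν / (1 - meanU ν)) ^ 2 ≤ θ * N) :
    ∫ g, partition c₀ ν N M g ^ 2 ∂patterns (Fin N) M
      ≤ ((Real.exp c₀ * (1 - meanU ν)) ^ M) ^ 2 * (2 * Real.exp θ / (1 - Real.exp (θ - 1))) := by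
  have hu : 0 < 1 - meanU ν := by linarith [meanU_le (ν := ν)]
  have hN' : (0 : ℝ) < N := by exact_mod_cast hN
  have hθ0 : 0 ≤ θ := by nlinarith [sq_nonneg (betaU ν / (1 - meanU ν)), Nat.cast_nonneg (α := ℝ) M]
  set μ := isingOn (Fin N)
  set D := Real.exp c₀ * (1 - meanU ν)
  let E2 : (Fin M → Fin N → ℝ) → (Fin N → ℝ) × (Fin N → ℝ) → ℝ := fun g z =>
    Real.exp (energy (potential c₀ ν) (fun _ => unit (Fin N)) g z.1)
      * Real.exp (energy (potential c₀ ν) (fun _ => unit (Fin N)) g z.2)
  have hsq : ∀ g, partition c₀ ν N M g ^ 2 = ∫ z, E2 g z ∂μ.prod μ := fun g => by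
    simp only [partition, E2, sq]
    exact (integral_prod_mul _ _).symm
  simp_rw [hsq]
  have hE2i : Integrable (Function.uncurry E2) ((patterns (Fin N) M).prod (μ.prod μ)) :=
    integrable_bdd (C := Real.exp (M * potBound c₀ ν) * Real.exp (M * potBound c₀ ν))
      (by simp only [E2, Function.uncurry_def]; unfold energy field; fun_prop) fun z => by
      simp only [E2, Function.uncurry, abs_mul]
      exact mul_le_mul (exp_energy_le c₀ hν _ _) (exp_energy_le c₀ hν _ _) (abs_nonneg _)
        (Real.exp_pos _).le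
  rw [integral_integral_swap hE2i]
  have hpt : ∀ x y : Fin N → ℝ, (∀ i, x i ^ 2 = 1) → (∀ i, y i ^ 2 = 1) →
      ∫ g, E2 g (x, y) ∂patterns (Fin N) M
        ≤ (D ^ M) ^ 2 * Real.exp (θ * (N * (Real.cosh (overlap x y) - 1))) := by
    intro x y hx hy
    simp only [E2, energy, Real.exp_sum, exp_potential c₀ hν, patterns, ← Finset.prod_mul_distrib]
    rw [integral_fintype_prod_eq_pow (fun g : Fin N → ℝ =>
      Real.exp c₀ * (1 - cosTr ν (field (unit (Fin N)) g x))
        * (Real.exp c₀ * (1 - cosTr ν (field (unit (Fin N)) g y)))), Fintype.card_fin]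
    set ux := fun g : Fin N → ℝ => cosTr ν (field (unit (Fin N)) g x)
    set uy := fun g : Fin N → ℝ => cosTr ν (field (unit (Fin N)) g y)
    have mx : Measurable ux := (measurable_cosTr ν).comp (by unfold field; fun_prop)
    have my : Measurable uy := (measurable_cosTr ν).comp (by unfold field; fun_prop)
    have ix : Integrable ux (gaussVec (Fin N)) := integrable_bdd mx fun g => abs_cosTr_le ν _
    have iy : Integrable uy (gaussVec (Fin N)) := integrable_bdd my fun g => abs_cosTr_le ν _
    have ixy : Integrable (fun g => ux g * uy g) (gaussVec (Fin N)) :=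
      integrable_bdd (mx.mul my) (C := ν.real Set.univ * ν.real Set.univ) fun g => by
        rw [abs_mul]
        exact mul_le_mul (abs_cosTr_le ν _) (abs_cosTr_le ν _) (abs_nonneg _) measureReal_nonneg
    have hval : ∫ g, Real.exp c₀ * (1 - ux g) * (Real.exp c₀ * (1 - uy g)) ∂gaussVec (Fin N)
        = Real.exp c₀ ^ 2 * (1 - 2 * meanU ν + pairU ν (overlap x y)) := by
      have e : ∀ g, Real.exp c₀ * (1 - ux g) * (Real.exp c₀ * (1 - uy g))
          = Real.exp c₀ ^ 2 * (1 - ux g - uy g + ux g * uy g) := fun g => by ring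
      have i12 : Integrable (fun g => 1 - ux g - uy g) (gaussVec (Fin N)) :=
        ((integrable_const 1).sub ix).sub iy
      have i1x : Integrable (fun g => 1 - ux g) (gaussVec (Fin N)) := (integrable_const 1).sub ix
      simp_rw [e]
      rw [integral_const_mul, integral_add i12 ixy,
        integral_sub i1x iy, integral_sub (integrable_const 1) ix,
        gauss_single _ _ (unit_sq_sum hN hx), gauss_single _ _ (unit_sq_sum hN hy),
        gauss_pair _ _ _ (unit_sq_sum hN hx) (unit_sq_sum hN hy), unit_overlap]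
      simp; ring
    simp only [ux, uy] at hval ⊢
    rw [hval]
    set w := Real.cosh (overlap x y) - 1
    have hw : 0 ≤ w := by simp only [w]; linarith [Real.one_le_cosh (overlap x y)]
    have hp := pairU_le hsupp (overlap x y)
    have hp0 : 0 ≤ 1 - 2 * meanU ν + pairU ν (overlap x y) := by
      by_contra hneg
      push Not at hneg
      have : (0 : ℝ) ≤ Real.exp c₀ ^ 2 * (1 - 2 * meanU ν + pairU ν (overlap x y)) := by
        rw [← hval]
        exact integral_nonneg fun g => mul_nonneg
          (mul_nonneg (Real.exp_pos _).le (by linarith [(abs_le.1 (abs_cosTr_le ν (field (unit (Fin N)) g x))).2]))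
          (mul_nonneg (Real.exp_pos _).le (by linarith [(abs_le.1 (abs_cosTr_le ν (field (unit (Fin N)) g y))).2]))
      nlinarith [sq_pos_of_pos (Real.exp_pos c₀)]
    have hb : Real.exp c₀ ^ 2 * (1 - 2 * meanU ν + pairU ν (overlap x y))
        ≤ D ^ 2 * (1 + (betaU ν / (1 - meanU ν)) ^ 2 * w) := by
      calc _ ≤ Real.exp c₀ ^ 2 * (1 - 2 * meanU ν + (meanU ν ^ 2 + betaU ν ^ 2 * w)) :=
            mul_le_mul_of_nonneg_left (by linarith) (sq_nonneg _)
        _ = _ := by simp only [D]; field_simp; ring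
    refine (pow_le_pow_left₀ (mul_nonneg (sq_nonneg _) hp0) hb M).trans ?_
    rw [mul_pow, ← pow_mul, ← pow_mul, mul_comm 2 M]
    refine mul_le_mul_of_nonneg_left ?_ (pow_nonneg (mul_nonneg (Real.exp_pos _).le hu.le) _)
    refine (pow_le_pow_left₀ (b := Real.exp ((betaU ν / (1 - meanU ν)) ^ 2 * w)) (by positivity) (by
      linarith [Real.add_one_le_exp ((betaU ν / (1 - meanU ν)) ^ 2 * w)]) M).trans ?_
    rw [← Real.exp_nat_mul]
    refine Real.exp_le_exp.2 ?_
    nlinarith [mul_le_mul_of_nonneg_right hM hw]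
  have hI : Integrable (fun z : (Fin N → ℝ) × (Fin N → ℝ) =>
      Real.exp (θ * (N * (Real.cosh (overlap z.1 z.2) - 1)))) (μ.prod μ) := by
    refine Integrable.of_bound (Continuous.measurable (by unfold overlap; fun_prop)).aestronglyMeasurable
      (Real.exp (θ * (N * Real.cosh 1))) ?_
    have hae : ∀ᵐ z ∂μ.prod μ, (∀ i, z.1 i ^ 2 = 1) ∧ ∀ i, z.2 i ^ 2 = 1 := by
      filter_upwards [Measure.quasiMeasurePreserving_fst.ae (ae_isingMeasure N),
        Measure.quasiMeasurePreserving_snd.ae (ae_isingMeasure N)] with z h1 h2 using ⟨h1, h2⟩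
    filter_upwards [hae] with z hz
    rw [Real.norm_eq_abs, Real.abs_exp]
    refine Real.exp_le_exp.2 (mul_le_mul_of_nonneg_left (mul_le_mul_of_nonneg_left ?_ hN'.le) hθ0)
    have : Real.cosh (overlap z.1 z.2) ≤ Real.cosh 1 := by
      rw [Real.cosh_le_cosh, abs_one, overlap, abs_div, Nat.abs_cast, div_le_one hN']
      refine (Finset.abs_sum_le_sum_abs _ _).trans (le_of_eq ?_)
      have : ∀ i, |z.1 i * z.2 i| = 1 := fun i => by
        rw [abs_mul, ← Real.sqrt_sq_eq_abs, ← Real.sqrt_sq_eq_abs, hz.1 i, hz.2 i]; simp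
      simp [this]
    linarith
  calc ∫ z, ∫ g, E2 g z ∂patterns (Fin N) M ∂μ.prod μ
      ≤ ∫ z, (D ^ M) ^ 2 * Real.exp (θ * (N * (Real.cosh (overlap z.1 z.2) - 1))) ∂μ.prod μ := by
        refine integral_mono_of_nonneg (ae_of_all _ fun z => integral_nonneg fun g =>
          mul_nonneg (Real.exp_pos _).le (Real.exp_pos _).le) (hI.const_mul _) ?_
        filter_upwards [Measure.quasiMeasurePreserving_fst.ae (ae_isingMeasure N),
          Measure.quasiMeasurePreserving_snd.ae (ae_isingMeasure N)] with z h1 h2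
        exact hpt z.1 z.2 h1 h2
    _ ≤ _ := by
        rw [integral_const_mul]
        refine mul_le_mul_of_nonneg_left ?_ (sq_nonneg _)
        rw [integral_prod _ hI]
        refine (integral_mono_ae hI.integral_prod_left (g := fun _ => 2 * Real.exp θ / (1 - Real.exp (θ - 1)))
          (integrable_const _) ?_).trans (le_of_eq ?_)
        · filter_upwards [ae_isingMeasure N] with x hx
          exact exp_overlap_bound hN hx hθ0 hθ
        · simp

end Cube

/-- Bounded differences give variance at most `M b²`. -/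
lemma variance_bdd_diff {E : Type*} [MeasurableSpace E] (P : Measure E) [IsProbabilityMeasure P]
    {b : ℝ} : ∀ (M : ℕ) (F : (Fin M → E) → ℝ) (B : ℝ), Measurable F → (∀ g, |F g| ≤ B) →
      (∀ g g' : Fin M → E, ∀ a, (∀ a', a' ≠ a → g a' = g' a') → |F g - F g'| ≤ b) →
      ∫ g, (F g - ∫ g', F g' ∂Measure.pi fun _ : Fin M => P) ^ 2 ∂Measure.pi (fun _ : Fin M => P)
        ≤ M * b ^ 2 := by
  intro M
  induction M with
  | zero =>
    intro F B _ _ _
    have : ∀ g : Fin 0 → E, F g = F default := fun g => by rw [Subsingleton.elim g default]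
    simp [this]
  | succ M ih =>
    intro F B hF hFB hd
    set P' := Measure.pi fun _ : Fin M => P
    have hmp := (measurePreserving_piFinSuccAbove (fun _ : Fin (M + 1) => P) 0).symm
    let G : E × (Fin M → E) → ℝ := fun z => F (Fin.cons z.1 z.2)
    have hins : ∀ z : E × (Fin M → E),
        (MeasurableEquiv.piFinSuccAbove (fun _ : Fin (M + 1) => E) 0).symm z
          = Fin.cons z.1 z.2 := fun z => Fin.insertNth_zero' z.1 z.2
    have hGm : Measurable G := by
      have : Measurable fun z : E × (Fin M → E) => (Fin.cons z.1 z.2 : Fin (M + 1) → E) :=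
        measurable_pi_lambda _ fun a => by
          refine Fin.cases ?_ (fun i => ?_) a <;> simp only [Fin.cons_zero, Fin.cons_succ] <;> fun_prop
      exact hF.comp this
    have hGi : Integrable G (P.prod P') := integrable_bdd hGm fun z => hFB _
    set m : E → ℝ := fun e => ∫ g, G (e, g) ∂P'
    set μ0 := ∫ g', F g' ∂Measure.pi fun _ : Fin (M + 1) => P
    have hμ0 : μ0 = ∫ e, m e ∂P := by
      simp only [μ0, m]
      rw [← hmp.integral_comp', ← integral_prod _ hGi]
      exact integral_congr_ae (ae_of_all _ fun z => by simp only [G, hins])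
    have hmm : Measurable m :=
      (StronglyMeasurable.integral_prod_right (f := fun e g => G (e, g))
        hGm.stronglyMeasurable).measurable
    have hmB : ∀ e, |m e| ≤ B := fun e => by
      simpa using norm_integral_le_of_norm_le_const (μ := P') (f := fun g => G (e, g)) (C := B)
        (ae_of_all _ fun g => (Real.norm_eq_abs _).trans_le (hFB _))
    have hmlip : ∀ e e', |m e - m e'| ≤ b := fun e e' => by
      simp only [m]
      have hi : ∀ a : E, Integrable (fun g => G (a, g)) P' := fun a =>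
        integrable_bdd (hGm.comp measurable_prodMk_left) fun g => hFB _
      rw [← integral_sub (hi e) (hi e'), ← Real.norm_eq_abs]
      refine (norm_integral_le_of_norm_le_const (C := b) (ae_of_all _ fun g => ?_)).trans (by simp)
      rw [Real.norm_eq_abs]
      refine hd _ _ 0 fun a' ha' => ?_
      obtain ⟨i, rfl⟩ := Fin.exists_succ_eq.2 ha'
      simp
    have hmμ : ∀ e, |m e - μ0| ≤ b := fun e => by
      rw [hμ0, show m e - ∫ e', m e' ∂P = ∫ e', (m e - m e') ∂P from ?_, ← Real.norm_eq_abs]
      · exact (norm_integral_le_of_norm_le_const (C := b) (ae_of_all _ fun e' =>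
          (Real.norm_eq_abs _).trans_le (hmlip e e'))).trans (by simp)
      · rw [integral_sub (integrable_const _) (integrable_bdd hmm hmB)]; simp
    have hμB : |μ0| ≤ B := by
      simpa using norm_integral_le_of_norm_le_const (μ := Measure.pi fun _ : Fin (M + 1) => P)
        (f := F) (C := B) (ae_of_all _ fun g => (Real.norm_eq_abs _).trans_le (hFB g))
    have hsq : Integrable (fun z => (G z - μ0) ^ 2) (P.prod P') :=
      integrable_bdd ((hGm.sub_const _).pow_const 2) (C := (B + B) ^ 2) fun z => by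
        rw [abs_pow]
        exact pow_le_pow_left₀ (abs_nonneg _) ((abs_sub _ _).trans (add_le_add (hFB _) hμB)) 2
    rw [← hmp.integral_comp',
      show (∫ z, (F ((MeasurableEquiv.piFinSuccAbove (fun _ : Fin (M + 1) => E) 0).symm z) - μ0) ^ 2
        ∂P.prod P') = ∫ z, (G z - μ0) ^ 2 ∂P.prod P' from
          integral_congr_ae (ae_of_all _ fun z => by simp only [G, hins]),
      integral_prod _ hsq]
    have hin : ∀ e, ∫ g, (G (e, g) - μ0) ^ 2 ∂P' ≤ (M : ℝ) * b ^ 2 + b ^ 2 := by
      intro e
      have hih := ih (fun g => G (e, g)) B (hGm.comp measurable_prodMk_left) (fun g => hFB _)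
        fun g g' a h => hd _ _ a.succ fun a' ha' => by
          induction a' using Fin.cases with
          | zero => simp
          | succ i => simp [h i fun hh => ha' (by rw [hh])]
      have e1 : ∀ g, (G (e, g) - μ0) ^ 2
          = (G (e, g) - m e) ^ 2 + 2 * (m e - μ0) * (G (e, g) - m e) + (m e - μ0) ^ 2 := fun g => by ring
      have i1 : Integrable (fun g => (G (e, g) - m e) ^ 2) P' :=
        integrable_bdd (((hGm.comp measurable_prodMk_left).sub_const _).pow_const 2) (C := (B + B) ^ 2)
          fun g => by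
            rw [abs_pow]
            exact pow_le_pow_left₀ (abs_nonneg _) ((abs_sub _ _).trans (add_le_add (hFB _) (hmB e))) 2
      have i0 : Integrable (fun g => G (e, g)) P' :=
        integrable_bdd (hGm.comp measurable_prodMk_left) fun g => hFB _
      have i2 : Integrable (fun g => 2 * (m e - μ0) * (G (e, g) - m e)) P' :=
        (i0.sub (integrable_const _)).const_mul _
      have i12 : Integrable (fun g => (G (e, g) - m e) ^ 2 + 2 * (m e - μ0) * (G (e, g) - m e)) P' :=
        i1.add i2
      simp_rw [e1]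
      rw [integral_add i12 (integrable_const _), integral_add i1 i2, integral_const_mul,
        integral_sub i0 (integrable_const _)]
      simp only [integral_const, probReal_univ, one_smul, m, sub_self, mul_zero, add_zero]
      refine add_le_add hih ?_
      rw [← sq_abs]; exact pow_le_pow_left₀ (abs_nonneg _) (hmμ e) 2
    refine (integral_mono hsq.integral_prod_left (integrable_const _) hin).trans (le_of_eq ?_)
    simp; push_cast; ring

/-- Quenched lower bound below the threshold. -/
lemma press_ge_annealed (c₀ : ℝ) (hν : ν.real Set.univ < 1) (hsupp : ∀ᵐ ξ ∂ν, |ξ| ≤ 1)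
    {N M : ℕ} (hN : 0 < N) {θ : ℝ} (hθ : θ < 1)
    (hM : (M : ℝ) * (betaU ν / (1 - meanU ν)) ^ 2 ≤ θ * N) {ε : ℝ} (hε : 0 < ε)
    (hsmall : (M : ℝ) * (2 * potBound c₀ ν) ^ 2 * (4 * (2 * Real.exp θ / (1 - Real.exp (θ - 1))))
      < (ε * N) ^ 2) :
    M * (c₀ + Real.log (1 - meanU ν)) - Real.log 2 - ε * N
      ≤ press (isingOn (Fin N)) (potential c₀ ν) M := by
  have hu : 0 < 1 - meanU ν := by linarith [meanU_le (ν := ν)]
  set B := potBound c₀ ν
  have hB : 0 ≤ B := potBound_nonneg c₀ hν
  set C := 2 * Real.exp θ / (1 - Real.exp (θ - 1))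
  have hC : 0 < C := div_pos (by positivity) (by linarith [Real.exp_lt_one_iff.2 (by linarith : θ - 1 < 0)])
  set D := (Real.exp c₀ * (1 - meanU ν)) ^ M
  have hD : 0 < D := pow_pos (mul_pos (Real.exp_pos _) hu) M
  set P := patterns (Fin N) M
  set Z := partition c₀ ν N M
  have hZm : Measurable Z := (StronglyMeasurable.integral_prod_right
    (f := fun g x => Real.exp (energy (potential c₀ ν) (fun _ => unit (Fin N)) g x))
    (by unfold energy field; fun_prop)).measurable
  have hZb : ∀ g, |Z g| ≤ Real.exp (M * B) := fun g => by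
    simpa [Z, partition] using norm_integral_le_of_norm_le_const (μ := isingOn (Fin N))
      (f := fun x => Real.exp (energy (potential c₀ ν) (fun _ => unit (Fin N)) g x))
      (ae_of_all _ fun x => (Real.norm_eq_abs _).trans_le (exp_energy_le c₀ hν g x))
  have hZi : Integrable Z P := integrable_bdd hZm hZb
  have hZ2i : Integrable (fun g => Z g ^ 2) P :=
    integrable_bdd (hZm.pow_const 2) (C := Real.exp (M * B) ^ 2) fun g => by
      rw [abs_pow]; exact pow_le_pow_left₀ (abs_nonneg _) (hZb g) 2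
  have hEZ : ∫ g, Z g ∂P = D := integral_partition c₀ hν hN M
  have hEZ2 : ∫ g, Z g ^ 2 ∂P ≤ D ^ 2 * C := integral_partition_sq c₀ hν hsupp hN M hθ hM
  -- lower bound on the probability that `Z` is typical
  set S := {g | D / 2 ≤ Z g}
  have hS : MeasurableSet S := measurableSet_le measurable_const hZm
  set t : ℝ := 1 / (4 * D * C)
  have ht : 0 < t := by positivity
  have hPS : 1 / (4 * C) ≤ P.real S := by
    have hpt : ∀ g, Z g - D / 2 ≤ t * Z g ^ 2 + S.indicator (fun _ => 1 / (4 * t)) g := by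
      intro g
      by_cases hg : g ∈ S
      · rw [Set.indicator_of_mem hg]
        have : 0 ≤ (2 * t * Z g - 1) ^ 2 / (4 * t) := by positivity
        have e : (2 * t * Z g - 1) ^ 2 / (4 * t) = t * Z g ^ 2 - Z g + 1 / (4 * t) := by
          field_simp; ring
        linarith
      · rw [Set.indicator_of_notMem hg]
        have : Z g < D / 2 := not_le.1 hg
        nlinarith [sq_nonneg (Z g)]
    have hsub : Integrable (fun g => Z g - D / 2) P := hZi.sub (integrable_const _)
    have hind : Integrable (fun g => S.indicator (fun _ => 1 / (4 * t)) g) P :=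
      (integrable_const _).indicator hS
    have hadd : Integrable (fun g => t * Z g ^ 2 + S.indicator (fun _ => 1 / (4 * t)) g) P :=
      (hZ2i.const_mul t).add hind
    have := integral_mono hsub hadd hpt
    rw [integral_sub hZi (integrable_const _), integral_add (hZ2i.const_mul t) hind,
      integral_const_mul, integral_indicator_const _ hS, hEZ,
      integral_const, probReal_univ, one_smul, smul_eq_mul] at this
    have h2 : t * ∫ g, Z g ^ 2 ∂P ≤ D / 4 := by
      calc _ ≤ t * (D ^ 2 * C) := mul_le_mul_of_nonneg_left hEZ2 ht.le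
        _ = D / 4 := by simp only [t]; field_simp
    have h3 : D / 4 ≤ P.real S * (1 / (4 * t)) := by linarith
    have e : 1 / (4 * t) = D * C := by simp only [t]; field_simp
    rw [e] at h3
    rw [div_le_iff₀ (by positivity)]
    nlinarith
  -- concentration
  let L : (Fin M → Fin N → ℝ) → ℝ :=
    fun g => logMean (isingOn (Fin N)) (fun x => 0 + energy (potential c₀ ν) (fun _ => unit (Fin N)) g x)
  have hLZ : ∀ g, L g = Real.log (Z g) := fun g => by simp [L, Z, partition, logMean]
  have hfm := measurable_potential c₀ ν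
  have hfb := abs_potential_le c₀ ν hν
  have hLm : Measurable L := measurable_logMean_param (by unfold energy field; fun_prop)
  have hbase : ∀ g x, |0 + energy (potential c₀ ν) (fun _ : Fin M => unit (Fin N)) g x| ≤ 0 + M * B :=
    fun g x => abs_base_add_energy_le (h := fun _ => (0:ℝ)) hfb (by simp) _ g x
  have hbm : ∀ g, Measurable fun x => 0 + energy (potential c₀ ν) (fun _ : Fin M => unit (Fin N)) g x :=
    fun g => measurable_base_add_energy hfm measurable_const _ g
  have hvar := variance_bdd_diff (gaussVec (Fin N)) (b := 2 * B) M L (0 + M * B) hLm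
    (fun g => abs_logMean_le (hbm g) (hbase g)) (by
      intro g g' a hgg
      have hd : ∀ x, |energy (potential c₀ ν) (fun _ => unit (Fin N)) g x
          - energy (potential c₀ ν) (fun _ => unit (Fin N)) g' x| ≤ 2 * B := by
        intro x
        simp only [energy, ← Finset.sum_sub_distrib]
        rw [Finset.sum_eq_single a (fun a' _ ha' => by rw [hgg a' ha', sub_self])
          (fun h => absurd (Finset.mem_univ a) h)]
        refine (abs_sub _ _).trans ?_
        have q1 := hfb (field (unit (Fin N)) (g a) x)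
        have q2 := hfb (field (unit (Fin N)) (g' a) x)
        linarith
      have u1 := logMean_mono_add (μ := isingOn (Fin N)) (hbm g) (hbase g) (hbm g') (hbase g')
        (d := 2 * B) fun x => by linarith [(abs_le.1 (hd x)).2]
      have u2 := logMean_mono_add (μ := isingOn (Fin N)) (hbm g') (hbase g') (hbm g) (hbase g)
        (d := 2 * B) fun x => by linarith [(abs_le.1 (hd x)).1]
      rw [abs_le]; simp only [L]; constructor <;> linarith)
  set p := press (isingOn (Fin N)) (potential c₀ ν) M
  have hp : ∫ g, L g ∂P = p := rfl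
  change ∫ g, (L g - ∫ g', L g' ∂P) ^ 2 ∂P ≤ _ at hvar
  rw [hp] at hvar
  by_contra hcon
  push Not at hcon
  have hgap : ∀ g ∈ S, ε * N ≤ L g - p := by
    intro g hg
    have h1 : Real.log (D / 2) ≤ L g := by rw [hLZ]; exact Real.log_le_log (by positivity) hg
    rw [Real.log_div hD.ne' two_ne_zero, Real.log_pow,
      Real.log_mul (Real.exp_ne_zero _) hu.ne', Real.log_exp] at h1
    linarith
  have hN' : (0 : ℝ) < N := by exact_mod_cast hN
  have hi : Integrable (fun g => (L g - p) ^ 2) P :=
    integrable_bdd ((hLm.sub_const _).pow_const 2) (C := (0 + M * B + |p|) ^ 2) fun g => by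
      rw [abs_pow]
      exact pow_le_pow_left₀ (abs_nonneg _)
        ((abs_sub _ _).trans (add_le_add (abs_logMean_le (hbm g) (hbase g)) le_rfl)) 2
  have hch : (ε * N) ^ 2 * P.real S ≤ ∫ g, (L g - p) ^ 2 ∂P := by
    rw [mul_comm, ← smul_eq_mul, ← integral_indicator_const _ hS]
    refine integral_mono ((integrable_const _).indicator hS) hi fun g => ?_
    by_cases hg : g ∈ S
    · rw [Set.indicator_of_mem hg]
      exact pow_le_pow_left₀ (by positivity) (hgap g hg) 2
    · rw [Set.indicator_of_notMem hg]; positivity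
  have h3 := (mul_le_mul_of_nonneg_left hPS (sq_nonneg (ε * N))).trans (hch.trans hvar)
  rw [mul_one_div, div_le_iff₀ (by positivity)] at h3
  linarith

end Vale.Agent.P157
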