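import Vale.Agent.P157.Guerra
import Vale.Agent.P157.SecondMoment

/-!
The annealed transition on the Ising cube.
-/

open MeasureTheory ProbabilityTheory Filter Topology
open scoped BigOperators

namespace Vale.Agent.P157

/-- `E log cosh (√s z)`. -/
noncomputable def logCoshAvg (s : ℝ) : ℝ :=
  ∫ z, Real.log (Real.cosh (Real.sqrt s * z)) ∂gaussianReal 0 1

/-- The replica-symmetric functional. -/
noncomputable def gardnerRS (c₀ : ℝ) (ν : Measure ℝ) (α q : ℝ) : ℝ :=
  α * (c₀ + (∫ z, Real.log (1 - rsU ν q z) ∂gaussianReal 0 1) - rsR ν q * (1 - q) / 2)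
    + logCoshAvg (α * rsR ν q)

lemma abs_log_cosh_le (x : ℝ) : |Real.log (Real.cosh x)| ≤ x ^ 2 / 2 := by
  rw [abs_of_nonneg (Real.log_nonneg (Real.one_le_cosh x)), ← Real.log_exp (x ^ 2 / 2)]
  exact Real.log_le_log (Real.cosh_pos x) (Real.cosh_le_exp_half_sq x)

lemma integrable_log_cosh (a : ℝ) :
    Integrable (fun z : ℝ => Real.log (Real.cosh (a * z))) (gaussianReal 0 1) := by
  refine Integrable.mono' ((integrable_pow_gauss 2).const_mul (a ^ 2 / 2))
    (Measurable.aestronglyMeasurable (by fun_prop)) (ae_of_all _ fun z => ?_)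
  rw [Real.norm_eq_abs]
  exact (abs_log_cosh_le _).trans (le_of_eq (by ring))

lemma logCoshAvg_mono {s t : ℝ} (hst : s ≤ t) : logCoshAvg s ≤ logCoshAvg t := by
  refine integral_mono (integrable_log_cosh _) (integrable_log_cosh _) fun z =>
    Real.log_le_log (Real.cosh_pos _) ?_
  rw [Real.cosh_le_cosh, abs_mul, abs_mul, abs_of_nonneg (Real.sqrt_nonneg _),
    abs_of_nonneg (Real.sqrt_nonneg _)]
  exact mul_le_mul_of_nonneg_right (Real.sqrt_le_sqrt hst) (abs_nonneg z)

lemma logCoshAvg_le {s : ℝ} (hs : 0 ≤ s) :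
    logCoshAvg s ≤ s / 2 - s ^ 2 / 4 + (∫ z, z ^ 6 ∂gaussianReal 0 1) * s ^ 3 := by
  have h2 := (integrable_pow_gauss 2).const_mul (s / 2)
  have h4 := (integrable_pow_gauss 4).const_mul (s ^ 2 / 12)
  have h6 := (integrable_pow_gauss 6).const_mul (s ^ 3)
  have := integral_mono (integrable_log_cosh (Real.sqrt s)) ((h2.sub h4).add h6) fun z => by
    refine (log_cosh_le _).trans (le_of_eq ?_)
    have e := Real.sq_sqrt hs
    simp only [Pi.add_apply, Pi.sub_apply, mul_pow]
    rw [show Real.sqrt s ^ 4 = (Real.sqrt s ^ 2) ^ 2 by ring,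
      show Real.sqrt s ^ 6 = (Real.sqrt s ^ 2) ^ 3 by ring, e]
    ring
  rw [integral_add' (h2.sub h4) h6, integral_sub' h2 h4, integral_const_mul, integral_const_mul,
    integral_const_mul, gauss_sq, gauss_four] at this
  unfold logCoshAvg
  linarith

lemma gauss_cos (a : ℝ) : ∫ z, Real.cos (a * z) ∂gaussianReal 0 1 = Real.exp (-a ^ 2 / 2) := by
  apply Complex.ofReal_injective
  rw [← integral_complex_ofReal, Complex.ofReal_exp]
  have h : ∀ t : ℝ, ∫ z : ℝ, Complex.exp (t * z * Complex.I) ∂gaussianReal 0 1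
      = Complex.exp (-(t : ℂ) ^ 2 / 2) := fun t => by
    rw [← charFun_apply_real, charFun_gaussianReal]
    congr 1; push_cast; ring
  have hi : ∀ t : ℝ, Integrable (fun z : ℝ => Complex.exp (t * z * Complex.I)) (gaussianReal 0 1) :=
    fun t => (integrable_cexp_mul _ (h := fun z : ℝ => t * z) (by fun_prop)).congr
      (ae_of_all _ fun z => by push_cast; rfl)
  have e : ∀ z : ℝ, ((Real.cos (a * z) : ℝ) : ℂ) = (Complex.exp ((a : ℝ) * z * Complex.I)
      + Complex.exp (((-a : ℝ) : ℂ) * z * Complex.I)) / 2 := fun z => by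
    push_cast; rw [Complex.cos]; ring_nf
  simp_rw [e]
  rw [integral_div, integral_add (hi a) (hi (-a)), h, h]
  push_cast; ring

lemma integrable_cos (a : ℝ) : Integrable (fun z : ℝ => Real.cos (a * z)) (gaussianReal 0 1) :=
  Integrable.of_bound (by fun_prop) 1 (ae_of_all _ fun z => by simpa using Real.abs_cos_le_one _)

lemma gauss_cos_cos (a b : ℝ) : ∫ z, Real.cos (a * z) * Real.cos (b * z) ∂gaussianReal 0 1
    = Real.exp (-(a ^ 2 + b ^ 2) / 2) * Real.cosh (a * b) := by
  have e : ∀ z : ℝ, Real.cos (a * z) * Real.cos (b * z)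
      = (Real.cos ((a + b) * z) + Real.cos ((a - b) * z)) / 2 := fun z => by
    rw [add_mul, sub_mul, Real.cos_add, Real.cos_sub]; ring
  simp_rw [e]
  rw [integral_div, integral_add (integrable_cos _) (integrable_cos _), gauss_cos, gauss_cos,
    Real.cosh_eq, show -(a + b) ^ 2 / 2 = -(a ^ 2 + b ^ 2) / 2 + -(a * b) by ring,
    show -(a - b) ^ 2 / 2 = -(a ^ 2 + b ^ 2) / 2 + a * b by ring, Real.exp_add, Real.exp_add]
  ring

variable {ν : Measure ℝ} [IsFiniteMeasure ν] {q : ℝ}

lemma integrable_rsU (hq : q ≤ 1) : Integrable (rsU ν q) (gaussianReal 0 1) :=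
  Integrable.of_bound (measurable_rsU ν q).aestronglyMeasurable _
    (ae_of_all _ fun z => (Real.norm_eq_abs _).trans_le (abs_rsU_le hq z))

lemma rsU_mul_cos (hq0 : 0 ≤ q) (hq : q ≤ 1) (b : ℝ) :
    ∫ z, rsU ν q z * Real.cos (b * z) ∂gaussianReal 0 1
      = Real.exp (-b ^ 2 / 2) * ∫ ξ, Real.exp (-ξ ^ 2 / 2) * Real.cosh (Real.sqrt q * b * ξ) ∂ν := by
  simp only [rsU, ← integral_mul_const, ← integral_const_mul]
  rw [integral_integral_swap]
  · refine integral_congr_ae (ae_of_all _ fun ξ => ?_)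
    dsimp only
    have e : ∀ z : ℝ, Real.cos (ξ * (Real.sqrt q * z)) * Real.exp (-((1 - q) * ξ ^ 2) / 2)
        * Real.cos (b * z) = Real.exp (-((1 - q) * ξ ^ 2) / 2)
          * (Real.cos (Real.sqrt q * ξ * z) * Real.cos (b * z)) := fun z => by ring_nf
    simp_rw [e]
    rw [integral_const_mul, gauss_cos_cos, mul_pow, Real.sq_sqrt hq0,
      show Real.sqrt q * ξ * b = Real.sqrt q * b * ξ by ring, ← mul_assoc, ← mul_assoc,
      ← Real.exp_add, ← Real.exp_add]
    ring_nf
  · refine Integrable.of_bound (Measurable.aestronglyMeasurable (by fun_prop)) 1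
      (ae_of_all _ fun p => ?_)
    simp only [Function.uncurry, Real.norm_eq_abs, abs_mul, Real.abs_exp]
    exact mul_le_one₀ (mul_le_one₀ (Real.abs_cos_le_one _) (Real.exp_pos _).le (damp_le_one hq _))
      (abs_nonneg _) (Real.abs_cos_le_one _)

lemma integral_rsU (hq0 : 0 ≤ q) (hq : q ≤ 1) :
    ∫ z, rsU ν q z ∂gaussianReal 0 1 = meanU ν := by
  simpa [meanU] using rsU_mul_cos (ν := ν) hq0 hq 0

/-- The second moment of the fluctuation of `rsU` is at least of order `q²`. -/
lemma rsU_var_ge (hq0 : 0 < q) (hq : q ≤ 1) :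
    q ^ 2 * betaU ν ^ 2 / 2 * (1 - q ^ 2 / 8)
      ≤ ∫ z, (rsU ν q z - meanU ν) ^ 2 ∂gaussianReal 0 1 := by
  set P := gaussianReal 0 1
  set b := Real.sqrt q
  have hb : b ^ 2 = q := Real.sq_sqrt hq0.le
  set e := Real.exp (-q / 2)
  have he : 0 < e := Real.exp_pos _
  let Y := fun z => rsU ν q z - meanU ν
  let w := fun z => Real.cos (b * z) - e
  have hmU : |meanU ν| ≤ ν.real Set.univ := by rw [abs_of_nonneg meanU_nonneg]; exact meanU_le
  have hYm : Measurable Y := (measurable_rsU ν q).sub_const _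
  have hYb : ∀ z, |Y z| ≤ 2 * ν.real Set.univ := fun z =>
    (abs_sub _ _).trans (by linarith [abs_rsU_le (ν := ν) hq z])
  have hwb : ∀ z, |w z| ≤ 1 + e := fun z =>
    (abs_sub _ _).trans (add_le_add (Real.abs_cos_le_one _) (abs_of_pos he).le)
  have iY2 : Integrable (fun z => Y z ^ 2) P :=
    integrable_bdd (hYm.pow_const 2) (C := (2 * ν.real Set.univ) ^ 2) fun z => by
      rw [abs_pow]; exact pow_le_pow_left₀ (abs_nonneg _) (hYb z) 2
  have iw2 : Integrable (fun z => w z ^ 2) P :=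
    integrable_bdd (by fun_prop) (C := (1 + e) ^ 2) fun z => by
      rw [abs_pow]; exact pow_le_pow_left₀ (abs_nonneg _) (hwb z) 2
  have iYw : Integrable (fun z => Y z * w z) P :=
    integrable_bdd (hYm.mul (by fun_prop)) (C := 2 * ν.real Set.univ * (1 + e)) fun z => by
      rw [abs_mul]; exact mul_le_mul (hYb z) (hwb z) (abs_nonneg _) (by positivity)
  have iU := integrable_rsU (ν := ν) hq
  have iUc : Integrable (fun z => rsU ν q z * Real.cos (b * z)) P :=
    integrable_bdd ((measurable_rsU ν q).mul (by fun_prop)) (C := ν.real Set.univ) fun z => by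
      rw [abs_mul]
      exact (mul_le_of_le_one_right (abs_nonneg _) (Real.abs_cos_le_one _)).trans (abs_rsU_le hq z)
  have hcosh : Integrable (fun ξ => Real.exp (-ξ ^ 2 / 2) * Real.cosh (q * ξ)) ν := by
    refine integrable_bdd (by fun_prop) (C := Real.exp (1 / 2)) fun ξ => ?_
    rw [abs_mul, Real.abs_exp, abs_of_pos (Real.cosh_pos _)]
    calc Real.exp (-ξ ^ 2 / 2) * Real.cosh (q * ξ)
        ≤ Real.exp (-ξ ^ 2 / 2) * Real.exp ((q * ξ) ^ 2 / 2) :=
          mul_le_mul_of_nonneg_left (Real.cosh_le_exp_half_sq _) (Real.exp_pos _).le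
      _ ≤ Real.exp (1 / 2) := by
          rw [← Real.exp_add]
          refine Real.exp_le_exp.2 ?_
          nlinarith [mul_le_mul_of_nonneg_right (pow_le_one₀ (n := 2) hq0.le hq) (sq_nonneg ξ)]
  have i2 : Integrable (fun ξ => ξ ^ 2 * Real.exp (-ξ ^ 2 / 2)) ν :=
    integrable_bdd (by fun_prop) sq_mul_exp_le
  have i1 : Integrable (fun ξ => Real.exp (-ξ ^ 2 / 2)) ν := integrable_bdd (by fun_prop) (C := 1)
    fun ξ => by rw [show -ξ ^ 2 / 2 = -(ξ ^ 2 / 2) by ring]; exact abs_exp_neg_le _ (by positivity)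
  have hP : e * (q ^ 2 * betaU ν / 2) ≤ ∫ z, Y z * w z ∂P := by
    have expand : ∀ z, Y z * w z = rsU ν q z * Real.cos (b * z) - e * rsU ν q z
        - meanU ν * Real.cos (b * z) + meanU ν * e := fun z => by simp only [Y, w]; ring
    have j1 : Integrable (fun z => rsU ν q z * Real.cos (b * z) - e * rsU ν q z) P :=
      iUc.sub (iU.const_mul e)
    have j2 : Integrable (fun z => rsU ν q z * Real.cos (b * z) - e * rsU ν q z
        - meanU ν * Real.cos (b * z)) P := j1.sub ((integrable_cos b).const_mul _)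
    have hbb : -b ^ 2 / 2 = -q / 2 := by rw [hb]
    rw [show (fun z => Y z * w z) = _ from funext expand, integral_add j2 (integrable_const _),
      integral_sub j1 ((integrable_cos b).const_mul _), integral_sub iUc (iU.const_mul e),
      integral_const_mul, integral_const_mul, rsU_mul_cos hq0.le hq, integral_rsU hq0.le hq,
      gauss_cos, hbb, integral_const, probReal_univ, one_smul]
    have : q ^ 2 * betaU ν / 2 + meanU ν
        ≤ ∫ ξ, Real.exp (-ξ ^ 2 / 2) * Real.cosh (Real.sqrt q * b * ξ) ∂ν := by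
      rw [show Real.sqrt q * b = q by simp only [b]; exact Real.mul_self_sqrt hq0.le, betaU, meanU]
      have j3 := i2.const_mul (q ^ 2 / 2)
      have := integral_mono (j3.add i1) hcosh fun ξ => by
        simp only [Pi.add_apply]
        nlinarith [mul_le_mul_of_nonneg_left (half_sq_le_cosh_sub_one (q * ξ))
          (Real.exp_pos (-ξ ^ 2 / 2)).le]
      rw [integral_add' j3 i1, integral_const_mul] at this
      linarith
    nlinarith [mul_le_mul_of_nonneg_left this he.le]
  have hW : ∫ z, w z ^ 2 ∂P ≤ e ^ 2 * (q ^ 2 / 2 * (1 + q ^ 2 / 8)) := by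
    have expand : ∀ z, w z ^ 2 = Real.cos (b * z) * Real.cos (b * z) - 2 * e * Real.cos (b * z) + e ^ 2 :=
      fun z => by simp only [w]; ring
    have icc : Integrable (fun z => Real.cos (b * z) * Real.cos (b * z)) P :=
      integrable_bdd (by fun_prop) (C := 1) fun z => by
        rw [abs_mul]; exact mul_le_one₀ (Real.abs_cos_le_one _) (abs_nonneg _) (Real.abs_cos_le_one _)
    have j1 : Integrable (fun z => Real.cos (b * z) * Real.cos (b * z) - 2 * e * Real.cos (b * z)) P :=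
      icc.sub ((integrable_cos b).const_mul _)
    rw [show (fun z => w z ^ 2) = _ from funext expand, integral_add j1 (integrable_const _),
      integral_sub icc ((integrable_cos b).const_mul _), integral_const_mul, gauss_cos, gauss_cos_cos,
      integral_const, probReal_univ, one_smul, ← sq, hb]
    have e2 : Real.exp (-(q + q) / 2) = e ^ 2 := by
      simp only [e]; rw [sq, ← Real.exp_add]; ring_nf
    rw [e2]
    have hc := cosh_le_poly (x := q) (by rw [abs_of_pos hq0]; exact hq)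
    have hq4 : q ^ 6 / 100 ≤ q ^ 4 / 120 + q ^ 4 / 600 := by
      nlinarith [mul_le_mul_of_nonneg_left (pow_le_one₀ (n := 2) hq0.le hq) (pow_nonneg hq0.le 4)]
    nlinarith [mul_le_mul_of_nonneg_left (show Real.cosh q - 1 ≤ q ^ 2 / 2 * (1 + q ^ 2 / 8) by
      nlinarith) (sq_nonneg e)]
  set W := ∫ z, w z ^ 2 ∂P
  set Q := ∫ z, Y z * w z ∂P
  set E := ∫ z, Y z ^ 2 ∂P
  have hE : 0 ≤ E := integral_nonneg fun z => sq_nonneg _
  have hW0 : 0 ≤ W := integral_nonneg fun z => sq_nonneg _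
  set W' := e ^ 2 * (q ^ 2 / 2 * (1 + q ^ 2 / 8))
  have hW' : 0 < W' := by positivity
  have hCS : 2 * W' * Q * Q - Q ^ 2 * W ≤ W' ^ 2 * E := by
    have := integral_mono ((iYw.const_mul (2 * W' * Q)).sub (iw2.const_mul (Q ^ 2)))
      (iY2.const_mul (W' ^ 2)) fun z => by
      simp only [Pi.sub_apply]
      nlinarith [sq_nonneg (W' * Y z - Q * w z)]
    rwa [integral_sub' (iYw.const_mul _) (iw2.const_mul _), integral_const_mul, integral_const_mul,
      integral_const_mul] at this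
  have hQ : Q ^ 2 ≤ W' * E := by
    nlinarith [mul_le_mul_of_nonneg_left hW (sq_nonneg Q)]
  have hlow : (e * (q ^ 2 * betaU ν / 2)) ^ 2 ≤ W' * E :=
    (pow_le_pow_left₀ (mul_nonneg he.le (by have := betaU_nonneg (ν := ν); positivity)) hP 2).trans hQ
  have h1 : (q ^ 2 * betaU ν ^ 2 / 2 * (1 - q ^ 2 / 8)) * W' ≤ W' * E := by
    refine le_trans ?_ hlow
    have e0 : (e * (q ^ 2 * betaU ν / 2)) ^ 2
        - (q ^ 2 * betaU ν ^ 2 / 2 * (1 - q ^ 2 / 8)) * W'
        = e ^ 2 * (q ^ 4 * betaU ν ^ 2 / 4) * (q ^ 2 / 8) ^ 2 := by simp only [W']; ring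
    nlinarith [mul_nonneg (mul_nonneg (sq_nonneg e) (by positivity : 0 ≤ q ^ 4 * betaU ν ^ 2 / 4))
      (sq_nonneg (q ^ 2 / 8))]
  change _ ≤ E
  exact le_of_mul_le_mul_left (by linarith) hW'

lemma sq_mul_damp_le (hq : q ≤ 1 / 2) (ξ : ℝ) :
    ξ ^ 2 * Real.exp (-((1 - q) * ξ ^ 2) / 2) ≤ 4 := by
  rw [neg_div, Real.exp_neg, ← div_eq_mul_inv, div_le_iff₀ (Real.exp_pos _)]
  nlinarith [Real.add_one_le_exp ((1 - q) * ξ ^ 2 / 2),
    mul_le_mul_of_nonneg_right hq (sq_nonneg ξ)]

lemma abs_rsU_sub_le (hν : ν.real Set.univ < 1) (hq0 : 0 ≤ q) (hq : q ≤ 1 / 2) (z : ℝ) :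
    |rsU ν q z - meanU ν| ≤ 2 * q * (1 + z ^ 2) := by
  have i1 : Integrable (fun ξ => Real.cos (ξ * (Real.sqrt q * z)) * Real.exp (-((1 - q) * ξ ^ 2) / 2)) ν :=
    integrable_bdd (by fun_prop) (C := 1) fun ξ => by
      rw [abs_mul, Real.abs_exp]
      exact mul_le_one₀ (Real.abs_cos_le_one _) (Real.exp_pos _).le (damp_le_one (by linarith) ξ)
  have i2 : Integrable (fun ξ => Real.exp (-ξ ^ 2 / 2)) ν := integrable_bdd (by fun_prop) (C := 1)
    fun ξ => by rw [show -ξ ^ 2 / 2 = -(ξ ^ 2 / 2) by ring]; exact abs_exp_neg_le _ (by positivity)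
  rw [rsU, meanU, ← integral_sub i1 i2, ← Real.norm_eq_abs]
  refine (norm_integral_le_of_norm_le_const (C := 2 * q * (1 + z ^ 2))
    (ae_of_all _ fun ξ => ?_)).trans ?_
  · rw [Real.norm_eq_abs]
    set d := Real.exp (-((1 - q) * ξ ^ 2) / 2)
    have hd : 0 ≤ d := (Real.exp_pos _).le
    set a := ξ * (Real.sqrt q * z)
    have e : Real.exp (-ξ ^ 2 / 2) = d * Real.exp (-(q * ξ ^ 2) / 2) := by
      simp only [d]; rw [← Real.exp_add]; ring_nf
    have h1 := Real.cos_le_one a
    have h2 := Real.one_sub_sq_div_two_le_cos (x := a)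
    have h3 := Real.add_one_le_exp (-(q * ξ ^ 2) / 2)
    have h4 : Real.exp (-(q * ξ ^ 2) / 2) ≤ 1 :=
      Real.exp_le_one_iff.2 (by nlinarith [mul_nonneg hq0 (sq_nonneg ξ)])
    have h5 := mul_le_mul_of_nonneg_left (sq_mul_damp_le hq ξ)
      (by positivity : 0 ≤ q * (1 + z ^ 2) / 2)
    have h6 : a ^ 2 = q * z ^ 2 * ξ ^ 2 := by
      simp only [a, mul_pow, Real.sq_sqrt hq0]; ring
    rw [e, abs_le]
    constructor
    · nlinarith [mul_le_mul_of_nonneg_left h2 hd, mul_le_mul_of_nonneg_left h4 hd,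
        mul_nonneg hd (mul_nonneg hq0 (sq_nonneg ξ))]
    · nlinarith [mul_le_mul_of_nonneg_left h1 hd, mul_le_mul_of_nonneg_left h3 hd,
        mul_nonneg hd (mul_nonneg (mul_nonneg hq0 (sq_nonneg z)) (sq_nonneg ξ))]
  · exact mul_le_of_le_one_right (by positivity) hν.le

lemma rsR_le (hν : ν.real Set.univ < 1) (hq0 : 0 ≤ q) (hq : q ≤ 1 / 2) :
    rsR ν q ≤ 16 / (1 - ν.real Set.univ) ^ 2 * q := by
  have hm : 0 < 1 - ν.real Set.univ := by linarith
  refine (integral_mono_of_nonneg (g := fun z => 16 / (1 - ν.real Set.univ) ^ 2 * q * z ^ 2)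
    (ae_of_all _ fun z => sq_nonneg _) ((integrable_pow_gauss 2).const_mul _)
    (ae_of_all _ fun z => ?_)).trans (le_of_eq (by rw [integral_const_mul, gauss_sq, mul_one]))
  dsimp only
  have hV : |rsV ν q z| ≤ 4 * Real.sqrt q * |z| := by
    rw [← Real.norm_eq_abs, rsV]
    refine (norm_integral_le_of_norm_le_const (C := 4 * Real.sqrt q * |z|)
      (ae_of_all _ fun ξ => ?_)).trans (mul_le_of_le_one_right (by positivity) hν.le)
    rw [Real.norm_eq_abs, abs_mul, abs_mul, Real.abs_exp]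
    calc |ξ| * |Real.sin (ξ * (Real.sqrt q * z))| * Real.exp (-((1 - q) * ξ ^ 2) / 2)
        ≤ |ξ| * |ξ * (Real.sqrt q * z)| * Real.exp (-((1 - q) * ξ ^ 2) / 2) := by
          exact mul_le_mul_of_nonneg_right (mul_le_mul_of_nonneg_left Real.abs_sin_le_abs (abs_nonneg _))
            (Real.exp_pos _).le
      _ = (ξ ^ 2 * Real.exp (-((1 - q) * ξ ^ 2) / 2)) * (Real.sqrt q * |z|) := by
          rw [abs_mul, abs_mul, abs_of_nonneg (Real.sqrt_nonneg _), ← sq_abs ξ]; ring
      _ ≤ 4 * (Real.sqrt q * |z|) :=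
          mul_le_mul_of_nonneg_right (sq_mul_damp_le hq ξ) (by positivity)
      _ = _ := by ring
  have hU : 1 - ν.real Set.univ ≤ 1 - rsU ν q z := by
    linarith [(abs_le.1 (abs_rsU_le (ν := ν) (by linarith : q ≤ 1) z)).2]
  rw [div_pow, div_le_iff₀ (pow_pos (hm.trans_le hU) 2)]
  calc rsV ν q z ^ 2 = |rsV ν q z| ^ 2 := (sq_abs _).symm
    _ ≤ (4 * Real.sqrt q * |z|) ^ 2 := pow_le_pow_left₀ (abs_nonneg _) hV 2
    _ = 16 / (1 - ν.real Set.univ) ^ 2 * q * z ^ 2 * (1 - ν.real Set.univ) ^ 2 := by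
        rw [mul_pow, mul_pow, Real.sq_sqrt hq0, sq_abs]; field_simp; ring
    _ ≤ _ := mul_le_mul_of_nonneg_left (pow_le_pow_left₀ hm.le hU 2) (by positivity)

lemma log_rsU_le (hν : ν.real Set.univ < 1) (hq0 : 0 < q) (hq : q ≤ 1 / 2) :
    ∫ z, Real.log (1 - rsU ν q z) ∂gaussianReal 0 1
      ≤ Real.log (1 - meanU ν)
        - q ^ 2 * (betaU ν / (1 - meanU ν)) ^ 2 / 4 * (1 - q ^ 2 / 8)
        + 8 / (3 * (1 - meanU ν) ^ 3) * (∫ z, (1 + z ^ 2) ^ 3 ∂gaussianReal 0 1) * q ^ 3 := by
  set P := gaussianReal 0 1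
  have hu : 0 < 1 - meanU ν := by linarith [meanU_le (ν := ν)]
  set u := 1 - meanU ν
  let Y := fun z => rsU ν q z - meanU ν
  have hYm : Measurable Y := (measurable_rsU ν q).sub_const _
  have hU := fun z => abs_rsU_le (ν := ν) (by linarith : q ≤ 1) z
  have hmU : |meanU ν| ≤ ν.real Set.univ := by rw [abs_of_nonneg meanU_nonneg]; exact meanU_le
  have hYb : ∀ z, |Y z| ≤ 2 * ν.real Set.univ := fun z =>
    (abs_sub _ _).trans (by linarith [hU z])
  have iY : Integrable Y P := integrable_bdd hYm hYb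
  have iY2 : Integrable (fun z => Y z ^ 2) P :=
    integrable_bdd (hYm.pow_const 2) (C := (2 * ν.real Set.univ) ^ 2) fun z => by
      rw [abs_pow]; exact pow_le_pow_left₀ (abs_nonneg _) (hYb z) 2
  have i6 : Integrable (fun z : ℝ => (1 + z ^ 2) ^ 3) P := by
    have e : (fun z : ℝ => (1 + z ^ 2) ^ 3) = fun z => (1 + 3 * z ^ 2) + (3 * z ^ 4 + z ^ 6) := by
      funext z; ring
    rw [e]
    exact ((integrable_const 1).add ((integrable_pow_gauss 2).const_mul 3)).add
      (((integrable_pow_gauss 4).const_mul 3).add (integrable_pow_gauss 6))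
  have ilog : Integrable (fun z => Real.log (1 - rsU ν q z)) P := by
    refine integrable_bdd (by fun_prop) (C := -Real.log (1 - ν.real Set.univ)) fun z => ?_
    have := abs_le.1 (hU z)
    rw [abs_le]; constructor
    · rw [neg_neg]; exact Real.log_le_log (by linarith) (by linarith)
    · rw [← Real.log_inv]
      refine Real.log_le_log (by linarith) ?_
      rw [← one_div, le_div_iff₀ (by linarith)]
      nlinarith [measureReal_nonneg (μ := ν) (s := Set.univ)]
  have hpt : ∀ z, Real.log (1 - rsU ν q z) ≤ (Real.log u + -(1 / u) * Y z)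
      + (-(1 / (2 * u ^ 2)) * Y z ^ 2 + 8 / (3 * u ^ 3) * q ^ 3 * (1 + z ^ 2) ^ 3) := by
    intro z
    have hy : Y z / u < 1 := by
      rw [div_lt_one hu]; simp only [Y, u]; linarith [(abs_le.1 (hU z)).2]
    have h := log_one_sub_le hy
    have e : Real.log (1 - rsU ν q z) = Real.log u + Real.log (1 - Y z / u) := by
      rw [← Real.log_mul hu.ne' (by linarith : 1 - Y z / u ≠ 0)]
      congr 1; rw [mul_sub, mul_div_cancel₀ _ hu.ne']; simp only [Y, u]; ring
    have h3 : -(Y z / u) ^ 3 / 3 ≤ 8 / (3 * u ^ 3) * q ^ 3 * (1 + z ^ 2) ^ 3 := by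
      calc -(Y z / u) ^ 3 / 3 = -(Y z ^ 3) / (3 * u ^ 3) := by rw [div_pow]; ring
        _ ≤ (2 * q * (1 + z ^ 2)) ^ 3 / (3 * u ^ 3) := by
            refine div_le_div_of_nonneg_right ?_ (by positivity)
            refine (neg_le_abs _).trans ?_
            rw [abs_pow]
            exact pow_le_pow_left₀ (abs_nonneg _) (abs_rsU_sub_le hν hq0.le hq z) 3
        _ = _ := by ring
    have e2 : -(Y z / u) ^ 2 / 2 = -(1 / (2 * u ^ 2)) * Y z ^ 2 := by rw [div_pow]; ring
    rw [e]
    linarith [show -(1 / u) * Y z = -(Y z / u) by ring]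
  have j1 := (integrable_const (μ := P) (Real.log u)).add (iY.const_mul (-(1 / u)))
  have j2 := (iY2.const_mul (-(1 / (2 * u ^ 2)))).add (i6.const_mul (8 / (3 * u ^ 3) * q ^ 3))
  have := integral_mono ilog (j1.add j2) hpt
  rw [integral_add' j1 j2, integral_add' (integrable_const _) (iY.const_mul _),
    integral_add' (iY2.const_mul _) (i6.const_mul _), integral_const_mul, integral_const_mul,
    integral_const_mul, integral_const, probReal_univ, one_smul,
    show ∫ z, Y z ∂P = 0 by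
      simp only [Y]
      rw [integral_sub (integrable_rsU (by linarith)) (integrable_const _),
        integral_rsU hq0.le (by linarith)]
      simp] at this
  have hv := mul_le_mul_of_nonneg_left (rsU_var_ge (ν := ν) hq0 (by linarith))
    (by positivity : 0 ≤ 1 / (2 * u ^ 2))
  have e3 : 1 / (2 * u ^ 2) * (q ^ 2 * betaU ν ^ 2 / 2 * (1 - q ^ 2 / 8))
      = q ^ 2 * (betaU ν / u) ^ 2 / 4 * (1 - q ^ 2 / 8) := by rw [div_pow]; ring
  nlinarith

variable (c₀ : ℝ)

/-- Above the threshold some replica-symmetric value is below the annealed one. -/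
lemma exists_gardner_lt (hν : ν.real Set.univ < 1) {α : ℝ} (hα : 0 < α)
    (h1 : 1 < α * (betaU ν / (1 - meanU ν)) ^ 2) :
    ∃ q, 0 ≤ q ∧ q < 1 ∧ gardnerRS c₀ ν α q < α * (c₀ + Real.log (1 - meanU ν)) := by
  have hu : 0 < 1 - meanU ν := by linarith [meanU_le (ν := ν)]
  set B2 := (betaU ν / (1 - meanU ν)) ^ 2
  set C3 := 8 / (3 * (1 - meanU ν) ^ 3) * ∫ z, (1 + z ^ 2) ^ 3 ∂gaussianReal 0 1
  have hC3 : 0 ≤ C3 := mul_nonneg (by positivity) (integral_nonneg fun z => by positivity)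
  set C6 := ∫ z, z ^ 6 ∂gaussianReal 0 1
  have hC6 : 0 ≤ C6 := integral_nonneg fun z => by positivity
  set Kr := 16 / (1 - ν.real Set.univ) ^ 2
  have hKr : 0 ≤ Kr := by positivity
  set C := α * B2 / 32 + α * C3 + C6 * (α * Kr) ^ 3 + 1
  have hC : 0 < C := by positivity
  set q := min (1 / 2) ((α * B2 - 1) / (8 * C))
  have hq0 : 0 < q := lt_min (by norm_num) (div_pos (by linarith) (by positivity))
  have hq : q ≤ 1 / 2 := min_le_left _ _
  have hqC : q * (8 * C) ≤ α * B2 - 1 :=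
    (le_div_iff₀ (by positivity)).1 (min_le_right _ _)
  refine ⟨q, hq0.le, by linarith, ?_⟩
  have hr0 : 0 ≤ rsR ν q := integral_nonneg fun z => sq_nonneg _
  have hr := rsR_le hν hq0.le hq
  have hl := log_rsU_le hν hq0 hq
  have hc := logCoshAvg_le (mul_nonneg hα.le hr0)
  have hA3 : (α * rsR ν q) ^ 3 ≤ (α * Kr) ^ 3 * q ^ 3 := by
    rw [← mul_pow]
    exact pow_le_pow_left₀ (mul_nonneg hα.le hr0) (by nlinarith) 3
  have hl' := mul_le_mul_of_nonneg_left hl hα.le
  have hA3' := mul_le_mul_of_nonneg_left hA3 hC6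
  have hq4 : α * B2 / 32 * q ^ 4 ≤ α * B2 / 32 * q ^ 3 :=
    mul_le_mul_of_nonneg_left (pow_le_pow_of_le_one hq0.le (by linarith) (by norm_num)) (by positivity)
  have hsq := sq_nonneg (α * rsR ν q - q)
  have hfin : C * q ^ 3 < (α * B2 - 1) / 4 * q ^ 2 := by
    nlinarith [mul_le_mul_of_nonneg_right hqC (sq_nonneg q), mul_pos hC (pow_pos hq0 3)]
  simp only [gardnerRS, C] at *
  nlinarith [pow_pos hq0 3]

lemma gardnerRS_zero (α : ℝ) : gardnerRS c₀ ν α 0 = α * (c₀ + Real.log (1 - meanU ν)) := by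
  simp [gardnerRS, rsR, rsU, rsV, logCoshAvg, meanU]

section Ising

lemma ae_unit_ising (N : ℕ) (hN : 0 < N) :
    ∀ᵐ x ∂isingOn (Fin N), ∑ j, (unit (Fin N) j * x j) ^ 2 = 1 :=
  (ae_isingMeasure N).mono fun _ hx => unit_sq_sum hN hx

lemma gp_zero_ising (N : ℕ) (hN : 0 < N) {s : ℝ} (hs : 0 ≤ s) :
    gp (isingOn (Fin N)) c₀ ν 0 s = N * logCoshAvg (s / N) := by
  set a := Real.sqrt (s / N)
  have hpt : ∀ h : Fin N → ℝ, pressureW (isingOn (Fin N)) (potential c₀ ν) (fun _ : Fin 0 => unit (Fin N))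
      (fun x => siteField (fun i => Real.sqrt s * h i) x) = ∑ i, Real.log (Real.cosh (a * h i)) := by
    intro h
    simp only [pressureW, energy, Finset.univ_eq_empty, Finset.sum_empty, add_zero, integral_const,
      probReal_univ, one_smul, logMean]
    have e : ∀ᵐ x ∂isingOn (Fin N), Real.exp (siteField (fun i => Real.sqrt s * h i) x)
        = ∏ i, Real.exp (a * h i * (1 * x i)) := by
      filter_upwards [ae_unit_ising N hN] with x hx
      rw [← Real.exp_sum, siteField, clipV_eq hx, field]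
      congr 1
      refine Finset.sum_congr rfl fun i _ => ?_
      simp only [a, unit, Fintype.card_fin]
      rw [Real.sqrt_div hs]; ring
    rw [integral_congr_ae e, isingOn,
      integral_fintype_prod_eq_prod (f := fun i y => Real.exp (a * h i * (1 * y))),
      Real.log_prod fun i _ => (integral_exp_coin (θ := a * h i) (one_pow 2)).symm ▸ (Real.cosh_pos _).ne']
    exact Finset.sum_congr rfl fun i _ => by rw [integral_exp_coin (one_pow 2)]
  simp only [gp, hpt]
  have hi : ∀ i, Integrable (fun h : Fin N → ℝ => Real.log (Real.cosh (a * h i))) (gaussVec (Fin N)) :=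
    fun i => integrable_comp_eval (μ := fun _ : Fin N => gaussianReal 0 1) (i := i) (integrable_log_cosh a)
  rw [integral_finsetSum _ fun i _ => hi i]
  have : ∀ i, ∫ h : Fin N → ℝ, Real.log (Real.cosh (a * h i)) ∂gaussVec (Fin N) = logCoshAvg (s / N) :=
    fun i => integral_comp_eval (μ := fun _ : Fin N => gaussianReal 0 1) (i := i)
      (f := fun y => Real.log (Real.cosh (a * y))) (Measurable.aestronglyMeasurable (by fun_prop))
  simp [this]

variable (ν)

/-- Upper bound of the limit by the replica-symmetric functional. -/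
lemma limit_le_gardner (hν : ν.real Set.univ < 1) {α q L : ℝ} (hα : 0 < α) (hq0 : 0 ≤ q) (hq : q < 1)
    (hL : Tendsto (fun N => pressure α (potential c₀ ν) N (isingMeasure N)) atTop (𝓝 L)) :
    L ≤ gardnerRS c₀ ν α q := by
  set r := rsR ν q
  have hr : 0 ≤ r := integral_nonneg fun z => sq_nonneg _
  have hfl := tendsto_nat_floor_mul_div_atTop hα.le |>.comp (tendsto_natCast_atTop_atTop (R := ℝ))
  have h0 : Tendsto (fun N : ℕ => r * (Real.sqrt α / Real.sqrt N)) atTop (𝓝 0) := by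
    simpa using ((tendsto_const_nhds (x := Real.sqrt α)).div_atTop
      (Real.tendsto_sqrt_atTop.comp tendsto_natCast_atTop_atTop)).const_mul r
  have hlim : Tendsto (fun N : ℕ => (⌊α * (N:ℝ)⌋₊ : ℝ) / N * (rsK c₀ ν q - r * (1 - q) / 2)
      + logCoshAvg (α * r) + r * (Real.sqrt α / Real.sqrt N)) atTop (𝓝 (gardnerRS c₀ ν α q)) := by
    have := ((hfl.mul_const (rsK c₀ ν q - r * (1 - q) / 2)).add_const (logCoshAvg (α * r))).add h0
    simpa [gardnerRS, rsK, Function.comp_def] using this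
  refine le_of_tendsto_of_tendsto hL hlim ((eventually_ge_atTop 1).mono fun N hN => ?_)
  have hN' : (0 : ℝ) < N := by exact_mod_cast hN
  set M := ⌊α * (N:ℝ)⌋₊
  have hM : (M : ℝ) ≤ α * N := Nat.floor_le (by positivity)
  have h := press_le_rs c₀ ν hν (ae_unit_ising N hN) hq0 hq M
  rw [gp_zero_ising c₀ N hN (by positivity)] at h
  have hc : logCoshAvg (M * r / N) ≤ logCoshAvg (α * r) := by
    refine logCoshAvg_mono ?_
    rw [div_le_iff₀ hN']; nlinarith
  have hsM : Real.sqrt M / N ≤ Real.sqrt α / Real.sqrt N := by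
    rw [div_le_div_iff₀ hN' (Real.sqrt_pos.2 hN'), ← Real.sqrt_mul (Nat.cast_nonneg M)]
    calc Real.sqrt (M * N) ≤ Real.sqrt (α * N * N) :=
          Real.sqrt_le_sqrt (mul_le_mul_of_nonneg_right hM hN'.le)
      _ = Real.sqrt α * N := by rw [mul_assoc, Real.sqrt_mul hα.le, Real.sqrt_mul_self hN'.le]
  simp only [pressure_eq_press, isingMeasure_eq]
  rw [div_le_iff₀ hN']
  have e : ((M : ℝ) / N * (rsK c₀ ν q - r * (1 - q) / 2) + logCoshAvg (α * r)
      + r * (Real.sqrt α / Real.sqrt N)) * N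
      = M * (rsK c₀ ν q - r * (1 - q) / 2) + N * logCoshAvg (α * r)
        + r * ((Real.sqrt α / Real.sqrt N) * N) := by field_simp
  rw [e]
  have := mul_le_mul_of_nonneg_left hc hN'.le
  have := mul_le_mul_of_nonneg_left ((div_le_iff₀ hN').1 hsM) hr
  linarith

/-- Below the threshold the limit is at least the annealed value. -/
lemma annealed_le_limit (hν : ν.real Set.univ < 1) (hsupp : ∀ᵐ ξ ∂ν, |ξ| ≤ 1) {α L : ℝ} (hα : 0 < α)
    (h1 : α * (betaU ν / (1 - meanU ν)) ^ 2 ≤ 1)
    (hL : Tendsto (fun N => pressure α (potential c₀ ν) N (isingMeasure N)) atTop (𝓝 L)) :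
    α * (c₀ + Real.log (1 - meanU ν)) ≤ L := by
  set A := c₀ + Real.log (1 - meanU ν)
  set B := potBound c₀ ν
  set B2 := (betaU ν / (1 - meanU ν)) ^ 2
  have key : ∀ ε : ℝ, 0 < ε → ∀ t : ℝ, 0 ≤ t → t < 1 →
      t * α * A - ε - (1 - t) * α * B ≤ L := by
    intro ε hε t ht0 ht1
    set θ := t * (α * B2)
    have hθ : θ < 1 :=
      (mul_le_of_le_one_right ht0 h1).trans_lt ht1
    set C := (2 * B) ^ 2 * (4 * (2 * Real.exp θ / (1 - Real.exp (θ - 1))))
    have hfl := fun a (ha : 0 ≤ a) =>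
      (tendsto_nat_floor_mul_div_atTop (R := ℝ) (a := a) ha).comp
        (tendsto_natCast_atTop_atTop (R := ℝ))
    have hlim : Tendsto (fun N : ℕ => (⌊t * α * (N:ℝ)⌋₊ : ℝ) / N * A - Real.log 2 / N - ε
        - ((⌊α * (N:ℝ)⌋₊ : ℝ) / N - (⌊t * α * (N:ℝ)⌋₊ : ℝ) / N) * B) atTop
        (𝓝 (t * α * A - ε - (1 - t) * α * B)) := by
      have := (((hfl (t * α) (by positivity)).mul_const A).sub
        (tendsto_const_div_atTop_nhds_zero_nat (Real.log 2))).sub_const ε |>.sub
          (((hfl α hα.le).sub (hfl (t * α) (by positivity))).mul_const B)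
      simp only [sub_zero] at this
      rw [show t * α * A - ε - (1 - t) * α * B = t * α * A - ε - (α - t * α) * B by ring]
      exact this
    refine le_of_tendsto_of_tendsto hlim hL ?_
    filter_upwards [eventually_ge_atTop 1,
      eventually_gt_atTop ⌈α * C / ε ^ 2⌉₊] with N hN hN2
    have hN' : (0 : ℝ) < N := by exact_mod_cast hN
    set m := ⌊t * α * (N:ℝ)⌋₊
    set M := ⌊α * (N:ℝ)⌋₊
    have hm : (m : ℝ) ≤ t * α * N := Nat.floor_le (by positivity)
    have hmM : (m : ℝ) ≤ M := by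
      exact_mod_cast Nat.floor_mono (mul_le_mul_of_nonneg_right
        (mul_le_of_le_one_left hα.le ht1.le) hN'.le)
    have hC : 0 ≤ C := by
      have : 0 < 1 - Real.exp (θ - 1) := by linarith [Real.exp_lt_one_iff.2 (by linarith : θ - 1 < 0)]
      positivity
    have hN2' : α * C / ε ^ 2 < N := Nat.lt_of_ceil_lt hN2
    rw [div_lt_iff₀ (by positivity)] at hN2'
    have h := press_ge_annealed c₀ hν hsupp (N := N) (M := m) hN hθ
      (by calc (m : ℝ) * B2 ≤ t * α * N * B2 := mul_le_mul_of_nonneg_right hm (sq_nonneg _)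
            _ = θ * N := by simp only [θ]; ring) hε
      (by
        calc (m : ℝ) * (2 * B) ^ 2 * (4 * (2 * Real.exp θ / (1 - Real.exp (θ - 1))))
            = m * C := by simp only [C]; ring
          _ ≤ α * N * C := mul_le_mul_of_nonneg_right
              (hm.trans (mul_le_mul_of_nonneg_right (mul_le_of_le_one_left hα.le ht1.le) hN'.le)) hC
          _ < (ε * N) ^ 2 := by nlinarith)
    have hc := press_count (μ := isingOn (Fin N)) (measurable_potential c₀ ν)
      (abs_potential_le c₀ ν hν) M m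
    rw [abs_of_nonneg (sub_nonneg.2 hmM)] at hc
    simp only [pressure_eq_press, isingMeasure_eq]
    rw [le_div_iff₀ hN']
    have e : ((m : ℝ) / N * A - Real.log 2 / N - ε - ((M : ℝ) / N - (m : ℝ) / N) * B) * N
        = m * A - Real.log 2 - ε * N - (M - m) * B := by field_simp
    rw [e]
    linarith
  have hB : 0 ≤ B := potBound_nonneg c₀ hν
  refine le_of_forall_sub_le fun ε hε => ?_
  set d := ε / (2 * (α * |A| + α * B + ε))
  have hden : 0 < 2 * (α * |A| + α * B + ε) := by positivity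
  have hd0 : 0 < d := div_pos hε hden
  have hd1 : d < 1 := by
    rw [div_lt_one hden]; nlinarith [abs_nonneg A]
  have := key (ε / 2) (by linarith) (1 - d) (by linarith) (by linarith)
  have hd : d * (α * |A| + α * B) ≤ ε / 2 := by
    have e : d * (α * |A| + α * B + ε) = ε / 2 := by simp only [d]; field_simp
    nlinarith
  nlinarith [mul_le_mul_of_nonneg_left (le_abs_self A) (mul_nonneg hd0.le hα.le)]

end Ising

end Vale.Agent.P157
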