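import Vale.Agent.P157.Kernel
import Mathlib.MeasureTheory.Measure.Tilted
import Mathlib.MeasureTheory.Constructions.Pi

/-!
The Guerra-type comparison: patterns seen by the joint system against patterns seen by one
randomly chosen block.
-/

open MeasureTheory ProbabilityTheory
open scoped BigOperators

namespace Vale.Agent.P157

/-- The log-potential `c₀ + log (1 - u)`. -/
noncomputable def potential (c₀ : ℝ) (ν : Measure ℝ) (t : ℝ) : ℝ :=
  c₀ + Real.log (1 - cosTr ν t)

/-- A uniform bound for `potential`. -/
noncomputable def potBound (c₀ : ℝ) (ν : Measure ℝ) : ℝ :=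
  |c₀| + -Real.log (1 - ν.real Set.univ)

lemma potBound_nonneg (c₀ : ℝ) {ν : Measure ℝ} (hν : ν.real Set.univ < 1) :
    0 ≤ potBound c₀ ν := by
  have h : Real.log (1 - ν.real Set.univ) ≤ 0 :=
    Real.log_nonpos (by linarith) (by linarith [measureReal_nonneg (μ := ν) (s := Set.univ)])
  unfold potBound
  linarith [abs_nonneg c₀]

lemma abs_potential_le (c₀ : ℝ) (ν : Measure ℝ) [IsFiniteMeasure ν] (hν : ν.real Set.univ < 1)
    (t : ℝ) : |potential c₀ ν t| ≤ potBound c₀ ν := by
  refine (abs_add_le _ _).trans (add_le_add le_rfl ?_)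
  have hu := abs_le.1 (abs_cosTr_le ν t)
  set m := ν.real Set.univ
  have hm0 : 0 ≤ m := measureReal_nonneg
  rw [abs_le]
  constructor
  · simpa using Real.log_le_log (by linarith) (by linarith : 1 - m ≤ 1 - cosTr ν t)
  · rw [← Real.log_inv]
    refine Real.log_le_log (by linarith) ?_
    rw [← one_div, le_div_iff₀ (by linarith)]
    nlinarith

@[fun_prop]
lemma measurable_potential (c₀ : ℝ) (ν : Measure ℝ) [IsFiniteMeasure ν] :
    Measurable (potential c₀ ν) := by
  unfold potential; fun_prop

/-- `log ∫ exp h`. -/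
noncomputable def logMean {X : Type*} [MeasurableSpace X] (μ : Measure X) (h : X → ℝ) : ℝ :=
  Real.log (∫ x, Real.exp (h x) ∂μ)

section LogMean

variable {X : Type*} [MeasurableSpace X] {μ : Measure X} [IsProbabilityMeasure μ] {h h' : X → ℝ}
  {B C : ℝ}

lemma integrable_exp_bdd (hm : Measurable h) (hb : ∀ x, |h x| ≤ B) :
    Integrable (fun x => Real.exp (h x)) μ :=
  Integrable.of_bound (by fun_prop) (Real.exp B) (ae_of_all _ fun x => by
    rw [Real.norm_eq_abs, Real.abs_exp]; exact Real.exp_le_exp.2 (abs_le.1 (hb x)).2)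

lemma integral_exp_pos' (hm : Measurable h) (hb : ∀ x, |h x| ≤ B) :
    0 < ∫ x, Real.exp (h x) ∂μ := by
  have : (∫ _x, Real.exp (-B) ∂μ) ≤ ∫ x, Real.exp (h x) ∂μ :=
    integral_mono (integrable_const _) (integrable_exp_bdd hm hb) fun x =>
      Real.exp_le_exp.2 (abs_le.1 (hb x)).1
  rw [integral_const, probReal_univ, one_smul] at this
  linarith [Real.exp_pos (-B)]

lemma logMean_mono_add (hm : Measurable h) (hb : ∀ x, |h x| ≤ B) (hm' : Measurable h')
    (hb' : ∀ x, |h' x| ≤ C) {d : ℝ} (hle : ∀ x, h x ≤ h' x + d) :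
    logMean μ h ≤ logMean μ h' + d := by
  unfold logMean
  rw [← Real.log_exp d, ← Real.log_mul (integral_exp_pos' hm' hb').ne' (Real.exp_ne_zero _),
    ← integral_mul_const]
  refine Real.log_le_log (integral_exp_pos' hm hb) (integral_mono (integrable_exp_bdd hm hb)
    ((integrable_exp_bdd hm' hb').mul_const _) fun x => ?_)
  simp only
  rw [← Real.exp_add]
  exact Real.exp_le_exp.2 (hle x)

lemma abs_logMean_le (hm : Measurable h) (hb : ∀ x, |h x| ≤ B) : |logMean μ h| ≤ B := by
  have h0 : logMean μ (fun _ : X => (0:ℝ)) = 0 := by simp [logMean]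
  have h1 := logMean_mono_add (μ := μ) (C := 0) hm hb measurable_const (by simp)
    (d := B) (h' := fun _ => 0) fun x => by linarith [(abs_le.1 (hb x)).2]
  have h2 := logMean_mono_add (μ := μ) (B := 0) measurable_const (by simp) hm hb
    (d := B) (h := fun _ => 0) fun x => by linarith [(abs_le.1 (hb x)).1]
  rw [abs_le]; constructor <;> linarith

end LogMean

variable {ι : Type*} [Fintype ι] {β : Type*} [Fintype β]

/-- Energy of a family of patterns. -/
noncomputable def energy (f : ℝ → ℝ) {M : ℕ} (cs : Fin M → ι → ℝ) (g : Fin M → ι → ℝ)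
    (x : ι → ℝ) : ℝ :=
  ∑ a, f (field (cs a) (g a) x)

/-- The Gaussian measure of `M` patterns. -/
noncomputable def patterns (ι : Type*) [Fintype ι] (M : ℕ) : Measure (Fin M → ι → ℝ) :=
  Measure.pi fun _ => gaussVec ι

instance (M : ℕ) : IsProbabilityMeasure (patterns ι M) := by unfold patterns; infer_instance

/-- Averaged log-partition function with base energy `h`. -/
noncomputable def pressureW (μ : Measure (ι → ℝ)) (f : ℝ → ℝ) {M : ℕ} (cs : Fin M → ι → ℝ)
    (h : (ι → ℝ) → ℝ) : ℝ :=
  ∫ g, logMean μ (fun x => h x + energy f cs g x) ∂patterns ι M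

variable {f : ℝ → ℝ} {B H : ℝ} {h : (ι → ℝ) → ℝ}

@[fun_prop]
lemma measurable_energy (hf : Measurable f) {M : ℕ} (cs : Fin M → ι → ℝ) :
    Measurable fun z : (Fin M → ι → ℝ) × (ι → ℝ) => energy f cs z.1 z.2 := by
  unfold energy field; fun_prop

lemma abs_energy_le (hf : ∀ t, |f t| ≤ B) {M : ℕ} (cs : Fin M → ι → ℝ) (g : Fin M → ι → ℝ)
    (x : ι → ℝ) : |energy f cs g x| ≤ M * B := by
  refine (Finset.abs_sum_le_sum_abs _ _).trans ((Finset.sum_le_sum fun a _ => hf _).trans ?_)
  simp

lemma abs_base_add_energy_le (hf : ∀ t, |f t| ≤ B) (hh : ∀ x, |h x| ≤ H) {M : ℕ}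
    (cs : Fin M → ι → ℝ) (g : Fin M → ι → ℝ) (x : ι → ℝ) :
    |h x + energy f cs g x| ≤ H + M * B :=
  (abs_add_le _ _).trans (add_le_add (hh x) (abs_energy_le hf cs g x))

variable {μ : Measure (ι → ℝ)} [IsProbabilityMeasure μ]

lemma measurable_base_add_energy (hf : Measurable f) (hh : Measurable h) {M : ℕ}
    (cs : Fin M → ι → ℝ) (g : Fin M → ι → ℝ) : Measurable fun x => h x + energy f cs g x := by
  unfold energy field; fun_prop

lemma measurable_logMean_param {Y : Type*} [MeasurableSpace Y] {F : Y → (ι → ℝ) → ℝ}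
    (hF : Measurable fun z : Y × (ι → ℝ) => F z.1 z.2) :
    Measurable fun y => logMean μ (F y) :=
  Real.measurable_log.comp (StronglyMeasurable.integral_prod_right
    (f := fun y x => Real.exp (F y x))
    (by exact (Real.measurable_exp.comp hF).stronglyMeasurable)).measurable

lemma integrable_logMean_energy (hf : Measurable f) (hfb : ∀ t, |f t| ≤ B) (hh : Measurable h)
    (hhb : ∀ x, |h x| ≤ H) {M : ℕ} (cs : Fin M → ι → ℝ) :
    Integrable (fun g => logMean μ (fun x => h x + energy f cs g x)) (patterns ι M) := by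
  refine Integrable.of_bound (measurable_logMean_param (by fun_prop)).aestronglyMeasurable
    (H + M * B) (ae_of_all _ fun g => ?_)
  rw [Real.norm_eq_abs]
  exact abs_logMean_le (measurable_base_add_energy hf hh cs g) (abs_base_add_energy_le hfb hhb cs g)

lemma energy_cons (f : ℝ → ℝ) {M : ℕ} (c0 : ι → ℝ) (cs : Fin M → ι → ℝ) (g0 : ι → ℝ)
    (g : Fin M → ι → ℝ) (x : ι → ℝ) :
    energy f (Fin.cons c0 cs : Fin (M + 1) → ι → ℝ) (Fin.cons g0 g : Fin (M + 1) → ι → ℝ) x
      = f (field c0 g0 x) + energy f cs g x := by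
  simp [energy, Fin.sum_univ_succ]

/-- Peeling off the first pattern, in both orders of integration. -/
lemma pressureW_cons (hf : Measurable f) (hfb : ∀ t, |f t| ≤ B) (hh : Measurable h)
    (hhb : ∀ x, |h x| ≤ H) {M : ℕ} (c0 : ι → ℝ) (cs : Fin M → ι → ℝ) :
    pressureW μ f (Fin.cons c0 cs : Fin (M + 1) → ι → ℝ) h
        = ∫ g0, pressureW μ f cs (fun x => h x + f (field c0 g0 x)) ∂gaussVec ι ∧
      pressureW μ f (Fin.cons c0 cs : Fin (M + 1) → ι → ℝ) h
        = ∫ g, (∫ g0, logMean μ (fun x => (h x + energy f cs g x) + f (field c0 g0 x))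
            ∂gaussVec ι) ∂patterns ι M := by
  have hmp := (measurePreserving_piFinSuccAbove (fun _ : Fin (M + 1) => gaussVec ι) 0).symm
  set F : (ι → ℝ) × (Fin M → ι → ℝ) → ℝ :=
    fun z => logMean μ (fun x => (h x + energy f cs z.2 x) + f (field c0 z.1 x))
  have hF : Integrable F ((gaussVec ι).prod (patterns ι M)) := by
    refine Integrable.of_bound (measurable_logMean_param
      (by unfold energy field; fun_prop)).aestronglyMeasurable (H + M * B + B)
      (ae_of_all _ fun z => ?_)
    rw [Real.norm_eq_abs]
    refine abs_logMean_le (by unfold energy field; fun_prop) fun x => ?_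
    exact (abs_add_le _ _).trans (add_le_add (abs_base_add_energy_le hfb hhb cs z.2 x) (hfb _))
  have e : pressureW μ f (Fin.cons c0 cs : Fin (M + 1) → ι → ℝ) h
      = ∫ z, F z ∂(gaussVec ι).prod (patterns ι M) := by
    rw [pressureW, patterns, ← hmp.integral_comp']
    refine integral_congr_ae (ae_of_all _ fun z => ?_)
    simp only [F, MeasurableEquiv.piFinSuccAbove_symm_apply]
    congr 1; funext x
    rw [show ((Fin.insertNthEquiv (fun _ : Fin (M + 1) => ι → ℝ) 0) z)
        = (Fin.cons z.1 z.2 : Fin (M + 1) → ι → ℝ) from Fin.insertNth_zero' z.1 z.2, energy_cons]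
    ring
  refine ⟨?_, by rw [e, integral_prod_symm _ hF]⟩
  rw [e, integral_prod _ hF]
  refine integral_congr_ae (ae_of_all _ fun g0 => ?_)
  refine integral_congr_ae (ae_of_all _ fun g => ?_)
  simp only [F]
  congr 1; funext x; ring

section OnePattern

variable (c₀ : ℝ) (ν : Measure ℝ) [IsFiniteMeasure ν]

lemma logMean_add_potential (hν : ν.real Set.univ < 1) (hh : Measurable h)
    (hhb : ∀ x, |h x| ≤ H) (c g : ι → ℝ) :
    logMean μ (fun x => h x + potential c₀ ν (field c g x))
      = logMean μ h + c₀ + Real.log (1 - ∫ x, cosTr ν (field c g x) ∂μ.tilted h) := by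
  have hpos := integral_exp_pos' (μ := μ) hh hhb
  have : IsProbabilityMeasure (μ.tilted h) :=
    isProbabilityMeasure_tilted (integrable_exp_bdd hh hhb)
  have hu : Measurable fun x => cosTr ν (field c g x) :=
    (measurable_cosTr ν).comp (by unfold field; fun_prop)
  have hi : Integrable (fun x => cosTr ν (field c g x)) (μ.tilted h) :=
    Integrable.of_bound hu.aestronglyMeasurable (ν.real Set.univ)
      (ae_of_all _ fun x => by simpa using abs_cosTr_le ν _)
  have h1 : (1 : ℝ) - ∫ x, cosTr ν (field c g x) ∂μ.tilted h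
      = ∫ x, (1 - cosTr ν (field c g x)) ∂μ.tilted h := by
    rw [integral_sub (integrable_const _) hi, integral_const, probReal_univ, one_smul]
  have hlt : 0 < 1 - ∫ x, cosTr ν (field c g x) ∂μ.tilted h := by
    linarith [(abs_le.1 (abs_gibbs_cosTr_le ν (μ.tilted h) c g)).2]
  have key : ∫ x, Real.exp (h x + potential c₀ ν (field c g x)) ∂μ
      = (∫ x, Real.exp (h x) ∂μ) * Real.exp c₀
        * (1 - ∫ x, cosTr ν (field c g x) ∂μ.tilted h) := by
    rw [h1, integral_tilted, ← integral_const_mul]
    refine integral_congr_ae (ae_of_all _ fun x => ?_)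
    have : 0 < 1 - cosTr ν (field c g x) := by linarith [(abs_le.1 (abs_cosTr_le ν (field c g x))).2]
    simp only [potential, Real.exp_add, Real.exp_log this, smul_eq_mul]
    field_simp
  unfold logMean
  rw [key, Real.log_mul (mul_pos hpos (Real.exp_pos _)).ne' hlt.ne',
    Real.log_mul hpos.ne' (Real.exp_ne_zero _), Real.log_exp]

lemma integral_logMean_add_potential (hν : ν.real Set.univ < 1) (hh : Measurable h)
    (hhb : ∀ x, |h x| ≤ H) (c : ι → ℝ) :
    ∫ g, logMean μ (fun x => h x + potential c₀ ν (field c g x)) ∂gaussVec ι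
      = logMean μ h + c₀
        + ∫ g, Real.log (1 - ∫ x, cosTr ν (field c g x) ∂μ.tilted h) ∂gaussVec ι := by
  have : IsProbabilityMeasure (μ.tilted h) :=
    isProbabilityMeasure_tilted (integrable_exp_bdd hh hhb)
  simp_rw [logMean_add_potential c₀ ν hν hh hhb c]
  rw [integral_add (integrable_const _), integral_const, probReal_univ, one_smul]
  refine Integrable.of_bound (Real.measurable_log.comp (measurable_const.sub
    (StronglyMeasurable.integral_prod_right (f := fun g x => cosTr ν (field c g x))
      (by exact ((measurable_cosTr ν).comp (by unfold field; fun_prop)).stronglyMeasurable)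
      ).measurable)).aestronglyMeasurable (-Real.log (1 - ν.real Set.univ))
    (ae_of_all _ fun g => ?_)
  simp only [Function.comp_apply, Real.norm_eq_abs, Pi.sub_apply]
  have hu := abs_le.1 (abs_gibbs_cosTr_le ν (μ.tilted h) c g)
  have hm0 : 0 ≤ ν.real Set.univ := measureReal_nonneg
  rw [abs_le]
  constructor
  · simpa using Real.log_le_log (by linarith) (by linarith :
      1 - ν.real Set.univ ≤ 1 - ∫ x, cosTr ν (field c g x) ∂μ.tilted h)
  · rw [← Real.log_inv]
    refine Real.log_le_log (by linarith) ?_
    rw [← one_div, le_div_iff₀ (by linarith)]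
    nlinarith

/-- One pattern, joint against blocks. -/
lemma pattern_convex (hν : ν.real Set.univ < 1) (hh : Measurable h)
    (hhb : ∀ x, |h x| ≤ H) (c : ι → ℝ) (cb : β → ι → ℝ) (w : β → ℝ) (hw0 : ∀ b, 0 ≤ w b)
    (hw1 : ∑ b, w b = 1) (hc : ∀ j, c j ^ 2 = ∑ b, w b * cb b j ^ 2) :
    ∑ b, w b * ∫ g, logMean μ (fun x => h x + potential c₀ ν (field (cb b) g x)) ∂gaussVec ι
      ≤ ∫ g, logMean μ (fun x => h x + potential c₀ ν (field c g x)) ∂gaussVec ι := by
  have : IsProbabilityMeasure (μ.tilted h) :=
    isProbabilityMeasure_tilted (integrable_exp_bdd hh hhb)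
  simp_rw [integral_logMean_add_potential c₀ ν hν hh hhb, mul_add, Finset.sum_add_distrib,
    ← Finset.sum_mul, hw1, one_mul]
  linarith [log_one_sub_convex ν hν (μ.tilted h) c cb w hw0 hw1 hc]

/-- One pattern, rescaled weights. -/
lemma pattern_scale (hν : ν.real Set.univ < 1) (hh : Measurable h)
    (hhb : ∀ x, |h x| ≤ H) (c : ι → ℝ) (r : ℝ) :
    |(∫ g, logMean μ (fun x => h x + potential c₀ ν (field (fun j => r * c j) g x)) ∂gaussVec ι)
        - ∫ g, logMean μ (fun x => h x + potential c₀ ν (field c g x)) ∂gaussVec ι|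
      ≤ 2 * |r ^ 2 - 1| * potBound c₀ ν := by
  have : IsProbabilityMeasure (μ.tilted h) :=
    isProbabilityMeasure_tilted (integrable_exp_bdd hh hhb)
  simp_rw [integral_logMean_add_potential c₀ ν hν hh hhb, add_sub_add_left_eq_sub]
  refine (log_one_sub_scale ν hν (μ.tilted h) c r).trans ?_
  refine mul_le_mul_of_nonneg_left ?_ (by positivity)
  unfold potBound
  linarith [abs_nonneg c₀]

/-- Guerra-type comparison for all patterns at once. -/
lemma hybrid (hν : ν.real Set.univ < 1) (c : ι → ℝ) (cb : β → ι → ℝ) (w : β → ℝ)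
    (hw0 : ∀ b, 0 ≤ w b) (hw1 : ∑ b, w b = 1) (hc : ∀ j, c j ^ 2 = ∑ b, w b * cb b j ^ 2) :
    ∀ (M : ℕ) (h : (ι → ℝ) → ℝ) (H : ℝ), Measurable h → (∀ x, |h x| ≤ H) →
      ∑ τ : Fin M → β, (∏ a, w (τ a)) * pressureW μ (potential c₀ ν) (fun a => cb (τ a)) h
        ≤ pressureW μ (potential c₀ ν) (fun _ : Fin M => c) h := by
  have hf := measurable_potential c₀ ν
  have hfb := abs_potential_le c₀ ν hν
  intro M
  induction M with
  | zero =>
    intro h H _ _
    simp only [Fintype.sum_unique, Finset.univ_eq_empty, Finset.prod_empty, one_mul]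
    exact le_of_eq (congrArg (fun cs => pressureW μ _ cs h) (Subsingleton.elim _ _))
  | succ M ih =>
    intro h H hh hhb
    have ec : (fun _ : Fin (M + 1) => c) = Fin.cons c (fun _ : Fin M => c) := by
      funext a; refine Fin.cases ?_ (fun i => ?_) a <;> simp
    have hm : ∀ g0 : ι → ℝ, Measurable fun x => h x + potential c₀ ν (field c g0 x) :=
      fun g0 => by unfold field; fun_prop
    have hb : ∀ (g0 x : ι → ℝ), |h x + potential c₀ ν (field c g0 x)| ≤ H + potBound c₀ ν :=
      fun g0 x => (abs_add_le _ _).trans (add_le_add (hhb x) (hfb _))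
    -- integrability in the first pattern
    have hint : ∀ cs : Fin M → ι → ℝ, Integrable (fun g0 =>
        pressureW μ (potential c₀ ν) cs (fun x => h x + potential c₀ ν (field c g0 x)))
        (gaussVec ι) := by
      intro cs
      refine Integrable.of_bound ?_ (H + potBound c₀ ν + M * potBound c₀ ν)
        (ae_of_all _ fun g0 => ?_)
      · unfold pressureW
        exact (StronglyMeasurable.integral_prod_right
          (f := fun g0 g => logMean μ
            (fun x => h x + potential c₀ ν (field c g0 x) + energy (potential c₀ ν) cs g x))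
          (by exact (measurable_logMean_param
            (by unfold energy field; fun_prop)).stronglyMeasurable)).aestronglyMeasurable
      · refine (norm_integral_le_of_norm_le_const (C := H + potBound c₀ ν + M * potBound c₀ ν)
          (ae_of_all _ fun g => ?_)).trans (by simp)
        rw [Real.norm_eq_abs]
        exact abs_logMean_le (measurable_base_add_energy hf (hm g0) cs g)
          (abs_base_add_energy_le hfb (hb g0) cs g)
    rw [ec, (pressureW_cons hf hfb hh hhb _ _).1]
    have step1 : ∑ τ : Fin M → β, (∏ a, w (τ a))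
          * pressureW μ (potential c₀ ν) (Fin.cons c (fun a => cb (τ a)) : Fin (M + 1) → ι → ℝ) h
        ≤ ∫ g0, pressureW μ (potential c₀ ν) (fun _ : Fin M => c)
            (fun x => h x + potential c₀ ν (field c g0 x)) ∂gaussVec ι := by
      calc _ = ∫ g0, ∑ τ : Fin M → β, (∏ a, w (τ a)) * pressureW μ (potential c₀ ν)
              (fun a => cb (τ a)) (fun x => h x + potential c₀ ν (field c g0 x)) ∂gaussVec ι := by
            rw [integral_finsetSum _ fun τ _ => (hint _).const_mul _]
            simp_rw [integral_const_mul, (pressureW_cons hf hfb hh hhb _ _).1]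
        _ ≤ _ := integral_mono (integrable_finsetSum _ fun τ _ => (hint _).const_mul _) (hint _)
            fun g0 => ih _ _ (hm g0) (hb g0)
    refine le_trans ?_ step1
    rw [← (Fin.consEquiv fun _ : Fin (M + 1) => β).sum_comp, Fintype.sum_prod_type,
      Finset.sum_comm]
    refine Finset.sum_le_sum fun τ _ => ?_
    have hcons : ∀ b, (fun a => cb ((Fin.cons b τ : Fin (M + 1) → β) a))
        = (Fin.cons (cb b) (fun a => cb (τ a)) : Fin (M + 1) → ι → ℝ) := fun b => by
      funext a; refine Fin.cases ?_ (fun i => ?_) a <;> simp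
    simp only [Fin.consEquiv_apply, Fin.prod_univ_succ, Fin.cons_zero, Fin.cons_succ, hcons]
    simp_rw [mul_comm (w _) (∏ a, w (τ a)), mul_assoc, ← Finset.mul_sum]
    refine mul_le_mul_of_nonneg_left ?_ (Finset.prod_nonneg fun a _ => hw0 _)
    have hin : ∀ d : ι → ℝ, Integrable (fun g : Fin M → ι → ℝ => ∫ g0, logMean μ
        (fun x => (h x + energy (potential c₀ ν) (fun a => cb (τ a)) g x)
          + potential c₀ ν (field d g0 x)) ∂gaussVec ι) (patterns ι M) := by
      intro d
      refine Integrable.of_bound ?_ (H + M * potBound c₀ ν + potBound c₀ ν)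
        (ae_of_all _ fun g => ?_)
      · exact (StronglyMeasurable.integral_prod_right
          (f := fun g g0 => logMean μ (fun x => (h x
            + energy (potential c₀ ν) (fun a => cb (τ a)) g x) + potential c₀ ν (field d g0 x)))
          (by exact (measurable_logMean_param
            (by unfold energy field; fun_prop)).stronglyMeasurable)).aestronglyMeasurable
      · refine (norm_integral_le_of_norm_le_const (C := H + M * potBound c₀ ν + potBound c₀ ν)
          (ae_of_all _ fun g0 => ?_)).trans (by simp)
        rw [Real.norm_eq_abs]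
        exact abs_logMean_le (by unfold energy field; fun_prop) fun x =>
          (abs_add_le _ _).trans (add_le_add (abs_base_add_energy_le hfb hhb _ g x) (hfb _))
    simp only [fun d => (pressureW_cons (μ := μ) hf hfb hh hhb d (fun a => cb (τ a))).2]
    calc _ = ∫ g, ∑ b, w b * ∫ g0, logMean μ (fun x =>
            (h x + energy (potential c₀ ν) (fun a => cb (τ a)) g x)
              + potential c₀ ν (field (cb b) g0 x)) ∂gaussVec ι ∂patterns ι M := by
          rw [integral_finsetSum _ fun b _ => (hin _).const_mul _]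
          simp only [integral_const_mul]
      _ ≤ _ := ?_
    refine integral_mono (integrable_finsetSum _ fun b _ => (hin _).const_mul _) (hin _) fun g => ?_
    exact pattern_convex c₀ ν hν (measurable_base_add_energy hf hh _ g)
      (abs_base_add_energy_le hfb hhb _ g) c cb w hw0 hw1 hc

/-- Rescaled weights, all patterns at once. -/
lemma pressureW_scale (hν : ν.real Set.univ < 1) (r : ℝ) :
    ∀ (M : ℕ) (cs : Fin M → ι → ℝ) (h : (ι → ℝ) → ℝ) (H : ℝ), Measurable h → (∀ x, |h x| ≤ H) →
      |pressureW μ (potential c₀ ν) (fun a j => r * cs a j) h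
          - pressureW μ (potential c₀ ν) cs h| ≤ M * (2 * |r ^ 2 - 1| * potBound c₀ ν) := by
  have hf := measurable_potential c₀ ν
  have hfb := abs_potential_le c₀ ν hν
  intro M
  induction M with
  | zero =>
    intro cs h H _ _
    rw [show (fun (a : Fin 0) j => r * cs a j) = cs from Subsingleton.elim _ _]; simp
  | succ M ih =>
    intro cs h H hh hhb
    set K := 2 * |r ^ 2 - 1| * potBound c₀ ν
    obtain ⟨c1, cs', rfl⟩ : ∃ c1 cs', (Fin.cons c1 cs' : Fin (M + 1) → ι → ℝ) = cs :=
      ⟨cs 0, Fin.tail cs, Fin.cons_self_tail cs⟩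
    have e : (fun a j => r * (Fin.cons c1 cs' : Fin (M + 1) → ι → ℝ) a j)
        = (Fin.cons (fun j => r * c1 j) (fun a j => r * cs' a j) : Fin (M + 1) → ι → ℝ) := by
      funext a; refine Fin.cases ?_ (fun i => ?_) a <;> simp
    rw [e]
    -- change the tail, then the head
    have tail : |pressureW μ (potential c₀ ν) (Fin.cons (fun j => r * c1 j) (fun a j => r * cs' a j)
          : Fin (M + 1) → ι → ℝ) h
        - pressureW μ (potential c₀ ν) (Fin.cons (fun j => r * c1 j) cs' : Fin (M + 1) → ι → ℝ) h|
        ≤ M * K := by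
      have hi : ∀ cc : Fin M → ι → ℝ, Integrable (fun g0 => pressureW μ (potential c₀ ν) cc
          (fun x => h x + potential c₀ ν (field (fun j => r * c1 j) g0 x))) (gaussVec ι) := by
        intro cc
        refine Integrable.of_bound ?_ (H + potBound c₀ ν + M * potBound c₀ ν)
          (ae_of_all _ fun g0 => ?_)
        · unfold pressureW
          exact (StronglyMeasurable.integral_prod_right
            (f := fun g0 g => logMean μ (fun x => h x
              + potential c₀ ν (field (fun j => r * c1 j) g0 x) + energy (potential c₀ ν) cc g x))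
            (by exact (measurable_logMean_param
              (by unfold energy field; fun_prop)).stronglyMeasurable)).aestronglyMeasurable
        · refine (norm_integral_le_of_norm_le_const (C := H + potBound c₀ ν + M * potBound c₀ ν)
            (ae_of_all _ fun g => ?_)).trans (by simp)
          rw [Real.norm_eq_abs]
          exact abs_logMean_le (by unfold energy field; fun_prop) fun x =>
            abs_base_add_energy_le (h := fun y => h y + potential c₀ ν (field (fun j => r * c1 j) g0 y))
              hfb (fun y => (abs_add_le _ _).trans (add_le_add (hhb y) (hfb _))) cc g x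
      rw [(pressureW_cons hf hfb hh hhb _ _).1, (pressureW_cons hf hfb hh hhb _ _).1,
        ← integral_sub (hi _) (hi _), ← Real.norm_eq_abs]
      refine (norm_integral_le_of_norm_le_const (C := M * K) (ae_of_all _ fun g0 => ?_)).trans
        (by simp)
      rw [Real.norm_eq_abs]
      exact ih cs' _ _ (by unfold field; fun_prop)
        (fun x => (abs_add_le _ _).trans (add_le_add (hhb x) (hfb _)))
    have head : |pressureW μ (potential c₀ ν) (Fin.cons (fun j => r * c1 j) cs' : Fin (M + 1) → ι → ℝ) h
        - pressureW μ (potential c₀ ν) (Fin.cons c1 cs' : Fin (M + 1) → ι → ℝ) h| ≤ K := by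
      have hin : ∀ d : ι → ℝ, Integrable (fun g : Fin M → ι → ℝ => ∫ g0, logMean μ
          (fun x => (h x + energy (potential c₀ ν) cs' g x)
            + potential c₀ ν (field d g0 x)) ∂gaussVec ι) (patterns ι M) := by
        intro d
        refine Integrable.of_bound ?_ (H + M * potBound c₀ ν + potBound c₀ ν)
          (ae_of_all _ fun g => ?_)
        · exact (StronglyMeasurable.integral_prod_right
            (f := fun g g0 => logMean μ (fun x => (h x + energy (potential c₀ ν) cs' g x)
              + potential c₀ ν (field d g0 x)))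
            (by exact (measurable_logMean_param
              (by unfold energy field; fun_prop)).stronglyMeasurable)).aestronglyMeasurable
        · refine (norm_integral_le_of_norm_le_const (C := H + M * potBound c₀ ν + potBound c₀ ν)
            (ae_of_all _ fun g0 => ?_)).trans (by simp)
          rw [Real.norm_eq_abs]
          exact abs_logMean_le (by unfold energy field; fun_prop) fun x =>
            (abs_add_le _ _).trans (add_le_add (abs_base_add_energy_le hfb hhb _ g x) (hfb _))
      rw [(pressureW_cons hf hfb hh hhb _ _).2, (pressureW_cons hf hfb hh hhb _ _).2,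
        ← integral_sub (hin _) (hin _), ← Real.norm_eq_abs]
      refine (norm_integral_le_of_norm_le_const (C := K) (ae_of_all _ fun g => ?_)).trans (by simp)
      rw [Real.norm_eq_abs]
      exact pattern_scale c₀ ν hν (measurable_base_add_energy hf hh _ g)
        (abs_base_add_energy_le hfb hhb _ g) c1 r
    have := abs_add_le
      (pressureW μ (potential c₀ ν) (Fin.cons (fun j => r * c1 j) (fun a j => r * cs' a j)
          : Fin (M + 1) → ι → ℝ) h
        - pressureW μ (potential c₀ ν) (Fin.cons (fun j => r * c1 j) cs' : Fin (M + 1) → ι → ℝ) h)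
      (pressureW μ (potential c₀ ν) (Fin.cons (fun j => r * c1 j) cs' : Fin (M + 1) → ι → ℝ) h
        - pressureW μ (potential c₀ ν) (Fin.cons c1 cs' : Fin (M + 1) → ι → ℝ) h)
    rw [sub_add_sub_cancel] at this
    push_cast
    linarith

end OnePattern

end Vale.Agent.P157
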