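import Mathlib.Probability.Distributions.Gaussian.Real
import Mathlib.MeasureTheory.Integral.Pi
import Mathlib.Analysis.SpecialFunctions.Log.Deriv
import Mathlib.Analysis.Convex.SpecificFunctions.Basic

/-!
One pattern: for a potential `log (1 - u)`, `u` the cosine transform of a finite measure of mass
`< 1`, the Gaussian average of `log ∫ (1 - u (field))` is convex in the field covariance.
-/

open MeasureTheory ProbabilityTheory Complex
open scoped BigOperators

namespace Vale.Agent.P157

variable {ι : Type*} [Fintype ι] {β : Type*} [Fintype β]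

/-- i.i.d. standard Gaussian vector. -/
noncomputable def gaussVec (ι : Type*) [Fintype ι] : Measure (ι → ℝ) :=
  Measure.pi fun _ => gaussianReal 0 1

instance : IsProbabilityMeasure (gaussVec ι) := by unfold gaussVec; infer_instance

/-- The field of the pattern `g` at configuration `x`, with coordinate weights `c`. -/
def field (c g x : ι → ℝ) : ℝ := ∑ j, g j * (c j * x j)

/-- Cosine transform. -/
noncomputable def cosTr (ν : Measure ℝ) (t : ℝ) : ℝ := ∫ ξ, Real.cos (ξ * t) ∂ν

/-- Symmetrisation of a measure on the line. -/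
noncomputable def symm2 (ν : Measure ℝ) : Measure ℝ :=
  (2⁻¹ : NNReal) • (ν + ν.map fun ξ => -ξ)

instance (ν : Measure ℝ) [IsFiniteMeasure ν] : IsFiniteMeasure (symm2 ν) := by
  unfold symm2; infer_instance

lemma symm2_real_univ (ν : Measure ℝ) [IsFiniteMeasure ν] :
    (symm2 ν).real Set.univ = ν.real Set.univ := by
  have h : (ν.map fun ξ => -ξ) Set.univ = ν Set.univ := by
    rw [Measure.map_apply (by fun_prop) MeasurableSet.univ, Set.preimage_univ]
  simp [symm2, measureReal_def, h, ENNReal.smul_def, ← add_mul, ENNReal.inv_two_add_inv_two]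

lemma integrable_cexp_mul {α : Type*} [MeasurableSpace α] (m : Measure α) [IsFiniteMeasure m]
    {h : α → ℝ} (hh : Measurable h) : Integrable (fun a => cexp ((h a : ℝ) * I)) m := by
  refine Integrable.of_bound (by fun_prop) 1 (ae_of_all _ fun a => ?_)
  simp [Complex.norm_exp_ofReal_mul_I]

lemma integral_symm2 (ν : Measure ℝ) [IsFiniteMeasure ν] (t : ℝ) :
    ∫ ξ, cexp ((ξ * t : ℝ) * I) ∂symm2 ν = (cosTr ν t : ℂ) := by
  have hi : ∀ m : Measure ℝ, IsFiniteMeasure m → Integrable (fun ξ => cexp ((ξ * t : ℝ) * I)) m :=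
    fun m hm => integrable_cexp_mul m (by fun_prop)
  have hneg : Integrable (fun ξ => cexp ((-ξ * t : ℝ) * I)) ν :=
    integrable_cexp_mul ν (by fun_prop)
  rw [symm2, integral_smul_nnreal_measure, integral_add_measure (hi _ inferInstance)
    (hi _ inferInstance), integral_map (by fun_prop) (by fun_prop),
    ← integral_add (hi _ inferInstance) hneg, NNReal.smul_def, Complex.real_smul,
    ← integral_const_mul, cosTr, ← integral_complex_ofReal]
  refine integral_congr_ae (ae_of_all _ fun ξ => ?_)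
  push_cast
  rw [Complex.cos]
  ring

lemma abs_cosTr_le (ν : Measure ℝ) [IsFiniteMeasure ν] (t : ℝ) :
    |cosTr ν t| ≤ ν.real Set.univ := by
  simpa [cosTr] using norm_integral_le_of_norm_le_const (μ := ν)
    (f := fun ξ => Real.cos (ξ * t)) (C := 1) (ae_of_all _ fun ξ => by
      simpa using Real.abs_cos_le_one _)

lemma continuous_cosTr (ν : Measure ℝ) [IsFiniteMeasure ν] : Continuous (cosTr ν) := by
  refine continuous_of_dominated (bound := fun _ => 1) ?_ ?_ (integrable_const _) ?_
  · intro t; exact (by fun_prop)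
  · intro t; exact ae_of_all _ fun ξ => by simpa using Real.abs_cos_le_one _
  · exact ae_of_all _ fun ξ => by fun_prop

@[fun_prop]
lemma measurable_cosTr (ν : Measure ℝ) [IsFiniteMeasure ν] : Measurable (cosTr ν) :=
  (continuous_cosTr ν).measurable

lemma gauss_cexp (w : ι → ℝ) :
    ∫ g, cexp ((∑ j, g j * w j : ℝ) * I) ∂gaussVec ι
      = (Real.exp (-(∑ j, w j ^ 2) / 2) : ℂ) := by
  have h1 : ∀ g : ι → ℝ, cexp ((∑ j, g j * w j : ℝ) * I)
      = ∏ j, cexp ((w j : ℂ) * (g j : ℂ) * I) := by
    intro g; rw [← Complex.exp_sum]; congr 1; push_cast; rw [Finset.sum_mul]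
    exact Finset.sum_congr rfl fun j _ => by ring
  simp_rw [h1, gaussVec]
  rw [integral_fintype_prod_eq_prod (f := fun j (x : ℝ) => cexp ((w j : ℂ) * (x : ℂ) * I))]
  simp_rw [← charFun_apply_real, charFun_gaussianReal]
  rw [← Complex.exp_sum, Complex.ofReal_exp]
  congr 1
  simp [Finset.sum_div, neg_div]

/-- Squared length of the weighted combination of replicas. -/
def quad (c : ι → ℝ) {n : ℕ} (p : Fin n → (ι → ℝ) × ℝ) : ℝ :=
  ∑ j, (∑ a, (p a).2 * (c j * (p a).1 j)) ^ 2

/-- Gaussian average of the `n`-th power of the Gibbs average of `u (field)`. -/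
noncomputable def moment (ν : Measure ℝ) (G : Measure (ι → ℝ)) (c : ι → ℝ) (n : ℕ) : ℝ :=
  ∫ g, (∫ x, cosTr ν (field c g x) ∂G) ^ n ∂gaussVec ι

lemma moment_eq (ν : Measure ℝ) [IsFiniteMeasure ν] (G : Measure (ι → ℝ))
    [IsProbabilityMeasure G] (c : ι → ℝ) (n : ℕ) :
    moment ν G c n = ∫ p : Fin n → (ι → ℝ) × ℝ, Real.exp (-quad c p / 2)
      ∂Measure.pi fun _ => G.prod (symm2 ν) := by
  set P := Measure.pi fun _ : Fin n => G.prod (symm2 ν)
  have hp : ∀ g : ι → ℝ, (((∫ x, cosTr ν (field c g x) ∂G) ^ n : ℝ) : ℂ)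
      = ∫ p, cexp ((∑ j, g j * (∑ a, (p a).2 * (c j * (p a).1 j)) : ℝ) * I) ∂P := by
    intro g
    push_cast
    rw [← integral_complex_ofReal]
    simp_rw [← integral_symm2]
    rw [← integral_prod (fun z : (ι → ℝ) × ℝ => cexp ((z.2 * field c g z.1 : ℝ) * I))
      (integrable_cexp_mul _ (by unfold field; fun_prop))]
    have := integral_fintype_prod_eq_pow (ι := Fin n) (μ := G.prod (symm2 ν))
      (fun z : (ι → ℝ) × ℝ => cexp ((z.2 * field c g z.1 : ℝ) * I))
    rw [Fintype.card_fin] at this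
    rw [← this]
    refine integral_congr_ae (ae_of_all _ fun p => ?_)
    simp only [← Complex.exp_sum, ← Finset.sum_mul, ← Complex.ofReal_sum]
    congr 1
    congr 1
    have : ∑ a, (p a).2 * field c g (p a).1
        = ∑ j, g j * ∑ a, (p a).2 * (c j * (p a).1 j) := by
      simp only [field, Finset.mul_sum]
      rw [Finset.sum_comm]
      exact Finset.sum_congr rfl fun j _ => Finset.sum_congr rfl fun a _ => by ring
    rw [this]
    push_cast
    rfl
  apply Complex.ofReal_injective
  rw [moment, ← integral_complex_ofReal, ← integral_complex_ofReal]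
  simp_rw [hp]
  rw [integral_integral_swap]
  · refine integral_congr_ae (ae_of_all _ fun p => ?_)
    simp only [gauss_cexp, quad]
  · exact integrable_cexp_mul _
      (h := fun z : (ι → ℝ) × (Fin n → (ι → ℝ) × ℝ) =>
        ∑ j, z.1 j * (∑ a, (z.2 a).2 * (c j * (z.2 a).1 j))) (by fun_prop)

lemma integrable_exp_quad (ν : Measure ℝ) [IsFiniteMeasure ν] (G : Measure (ι → ℝ))
    [IsProbabilityMeasure G] (c : ι → ℝ) (n : ℕ) :
    Integrable (fun p : Fin n → (ι → ℝ) × ℝ => Real.exp (-quad c p / 2))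
      (Measure.pi fun _ => G.prod (symm2 ν)) := by
  refine Integrable.of_bound (by unfold quad; fun_prop) 1 (ae_of_all _ fun p => ?_)
  rw [Real.norm_eq_abs, Real.abs_exp]
  refine Real.exp_le_one_iff.2 ?_
  have : 0 ≤ quad c p := Finset.sum_nonneg fun j _ => sq_nonneg _
  linarith

/-- Convexity: the overlap of a weighted sum of covariances. -/
lemma moment_convex (ν : Measure ℝ) [IsFiniteMeasure ν] (G : Measure (ι → ℝ))
    [IsProbabilityMeasure G] (c : ι → ℝ) (cb : β → ι → ℝ) (w : β → ℝ) (hw0 : ∀ b, 0 ≤ w b)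
    (hw1 : ∑ b, w b = 1) (hc : ∀ j, c j ^ 2 = ∑ b, w b * cb b j ^ 2) (n : ℕ) :
    moment ν G c n ≤ ∑ b, w b * moment ν G (cb b) n := by
  simp_rw [moment_eq, ← integral_const_mul]
  rw [← integral_finsetSum _ fun b _ => (integrable_exp_quad ν G (cb b) n).const_mul (w b)]
  refine integral_mono (integrable_exp_quad ν G c n)
    (integrable_finsetSum _ fun b _ => (integrable_exp_quad ν G (cb b) n).const_mul (w b)) fun p => ?_
  have hq : -quad c p / 2 = ∑ b, w b • (-quad (cb b) p / 2) := by
    have : quad c p = ∑ b, w b * quad (cb b) p := by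
      simp only [quad, Finset.mul_sum]
      rw [Finset.sum_comm]
      refine Finset.sum_congr rfl fun j _ => ?_
      have e : ∀ d : ι → ℝ, (∑ a, (p a).2 * (d j * (p a).1 j))
          = d j * ∑ a, (p a).2 * (p a).1 j := fun d => by
        rw [Finset.mul_sum]; exact Finset.sum_congr rfl fun a _ => by ring
      simp only [e, mul_pow, hc j, Finset.sum_mul]
      exact Finset.sum_congr rfl fun b _ => by ring
    rw [this]
    simp only [smul_eq_mul, ← Finset.sum_neg_distrib, Finset.sum_div]
    exact Finset.sum_congr rfl fun b _ => by ring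
  simp only [hq]
  exact convexOn_exp.map_sum_le (fun b _ => hw0 b) hw1 (fun _ _ => Set.mem_univ _)

lemma exp_scale_bound {ρ z : ℝ} (hρ : 0 ≤ ρ) (hz : 0 ≤ z) :
    |Real.exp (-(ρ * z) / 2) - Real.exp (-z / 2)| ≤ 2 * |ρ - 1| := by
  have key : ∀ a b w : ℝ, 0 < a → a ≤ b → 0 ≤ w →
      Real.exp (-(a * w)) - Real.exp (-(b * w)) ≤ (b - a) / a := by
    intro a b w ha hab hw
    have h1 : 1 - (b - a) * w ≤ Real.exp (-((b - a) * w)) := by
      linarith [Real.add_one_le_exp (-((b - a) * w))]
    have h2 : Real.exp (-(b * w)) = Real.exp (-(a * w)) * Real.exp (-((b - a) * w)) := by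
      rw [← Real.exp_add]; congr 1; ring
    have h3 : a * w * Real.exp (-(a * w)) ≤ 1 := by
      rw [Real.exp_neg, ← div_eq_mul_inv, div_le_one (Real.exp_pos _)]
      linarith [Real.add_one_le_exp (a * w)]
    have h4 := Real.exp_pos (-(a * w))
    calc Real.exp (-(a * w)) - Real.exp (-(b * w))
        ≤ Real.exp (-(a * w)) * ((b - a) * w) := by rw [h2]; nlinarith
      _ = (b - a) / a * (a * w * Real.exp (-(a * w))) := by field_simp
      _ ≤ (b - a) / a * 1 := by gcongr
      _ = (b - a) / a := mul_one _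
  have hle : ∀ a w : ℝ, 0 ≤ a → 0 ≤ w → Real.exp (-(a * w)) ≤ 1 := fun a w ha hw =>
    Real.exp_le_one_iff.2 (by nlinarith)
  rw [show -(ρ * z) / 2 = -(ρ * (z / 2)) by ring, show -z / 2 = -(1 * (z / 2)) by ring]
  rcases le_or_gt ρ (1 / 2) with hρ2 | hρ2
  · have e1 := hle ρ (z / 2) hρ (by linarith)
    have e2 := hle 1 (z / 2) zero_le_one (by linarith)
    have p1 := Real.exp_pos (-(ρ * (z / 2)))
    have p2 := Real.exp_pos (-(1 * (z / 2)))
    have hb : 1 / 2 ≤ |ρ - 1| := by rw [abs_sub_comm, abs_of_nonneg] <;> linarith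
    rw [abs_le]; constructor <;> linarith
  rcases le_total ρ 1 with h | h
  · have := key ρ 1 (z / 2) (by linarith) h (by linarith)
    have hm : Real.exp (-(1 * (z / 2))) ≤ Real.exp (-(ρ * (z / 2))) :=
      Real.exp_le_exp.2 (by nlinarith)
    rw [abs_of_nonneg (by linarith), abs_sub_comm, abs_of_nonneg (by linarith : 0 ≤ 1 - ρ)]
    refine this.trans ?_
    rw [div_le_iff₀ (by linarith)]; nlinarith
  · have := key 1 ρ (z / 2) one_pos h (by linarith)
    have hm : Real.exp (-(ρ * (z / 2))) ≤ Real.exp (-(1 * (z / 2))) :=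
      Real.exp_le_exp.2 (by nlinarith)
    rw [abs_sub_comm, abs_of_nonneg (by linarith), abs_of_nonneg (by linarith : 0 ≤ ρ - 1)]
    linarith

/-- Dependence on a rescaling of all weights. -/
lemma moment_scale (ν : Measure ℝ) [IsFiniteMeasure ν] (G : Measure (ι → ℝ))
    [IsProbabilityMeasure G] (c : ι → ℝ) (r : ℝ) (n : ℕ) :
    |moment ν G (fun j => r * c j) n - moment ν G c n|
      ≤ 2 * |r ^ 2 - 1| * ν.real Set.univ ^ n := by
  rw [moment_eq, moment_eq,
    ← integral_sub (integrable_exp_quad ν G _ n) (integrable_exp_quad ν G c n)]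
  have hm : (Measure.pi fun _ : Fin n => G.prod (symm2 ν)).real Set.univ
      = ν.real Set.univ ^ n := by
    rw [← symm2_real_univ ν]
    simp [measureReal_def, Measure.pi_univ, Measure.prod_prod,
      ← Set.univ_prod_univ, ENNReal.toReal_pow]
  rw [← hm, ← Real.norm_eq_abs]
  refine norm_integral_le_of_norm_le_const (ae_of_all _ fun p => ?_)
  have hq : quad (fun j => r * c j) p = r ^ 2 * quad c p := by
    simp only [quad, Finset.mul_sum]
    refine Finset.sum_congr rfl fun j _ => ?_
    rw [← mul_pow, Finset.mul_sum]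
    congr 1
    exact Finset.sum_congr rfl fun a _ => by ring
  have h0 : 0 ≤ quad c p := Finset.sum_nonneg fun j _ => sq_nonneg _
  rw [hq, Real.norm_eq_abs]
  exact exp_scale_bound (by positivity) (by positivity)

lemma abs_gibbs_cosTr_le (ν : Measure ℝ) [IsFiniteMeasure ν] (G : Measure (ι → ℝ))
    [IsProbabilityMeasure G] (c g : ι → ℝ) :
    |∫ x, cosTr ν (field c g x) ∂G| ≤ ν.real Set.univ := by
  simpa using norm_integral_le_of_norm_le_const (μ := G)
    (f := fun x => cosTr ν (field c g x)) (ae_of_all _ fun x => by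
      simpa using abs_cosTr_le ν (field c g x))

lemma hasSum_moment (ν : Measure ℝ) [IsFiniteMeasure ν] (hν : ν.real Set.univ < 1)
    (G : Measure (ι → ℝ)) [IsProbabilityMeasure G] (c : ι → ℝ) :
    HasSum (fun n : ℕ => moment ν G c (n + 1) / (n + 1))
      (-∫ g, Real.log (1 - ∫ x, cosTr ν (field c g x) ∂G) ∂gaussVec ι) := by
  set m := ν.real Set.univ
  have hm0 : 0 ≤ m := measureReal_nonneg
  have hU := abs_gibbs_cosTr_le ν G c
  have hmeas : Measurable fun g : ι → ℝ => ∫ x, cosTr ν (field c g x) ∂G :=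
    (StronglyMeasurable.integral_prod_right
      (f := fun g x => cosTr ν (field c g x))
      (by exact ((measurable_cosTr ν).comp (by unfold field; fun_prop)).stronglyMeasurable)).measurable
  rw [← integral_neg]
  have hm1 : |m| < 1 := by rwa [abs_of_nonneg hm0]
  have := hasSum_integral_of_dominated_convergence (μ := gaussVec ι)
    (F := fun (n : ℕ) g => (∫ x, cosTr ν (field c g x) ∂G) ^ (n + 1) / (n + 1))
    (f := fun g => -Real.log (1 - ∫ x, cosTr ν (field c g x) ∂G))
    (fun n _ => m ^ (n + 1) / (n + 1))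
    (fun n => ((hmeas.pow_const (n + 1)).div_const _).aestronglyMeasurable)
    (fun n => ae_of_all _ fun g => by
      rw [Real.norm_eq_abs, abs_div, abs_pow, abs_of_nonneg (by positivity : (0:ℝ) ≤ n + 1)]
      gcongr; exact hU g)
    (ae_of_all _ fun _ => (Real.hasSum_pow_div_log_of_abs_lt_one hm1).summable)
    (integrable_const _)
    (ae_of_all _ fun g => Real.hasSum_pow_div_log_of_abs_lt_one ((hU g).trans_lt hν))
  simpa [moment, integral_div] using this

/-- One pattern: joint versus blocks. -/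
lemma log_one_sub_convex (ν : Measure ℝ) [IsFiniteMeasure ν] (hν : ν.real Set.univ < 1)
    (G : Measure (ι → ℝ)) [IsProbabilityMeasure G] (c : ι → ℝ) (cb : β → ι → ℝ) (w : β → ℝ)
    (hw0 : ∀ b, 0 ≤ w b) (hw1 : ∑ b, w b = 1) (hc : ∀ j, c j ^ 2 = ∑ b, w b * cb b j ^ 2) :
    ∑ b, w b * ∫ g, Real.log (1 - ∫ x, cosTr ν (field (cb b) g x) ∂G) ∂gaussVec ι
      ≤ ∫ g, Real.log (1 - ∫ x, cosTr ν (field c g x) ∂G) ∂gaussVec ι := by
  have h2 : HasSum (fun n : ℕ => ∑ b, w b * (moment ν G (cb b) (n + 1) / (n + 1)))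
      (∑ b, w b * -∫ g, Real.log (1 - ∫ x, cosTr ν (field (cb b) g x) ∂G) ∂gaussVec ι) :=
    hasSum_sum fun b _ => (hasSum_moment ν hν G (cb b)).mul_left _
  have := hasSum_le (fun n : ℕ => ?_) (hasSum_moment ν hν G c) h2
  · simp only [mul_neg, Finset.sum_neg_distrib] at this
    linarith
  · simp only [← mul_div_assoc, ← Finset.sum_div]
    exact div_le_div_of_nonneg_right (moment_convex ν G c cb w hw0 hw1 hc _) (by positivity)

/-- One pattern: rescaling. -/
lemma log_one_sub_scale (ν : Measure ℝ) [IsFiniteMeasure ν] (hν : ν.real Set.univ < 1)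
    (G : Measure (ι → ℝ)) [IsProbabilityMeasure G] (c : ι → ℝ) (r : ℝ) :
    |(∫ g, Real.log (1 - ∫ x, cosTr ν (field (fun j => r * c j) g x) ∂G) ∂gaussVec ι)
        - ∫ g, Real.log (1 - ∫ x, cosTr ν (field c g x) ∂G) ∂gaussVec ι|
      ≤ 2 * |r ^ 2 - 1| * (-Real.log (1 - ν.real Set.univ)) := by
  have h := ((hasSum_moment ν hν G fun j => r * c j).sub (hasSum_moment ν hν G c))
  have hb : HasSum (fun n : ℕ => 2 * |r ^ 2 - 1| * (ν.real Set.univ ^ (n + 1) / (n + 1)))
      (2 * |r ^ 2 - 1| * (-Real.log (1 - ν.real Set.univ))) :=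
    (Real.hasSum_pow_div_log_of_abs_lt_one
      (by rwa [abs_of_nonneg measureReal_nonneg])).mul_left _
  have hle : ∀ n : ℕ, |moment ν G (fun j => r * c j) (n + 1) / (n + 1) - moment ν G c (n + 1) / (n + 1)|
      ≤ 2 * |r ^ 2 - 1| * (ν.real Set.univ ^ (n + 1) / (n + 1)) := fun n => by
    rw [← sub_div, abs_div, abs_of_nonneg (by positivity : (0:ℝ) ≤ n + 1), ← mul_div_assoc]
    exact div_le_div_of_nonneg_right (moment_scale ν G c r _) (by positivity)
  rw [abs_le]
  constructor
  · have := hasSum_le (fun n => (abs_le.1 (hle n)).2) h hb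
    linarith
  · have := hasSum_le (fun n => (abs_le.1 (hle n)).1) hb.neg h
    linarith

end Vale.Agent.P157
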