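import Vale.Agent.P157.Models
import Mathlib.Topology.Order.LiminfLimsup
import Mathlib.Analysis.Asymptotics.SpecificAsymptotics

/-!
Approximate superadditivity gives the existence of the limit.
-/

open MeasureTheory ProbabilityTheory Filter Topology
open scoped BigOperators

namespace Vale.Agent.P157

/-- A bounded sequence with approximate superadditivity converges. -/
lemma tendsto_of_approx_superadditive {a : ℕ → ℝ} {A C D : ℝ} (hC : 0 ≤ C) (hD : 0 ≤ D)
    (hA : ∀ N, |a N| ≤ A)
    (h : ∀ n N : ℕ, 1 ≤ n → 1 ≤ N → a n - C / Real.sqrt n - D * n / N ≤ a N) :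
    ∃ L, Tendsto a atTop (𝓝 L) := by
  set S : Set ℝ := (fun n : ℕ => a n - C / Real.sqrt n) '' Set.Ici 1
  have hne : S.Nonempty := ⟨_, ⟨1, Set.self_mem_Ici, rfl⟩⟩
  have hbdd : BddAbove S := by
    refine ⟨A, ?_⟩
    rintro _ ⟨n, -, rfl⟩
    have : 0 ≤ C / Real.sqrt n := div_nonneg hC (Real.sqrt_nonneg _)
    linarith [(abs_le.1 (hA n)).2]
  refine ⟨sSup S, tendsto_order.2 ⟨fun x hx => ?_, fun x hx => ?_⟩⟩
  · obtain ⟨_, ⟨n, hn, rfl⟩, hgt⟩ := exists_lt_of_lt_csSup hne hx
    simp only [] at hgt
    have hlim : Tendsto (fun N : ℕ => a n - C / Real.sqrt n - D * n / N) atTop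
        (𝓝 (a n - C / Real.sqrt n)) := by
      simpa using (tendsto_const_nhds (x := a n - C / Real.sqrt n)).sub
        (tendsto_const_div_atTop_nhds_zero_nat (D * n))
    filter_upwards [hlim.eventually (lt_mem_nhds hgt), eventually_ge_atTop 1] with N hN hN1
    exact hN.trans_le (h n N hn hN1)
  · have hlim : Tendsto (fun N : ℕ => sSup S + C / Real.sqrt N) atTop (𝓝 (sSup S)) := by
      have h0 : Tendsto (fun N : ℕ => C / Real.sqrt N) atTop (𝓝 0) :=
        Tendsto.div_atTop tendsto_const_nhds
          (Real.tendsto_sqrt_atTop.comp tendsto_natCast_atTop_atTop)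
      simpa using (tendsto_const_nhds (x := sSup S)).add h0
    filter_upwards [hlim.eventually (gt_mem_nhds hx), eventually_ge_atTop 1] with N hN hN1
    refine lt_of_le_of_lt ?_ hN
    have := le_csSup hbdd ⟨N, hN1, rfl⟩
    linarith

lemma map_proj_univ {ι ι' : Type*} [Fintype ι] [Fintype ι'] (e : ι ≃ ι') (μ : Measure (ι → ℝ))
    [IsProbabilityMeasure μ] (f : ℝ → ℝ) (hf : Measurable f) (M : ℕ) :
    press (μ.map fun x j => x (e.symm j)) f M = press μ f M := by
  have hφ : Measurable fun (x : ι → ℝ) (j : ι') => x (e.symm j) :=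
    measurable_pi_lambda _ fun j => measurable_pi_apply _
  have hpat : (patterns ι M).map (fun g a j => g a (e.symm j)) = patterns ι' M := by
    unfold patterns
    have := Measure.pi_map_pi (μ := fun _ : Fin M => gaussVec ι)
      (f := fun _ (z : ι → ℝ) (j : ι') => z (e.symm j)) (fun _ => hφ.aemeasurable)
    rw [this]
    congr 1
    funext a
    exact map_comp_injective (gaussianReal 0 1) e.symm.injective
  have : IsProbabilityMeasure (μ.map fun x j => x (e.symm j)) :=
    Measure.isProbabilityMeasure_map hφ.aemeasurable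
  have hmg : Measurable fun (g : Fin M → ι → ℝ) a j => g a (e.symm j) :=
    measurable_pi_lambda _ fun a => hφ.comp (measurable_pi_apply a)
  rw [press, pressureW, ← hpat, integral_map hmg.aemeasurable
    (measurable_logMean_param (by unfold energy field; fun_prop)).aestronglyMeasurable]
  refine integral_congr_ae (ae_of_all _ fun g => ?_)
  dsimp only
  unfold logMean
  rw [integral_map (f := fun y => Real.exp (0 + energy f (fun _ : Fin M => unit ι')
      (fun a j => g a (e.symm j)) y)) hφ.aemeasurable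
    (Real.measurable_exp.comp (measurable_base_add_energy hf measurable_const _ _)).aestronglyMeasurable]
  congr 1
  refine integral_congr_ae (ae_of_all _ fun x => ?_)
  dsimp only
  congr 2
  simp only [energy]
  refine Finset.sum_congr rfl fun a _ => ?_
  congr 1
  simp only [field, unit, Fintype.card_congr e]
  exact (e.symm.sum_comp (fun i => g a i * (1 / Real.sqrt (Fintype.card ι') * x i)))

lemma pressure_eq_press (α : ℝ) (f : ℝ → ℝ) (N : ℕ) (μ : Measure (Fin N → ℝ)) :
    pressure α f N μ = press μ f ⌊α * N⌋₊ / N := by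
  simp only [pressure, press, pressureW, logMean, energy, field, unit, Fintype.card_fin, zero_add,
    patterns, gaussVec]
  congr 1
  refine integral_congr_ae (ae_of_all _ fun g => ?_)
  dsimp only
  congr 1
  refine integral_congr_ae (ae_of_all _ fun x => ?_)
  dsimp only
  congr 1
  refine Finset.sum_congr rfl fun a _ => ?_
  congr 1
  rw [Finset.sum_div]
  exact Finset.sum_congr rfl fun i _ => by ring

/-- The abstract limit theorem for a family of configuration measures. -/
lemma exists_limit {μfam : ∀ N, Measure (Fin N → ℝ)}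
    (hprob : ∀ N, 1 ≤ N → IsProbabilityMeasure (μfam N)) {c₀ : ℝ} {ν : Measure ℝ}
    [IsFiniteMeasure ν] (hν : ν.real Set.univ < 1) {α δ : ℝ} (hα : 0 < α) (hδ : 0 ≤ δ)
    (hsplit : ∀ n k r : ℕ, 1 ≤ n → 1 ≤ k * n + r →
      k * (press (μfam n) (potential c₀ ν) ⌊α * (n : ℝ)⌋₊
          - potBound c₀ ν * ((α + 1) / 2 + 1 + 2 * α * δ) * Real.sqrt n)
        - potBound c₀ ν * (α * r)
        ≤ press (μfam (k * n + r)) (potential c₀ ν) ⌊α * ((k * n + r : ℕ) : ℝ)⌋₊) :
    ∃ L, Tendsto (fun N => pressure α (potential c₀ ν) N (μfam N)) atTop (𝓝 L) := by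
  set B := potBound c₀ ν
  have hB : 0 ≤ B := potBound_nonneg c₀ hν
  set C := B * ((α + 1) / 2 + 1 + 2 * α * δ)
  have hC : 0 ≤ C := by positivity
  set a : ℕ → ℝ := fun N => pressure α (potential c₀ ν) N (μfam N) with ha
  have hbound : ∀ N, |a N| ≤ B * α := by
    intro N
    rcases Nat.eq_zero_or_pos N with rfl | hN
    · simp only [ha, pressure, Nat.cast_zero, div_zero, abs_zero]; positivity
    · have := hprob N hN
      have hN' : (0 : ℝ) < N := by exact_mod_cast hN
      simp only [ha, pressure_eq_press, abs_div, abs_of_pos hN']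
      rw [div_le_iff₀ hN']
      refine (abs_press_le (measurable_potential c₀ ν) (abs_potential_le c₀ ν hν) _).trans ?_
      calc (⌊α * (N : ℝ)⌋₊ : ℝ) * B ≤ α * N * B :=
            mul_le_mul_of_nonneg_right (Nat.floor_le (by positivity)) hB
        _ = B * α * N := by ring
  refine tendsto_of_approx_superadditive (A := B * α) (C := C) (D := 2 * (B * α) + C) hC
    (by positivity) hbound fun n N hn hN => ?_
  have hn' : (0 : ℝ) < n := by exact_mod_cast hn
  have hN' : (0 : ℝ) < N := by exact_mod_cast hN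
  set k := N / n
  set r := N % n
  have hNeq : k * n + r = N := Nat.div_add_mod' N n
  have hr : (r : ℝ) ≤ n := by exact_mod_cast (Nat.mod_lt N (by omega)).le
  have h := hsplit n k r hn (by omega)
  rw [hNeq] at h
  have hkn : (k : ℝ) * n = N - r := by
    rw [eq_sub_iff_add_eq]; exact_mod_cast hNeq
  have e1 : press (μfam n) (potential c₀ ν) ⌊α * (n : ℝ)⌋₊ = a n * n := by
    simp only [ha, pressure_eq_press]; field_simp
  have e2 : press (μfam N) (potential c₀ ν) ⌊α * (N : ℝ)⌋₊ = a N * N := by
    simp only [ha, pressure_eq_press]; field_simp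
  rw [e1, e2] at h
  have hsq : 0 < Real.sqrt n := Real.sqrt_pos.2 hn'
  have hsq1 : 1 ≤ Real.sqrt n := Real.one_le_sqrt.2 (by exact_mod_cast hn)
  have e3 : C / Real.sqrt n * n = C * Real.sqrt n := by
    field_simp; rw [Real.sq_sqrt hn'.le]
  have main : (a n - C / Real.sqrt n) * (N - r) - B * α * r ≤ a N * N := by
    calc (a n - C / Real.sqrt n) * (N - r) - B * α * r
        = k * (a n * n - C * Real.sqrt n) - B * (α * r) := by rw [← hkn, ← e3]; ring
      _ ≤ a N * N := h
  have hCn : 0 ≤ C / Real.sqrt n := div_nonneg hC hsq.le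
  have hCle : C / Real.sqrt n ≤ C := div_le_self hC hsq1
  have hra : a n * r ≤ B * α * r :=
    mul_le_mul_of_nonneg_right (abs_le.1 (hbound n)).2 (Nat.cast_nonneg r)
  have hrr : B * α * r ≤ B * α * n := mul_le_mul_of_nonneg_left hr (by positivity)
  have : (a n - C / Real.sqrt n) * N - (2 * (B * α) + C) * n ≤ a N * N := by
    nlinarith [mul_nonneg hCn (Nat.cast_nonneg r : (0:ℝ) ≤ r), mul_nonneg hC hn'.le]
  rw [← sub_nonneg] at this ⊢
  have e4 : a N - (a n - C / Real.sqrt n - (2 * (B * α) + C) * n / N)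
      = (a N * N - ((a n - C / Real.sqrt n) * N - (2 * (B * α) + C) * n)) / N := by
    field_simp
  rw [e4]
  positivity

variable (c₀ : ℝ) (ν : Measure ℝ) [IsFiniteMeasure ν]

lemma sphereMeasure_eq {N : ℕ} (hN : 1 ≤ N) : sphereMeasure N = sphereOn (Fin N) :=
  (sphereOn_polar hN).2.symm

lemma isingMeasure_eq (N : ℕ) : isingMeasure N = isingOn (Fin N) := rfl

theorem ising_limit (hν : ν.real Set.univ < 1) {α : ℝ} (hα : 0 < α) :
    ∃ L, Tendsto (fun N => pressure α (potential c₀ ν) N (isingMeasure N)) atTop (𝓝 L) := by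
  refine exists_limit (fun N _ => by rw [isingMeasure_eq]; infer_instance) hν hα le_rfl ?_
  intro n k r hn _
  have h := press_split (μ := isingOn (Site k n r)) (P := Measure.dirac ())
    (σ := fun _ _ => (1 : ℝ)) (c₀ := c₀) hν hn (fun _ => measurable_const)
    (ising_marginal k n r) (α := α) (δ := 0) hα (fun b => by simp)
  have e : press (isingMeasure (k * n + r)) (potential c₀ ν) ⌊α * ((k * n + r : ℕ) : ℝ)⌋₊
      = press (isingOn (Site k n r)) (potential c₀ ν) ⌊α * ((k * n + r : ℕ) : ℝ)⌋₊ := by
    let e0 : Site k n r ≃ Fin (k * n + r) :=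
      (Equiv.sumCongr finProdFinEquiv (Equiv.refl _)).trans finSumFinEquiv
    rw [isingMeasure_eq, ← isingOn_reindex e0,
      map_proj_univ e0 _ _ (measurable_potential c₀ ν)]
  rw [e, isingMeasure_eq]
  exact h

theorem sphere_limit (hν : ν.real Set.univ < 1) {α : ℝ} (hα : 0 < α) :
    ∃ L, Tendsto (fun N => pressure α (potential c₀ ν) N (sphereMeasure N)) atTop (𝓝 L) := by
  have hk : 0 ≤ kappa := variance_nonneg _ _
  refine exists_limit (δ := 2 * (kappa + 1))
    (fun N hN => by rw [sphereMeasure_eq hN]; infer_instance) hν hα (by positivity) ?_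
  intro n k r hn hN
  have hσ : ∀ b, Measurable (blockScale k n r b) := fun b => by
    unfold blockScale separate; fun_prop
  have h := press_split (μ := sphereOn (Site k n r)) (P := gaussVec (Site k n r))
    (σ := blockScale k n r) (c₀ := c₀) hν hn hσ (sphere_marginal k n r hn)
    (α := α) (δ := 2 * (kappa + 1)) hα (sphere_scale_bound k n r hn)
  have e : press (sphereMeasure (k * n + r)) (potential c₀ ν) ⌊α * ((k * n + r : ℕ) : ℝ)⌋₊
      = press (sphereOn (Site k n r)) (potential c₀ ν) ⌊α * ((k * n + r : ℕ) : ℝ)⌋₊ := by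
    let e0 : Site k n r ≃ Fin (k * n + r) :=
      (Equiv.sumCongr finProdFinEquiv (Equiv.refl _)).trans finSumFinEquiv
    rw [sphereMeasure_eq hN, ← sphereOn_reindex e0,
      map_proj_univ e0 _ _ (measurable_potential c₀ ν)]
  rw [e, sphereMeasure_eq hn]
  exact h

end Vale.Agent.P157
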